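import Vale.Agent.P146.H767.SaM
import Vale.Agent.P146.H693.Fub

/-!
# P146: the bracket and the gain on the product base

The weight is a finite sum `∑ f_i(z_deep) G_i(z_a)`, `z_deep = a g`, `z_a = a g + b g'`.  Its
marginal at `z_a` is a weight of the base position `z_a`, bounded by the same constant.
-/

open MeasureTheory ProbabilityTheory Filter Topology

namespace Vale.Agent.P146.H767

open Vale.Agent.P157.Lv Vale.Agent.P146.H425 Vale.Agent.P146.R1 Vale.Agent.P146.H376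
  Vale.Agent.P146.H332 Vale.Agent.P146.H325
open Vale.Agent.P146.H432 (Dn Lg AntiN ev_small ev_big)
open Vale.Agent.P146.H946 (Dz)

set_option linter.unusedSectionVars false

section gen

variable {κ : Type} [Fintype κ] [DecidableEq κ] {ι : Type} [Fintype ι]
  {f G : ι → (κ → ℝ) → ℝ} {φ : (κ → ℝ) → ℝ} {a b c : ℝ}

/-- The marginal weight. -/
noncomputable def qb (f G : ι → (κ → ℝ) → ℝ) (a b c : ℝ) (y : κ → ℝ) : ℝ :=
  ∑ i, (∫ w, f i ((a ^ 2 / c ^ 2) • (c • y) + (-(a * b / c)) • w) ∂(gI κ)) * G i (c • y)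

lemma eg_comb (hf : ∀ i, EG (f i)) (i : ι) (y : κ → ℝ) :
    EG fun w => f i ((a ^ 2 / c ^ 2) • (c • y) + (-(a * b / c)) • w) :=
  EG.add_smul (hf i) _ _

lemma eg_qb (hf : ∀ i, EG (f i)) (hG : ∀ i, EG (G i)) : EG (qb f G a b c) := by
  refine EG.sum _ fun i _ => ?_
  refine EG.mul ?_ (EG.smul' (hG i) c)
  have h1 := EG.smul' (EG.conv (hf i) (-(a * b / c))) (a ^ 2 / c ^ 2 * c)
  simp_rw [smul_smul]
  exact h1

lemma qb_eq (hf : ∀ i, EG (f i)) (y : κ → ℝ) : qb f G a b c y =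
    ∫ w, ∑ i, f i ((a ^ 2 / c ^ 2) • (c • y) + (-(a * b / c)) • w) * G i (c • y) ∂(gI κ) := by
  rw [integral_finsetSum _ fun i _ => ((eg_comb hf i y).integrable.mul_const _)]
  unfold qb
  refine Finset.sum_congr rfl fun i _ => ?_
  rw [integral_mul_const]

lemma qb_nonneg (hf : ∀ i, EG (f i)) (h : ∀ v u, 0 ≤ ∑ i, f i v * G i u) (y : κ → ℝ) :
    0 ≤ qb f G a b c y := by
  rw [qb_eq hf]
  exact integral_nonneg fun w => h _ _

lemma qb_le (hf : ∀ i, EG (f i)) {Q : ℝ} (h : ∀ v u, ∑ i, f i v * G i u ≤ Q) (y : κ → ℝ) :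
    qb f G a b c y ≤ Q := by
  rw [qb_eq hf]
  have h1 : ∫ w, ∑ i, f i ((a ^ 2 / c ^ 2) • (c • y) + (-(a * b / c)) • w) * G i (c • y)
      ∂(gI κ) ≤ ∫ _w : κ → ℝ, Q ∂(gI κ) :=
    integral_mono (integrable_finsetSum _ fun i _ => ((eg_comb hf i y).integrable.mul_const _))
      (integrable_const _) fun w => h _ _
  simpa using h1

/-- **The marginal.** -/
theorem marg (hf : ∀ i, EG (f i)) (hG : ∀ i, EG (G i)) (hφ : EG φ) (ha : 0 ≤ a) (hb : 0 ≤ b)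
    (hc : 0 < c) (h : a ^ 2 + b ^ 2 = c ^ 2) :
    ∫ g, (∫ g', (∑ i, f i (a • g) * G i (a • g + b • g')) * φ (a • g + b • g') ∂(gI κ)) ∂(gI κ) =
      ∫ y, qb f G a b c y * φ (c • y) ∂(gI κ) := by
  have e1 : ∀ g g' : κ → ℝ, (∑ i, f i (a • g) * G i (a • g + b • g')) * φ (a • g + b • g') =
      ∑ i, f i (a • g) * (G i (a • g + b • g') * φ (a • g + b • g')) := by
    intro g g'
    rw [Finset.sum_mul]
    refine Finset.sum_congr rfl fun i _ => ?_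
    ring
  simp only [e1]
  have i1 : ∀ (i : ι) (g : κ → ℝ), EG fun g' => G i (a • g + b • g') * φ (a • g + b • g') :=
    fun i g => EG.add_smul ((hG i).mul hφ) _ _
  have e2 : ∀ g : κ → ℝ, ∫ g', ∑ i, f i (a • g) * (G i (a • g + b • g') * φ (a • g + b • g'))
      ∂(gI κ) = ∑ i, f i (a • g) * ∫ g', G i (a • g + b • g') * φ (a • g + b • g') ∂(gI κ) := by
    intro g
    rw [integral_finsetSum _ fun i _ => ((i1 i g).const_mul _).integrable]
    refine Finset.sum_congr rfl fun i _ => ?_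
    rw [integral_const_mul]
  simp only [e2]
  have i2 : ∀ i : ι, EG fun g : κ → ℝ =>
      f i (a • g) * ∫ g', G i (a • g + b • g') * φ (a • g + b • g') ∂(gI κ) := by
    intro i
    exact (EG.smul' (hf i) a).mul (EG.smul' (EG.conv ((hG i).mul hφ) b) a)
  rw [integral_finsetSum _ fun i _ => (i2 i).integrable]
  have i3 : ∀ i : ι, EG fun y : κ → ℝ =>
      (∫ w, f i ((a ^ 2 / c ^ 2) • (c • y) + (-(a * b / c)) • w) ∂(gI κ)) * G i (c • y) *
        φ (c • y) := by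
    intro i
    refine EG.mul (EG.mul ?_ (EG.smul' (hG i) c)) (EG.smul' hφ c)
    have h1 := EG.smul' (EG.conv (hf i) (-(a * b / c))) (a ^ 2 / c ^ 2 * c)
    simp_rw [smul_smul]
    exact h1
  have e3 : (fun y => qb f G a b c y * φ (c • y)) = fun y => ∑ i,
      (∫ w, f i ((a ^ 2 / c ^ 2) • (c • y) + (-(a * b / c)) • w) ∂(gI κ)) * G i (c • y) *
        φ (c • y) := by
    funext y
    unfold qb
    rw [Finset.sum_mul]
  rw [e3, integral_finsetSum _ fun i _ => (i3 i).integrable]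
  refine Finset.sum_congr rfl fun i _ => ?_
  have k := H693.bridge (hf i) ((hG i).mul hφ) 0 ha hb hc h
  simp only [zero_add] at k
  have e4 : ∫ g, f i (a • g) * (∫ g', G i (a • g + b • g') * φ (a • g + b • g') ∂(gI κ))
      ∂(gI κ) = ∫ g, (∫ g', f i (a • g) * (G i (a • g + b • g') * φ (a • g + b • g')) ∂(gI κ))
      ∂(gI κ) := by
    simp only [integral_const_mul]
  rw [e4, k]
  refine integral_congr_ae (Filter.Eventually.of_forall fun y => ?_)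
  simp only
  ring

/-- the mass of the marginal -/
lemma marg_one (hf : ∀ i, EG (f i)) (hG : ∀ i, EG (G i)) (ha : 0 ≤ a) (hb : 0 ≤ b)
    (hc : 0 < c) (h : a ^ 2 + b ^ 2 = c ^ 2) :
    ∫ g, (∫ g', ∑ i, f i (a • g) * G i (a • g + b • g') ∂(gI κ)) ∂(gI κ) =
      ∫ y, qb f G a b c y ∂(gI κ) := by
  have k := marg hf hG (EG.const 1) ha hb hc h
  simpa using k

end gen

/-- **The bracket on the product base.** -/
theorem bracket_p {β a0 a e d w c : ℝ} (hβ : 0 < β) (hU : H695.UpM β a0) (haa : a0 < a)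
    (hd : 0 ≤ d) (hw : 0 ≤ w) (hc0 : 0 ≤ c) (hc : 2 * (d + w) + 2 * c < 5 * e) (Q : ℝ) :
    ∀ᶠ n : ℕ in atTop, AntiN n β → ∀ x y s τ b1 b2 : ℝ, (n : ℝ) ^ (-(1 / 6) + e) ≤ x →
      x ≤ (n : ℝ) ^ (-a) → x ≤ 1 → (n : ℝ) ^ (-w) * x ^ 2 ≤ s → 0 ≤ τ → s + τ < 1 → x / 8 ≤ y →
      y ≤ x → (n : ℝ) ^ (1 - d) * s * x ^ 3 ≤ Dn n β x s →
      0 ≤ b1 → 0 ≤ b2 → b1 ^ 2 + b2 ^ 2 = 1 - (s + τ) →
      ∀ (ι : Type) [Fintype ι] (f G : ι → (Pair n → ℝ) → ℝ), (∀ i, EG (f i)) → (∀ i, EG (G i)) →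
      (∀ v u, 0 ≤ ∑ i, f i v * G i u) → ∀ A : ℝ, 0 < A →
      ∫ g, (∫ g', ∑ i, f i (b1 • g) * G i (b1 • g + b2 • g') ∂(gI (Pair n))) ∂(gI (Pair n)) = A →
      (∀ v u, ∑ i, f i v * G i u ≤ (n : ℝ) ^ Q * A) →
      (x - y) / 2 * (τ * ∫ g, (∫ g', (∑ i, f i (b1 • g) * G i (b1 • g + b2 • g')) *
        S2 y τ x s (lz (β / √n) (SkS (n := n))) (Dz (β / √n)) (b1 • g + b2 • g')
          ∂(gI (Pair n))) ∂(gI (Pair n))) ≤
        (τ / s + (n : ℝ) ^ (-c)) * Dn n β x s * A := by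
  filter_upwards [bracket_n hβ hU haa hd hw hc0 hc Q, eventually_ge_atTop 1]
    with n h1 h7 hA x y s τ b1 b2 hxl hxu hx1 hs hτ hsτ hy hyx hD hb1 hb2 hbb ι _ f G hf hG h0 A
      hA0 hAe hQ
  have hn1 : (1 : ℝ) ≤ n := by exact_mod_cast h7
  have hn0 : (0 : ℝ) < n := by linarith
  have hx0 : 0 < x := (Real.rpow_pos_of_pos hn0 _).trans_le hxl
  have hc' : 0 < √(1 - (s + τ)) := Real.sqrt_pos.2 (by linarith)
  have hbc : b1 ^ 2 + b2 ^ 2 = (√(1 - (s + τ))) ^ 2 := by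
    rw [Real.sq_sqrt (by linarith)]
    exact hbb
  have hφ : EG (S2 y τ x s (lz (β / √n) (SkS (n := n))) (Dz (β / √n))) :=
    eg_S2 (c11_lz (β / √n) (SkS (n := n))) hx0 (by linarith) τ s
  have e1 := marg hf hG hφ hb1 hb2 hc' hbc
  have e2 := marg_one hf hG hb1 hb2 hc' hbc
  rw [hAe] at e2
  have k := h1 hA x y s τ hxl hxu hx1 hs hτ hsτ.le hy hyx hD
    (fun z => qb f G b1 b2 (√(1 - (s + τ))) z / A)
    (by
      have := (eg_qb (a := b1) (b := b2) (c := √(1 - (s + τ))) hf hG).const_mul (1 / A)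
      simpa [div_eq_inv_mul] using this)
    (fun z => div_nonneg (qb_nonneg hf h0 z) hA0.le)
    (by rw [integral_div, ← e2, div_self hA0.ne'])
    (fun z => by
      rw [div_le_iff₀ hA0]
      exact qb_le hf hQ z)
  rw [e1]
  have e3 : ∫ z, qb f G b1 b2 (√(1 - (s + τ))) z / A *
      S2 y τ x s (lz (β / √n) (SkS (n := n))) (Dz (β / √n)) (√(1 - (s + τ)) • z)
        ∂(gI (Pair n)) = (∫ z, qb f G b1 b2 (√(1 - (s + τ))) z *
      S2 y τ x s (lz (β / √n) (SkS (n := n))) (Dz (β / √n)) (√(1 - (s + τ)) • z)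
        ∂(gI (Pair n))) / A := by
    rw [← integral_div]
    refine integral_congr_ae (Eventually.of_forall fun z => ?_)
    simp only
    ring
  rw [e3] at k
  have k2 := mul_le_mul_of_nonneg_right k hA0.le
  refine (le_of_eq ?_).trans (k2.trans (le_of_eq ?_))
  · field_simp
  · ring

/-- **The gain on the product base.** -/
theorem gain_p {β a0 a e d w c : ℝ} (hβ : 0 < β) (hU : H695.UpM β a0) (haa : a0 < a)
    (hd : 0 ≤ d) (hw : 0 ≤ w) (hc0 : 0 ≤ c) (hc : 2 * (d + w) + 2 * c < 5 * e) (Q : ℝ) :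
    ∀ᶠ n : ℕ in atTop, AntiN n β → ∀ x xs y s τ b1 b2 : ℝ, (n : ℝ) ^ (-(1 / 6) + e) ≤ x →
      x ≤ (n : ℝ) ^ (-a) → x ≤ 1 → (n : ℝ) ^ (-w) * x ^ 2 ≤ s → 0 ≤ τ → s + τ < 1 → x / 8 ≤ y →
      y ≤ xs → xs ≤ x → (n : ℝ) ^ (1 - d) * s * x ^ 3 ≤ Dn n β x s →
      0 ≤ b1 → 0 ≤ b2 → b1 ^ 2 + b2 ^ 2 = 1 - (s + τ) →
      ∀ (ι : Type) [Fintype ι] (f G : ι → (Pair n → ℝ) → ℝ), (∀ i, EG (f i)) → (∀ i, EG (G i)) →
      (∀ v u, 0 ≤ ∑ i, f i v * G i u) → ∀ A : ℝ, 0 < A →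
      ∫ g, (∫ g', ∑ i, f i (b1 • g) * G i (b1 • g + b2 • g') ∂(gI (Pair n))) ∂(gI (Pair n)) = A →
      (∀ v u, ∑ i, f i v * G i u ≤ (n : ℝ) ^ Q * A) →
      (Dn n β x s - (1 + τ / s) * Dn n β xs s - (n : ℝ) ^ (-c) * Dn n β x s) * A ≤
        ∫ g, (∫ g', (∑ i, f i (b1 • g) * G i (b1 • g + b2 • g')) *
          (V2 y τ x s (lz (β / √n) (SkS (n := n))) (b1 • g + b2 • g') -
            V2 y τ xs s (lz (β / √n) (SkS (n := n))) (b1 • g + b2 • g'))
          ∂(gI (Pair n))) ∂(gI (Pair n)) := by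
  filter_upwards [gain_n hβ hU haa hd hw hc0 hc Q, eventually_ge_atTop 1]
    with n h1 h7 hA x xs y s τ b1 b2 hxl hxu hx1 hs hτ hsτ hy hyx hxs hD hb1 hb2 hbb ι _ f G hf hG
      h0 A hA0 hAe hQ
  have hn1 : (1 : ℝ) ≤ n := by exact_mod_cast h7
  have hn0 : (0 : ℝ) < n := by linarith
  have hx0 : 0 < x := (Real.rpow_pos_of_pos hn0 _).trans_le hxl
  have hy0 : 0 < y := by linarith
  have hc' : 0 < √(1 - (s + τ)) := Real.sqrt_pos.2 (by linarith)
  have hbc : b1 ^ 2 + b2 ^ 2 = (√(1 - (s + τ))) ^ 2 := by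
    rw [Real.sq_sqrt (by linarith)]
    exact hbb
  have hφ : EG (fun z => V2 y τ x s (lz (β / √n) (SkS (n := n))) z -
      V2 y τ xs s (lz (β / √n) (SkS (n := n))) z) :=
    (eg_V2 (c11_lz (β / √n) (SkS (n := n))) hx0 hy0 τ s).sub
      (eg_V2 (c11_lz (β / √n) (SkS (n := n))) (hy0.trans_le hyx) hy0 τ s)
  have e1 := marg hf hG hφ hb1 hb2 hc' hbc
  have e2 := marg_one hf hG hb1 hb2 hc' hbc
  rw [hAe] at e2
  have k := h1 hA x xs y s τ hxl hxu hx1 hs hτ hsτ.le hy hyx hxs hD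
    (fun z => qb f G b1 b2 (√(1 - (s + τ))) z / A)
    (by
      have := (eg_qb (a := b1) (b := b2) (c := √(1 - (s + τ))) hf hG).const_mul (1 / A)
      simpa [div_eq_inv_mul] using this)
    (fun z => div_nonneg (qb_nonneg hf h0 z) hA0.le)
    (by rw [integral_div, ← e2, div_self hA0.ne'])
    (fun z => by
      rw [div_le_iff₀ hA0]
      exact qb_le hf hQ z)
  rw [e1]
  have e3 : ∫ z, qb f G b1 b2 (√(1 - (s + τ))) z / A *
      (V2 y τ x s (lz (β / √n) (SkS (n := n))) (√(1 - (s + τ)) • z) -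
        V2 y τ xs s (lz (β / √n) (SkS (n := n))) (√(1 - (s + τ)) • z))
        ∂(gI (Pair n)) = (∫ z, qb f G b1 b2 (√(1 - (s + τ))) z *
      (V2 y τ x s (lz (β / √n) (SkS (n := n))) (√(1 - (s + τ)) • z) -
        V2 y τ xs s (lz (β / √n) (SkS (n := n))) (√(1 - (s + τ)) • z))
        ∂(gI (Pair n))) / A := by
    rw [← integral_div]
    refine integral_congr_ae (Eventually.of_forall fun z => ?_)
    simp only
    ring
  rw [e3] at k
  have k2 := mul_le_mul_of_nonneg_right k hA0.le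
  refine k2.trans (le_of_eq ?_)
  field_simp

end Vale.Agent.P146.H767
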