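import Vale.Agent.P146.H767.G3
import Vale.Agent.P146.H767.SaP

/-!
# P146: the gain with the late piece frozen, with numbers, on the product base
-/

open MeasureTheory ProbabilityTheory Filter Topology

namespace Vale.Agent.P146.H767

open Vale.Agent.P157.Lv Vale.Agent.P146.H425 Vale.Agent.P146.R1 Vale.Agent.P146.H376
  Vale.Agent.P146.H332 Vale.Agent.P146.H325
open Vale.Agent.P146.H432 (Dn Lg AntiN ev_small ev_big)
open Vale.Agent.P146.H946 (Dz)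

set_option linter.unusedSectionVars false

/-- **The gain with the late piece frozen, with numbers.** -/
theorem gain3_n {β a0 a e d w c : ℝ} (hβ : 0 < β) (hU : H695.UpM β a0) (haa : a0 < a)
    (hd : 0 ≤ d) (hw : 0 ≤ w) (hc0 : 0 ≤ c) (hc : 2 * (d + w) + 2 * c < 5 * e) (Q : ℝ) :
    ∀ᶠ n : ℕ in atTop, AntiN n β → ∀ x xs y s τ l ε : ℝ, (n : ℝ) ^ (-(1 / 6) + e) ≤ x →
      x ≤ (n : ℝ) ^ (-a) → x ≤ 1 → (n : ℝ) ^ (-w) * x ^ 2 ≤ s → 0 ≤ τ → s + τ ≤ 1 → x / 8 ≤ y →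
      y ≤ xs → xs < x → 0 ≤ l → l ≤ s → 0 < ε → ε ≤ 1 / 2 →
      (n : ℝ) ^ (1 - d) * s * x ^ 3 ≤ Dn n β x s →
      ∀ q : (Pair n → ℝ) → ℝ, EG q → (∀ z, 0 ≤ q z) → ∫ z, q z ∂(gI (Pair n)) = 1 →
        (∀ z, q z ≤ (n : ℝ) ^ Q) →
      Dn n β x s - (1 + τ / s) * Dn n β xs s - (n : ℝ) ^ (-c) * Dn n β x s -
          (4 * ε * Dn n β (2 * x) (s + τ) + ε * Dn n β ((x - xs) / ε) l) ≤
        ∫ z, q z * (V2 y τ x s (lz (β / √n) (SkS (n := n))) (√(1 - (s + τ)) • z) -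
          V3 y τ xs (s - l) x l (lz (β / √n) (SkS (n := n))) (√(1 - (s + τ)) • z))
          ∂(gI (Pair n)) := by
  filter_upwards [sa_num hβ hU haa hd hw hc0 hc Q, eventually_ge_atTop 1]
    with n h1 h7 hA x xs y s τ l ε hxl hxu hx1 hs hτ hsτ hy hyx hxs hl hls hε hε1 hD q hq h0 hi
      hQ
  have hn1 : (1 : ℝ) ≤ n := by exact_mod_cast h7
  have hn0 : (0 : ℝ) < n := by linarith
  have hx0 : 0 < x := (Real.rpow_pos_of_pos hn0 _).trans_le hxl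
  have hs0 : 0 < s := by
    have : 0 < (n : ℝ) ^ (-w) * x ^ 2 := by
      have := Real.rpow_pos_of_pos hn0 (-w)
      positivity
    linarith
  have hy0 : 0 < y := by linarith
  have hxs0 : 0 < xs := hy0.trans_le hyx
  obtain ⟨θ, E, S, b⟩ := h1 x s τ hxl hxu hs hτ hsτ hD
  have hc1 := hA.dd hxs0 (hxs.le.trans hx1) hs0.le (by linarith : s ≤ s + τ) hsτ
  have hHq : Hq q ≤ Q * Real.log n := by
    refine (Hq_le hq h0 hi hQ).trans (le_of_eq ?_)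
    rw [Real.log_rpow hn0]
  have k := gain3_sa (D := Dz (β / √n)) (c11_lz (β / √n) (SkS (n := n)))
    (cv_lz (β / √n) (SkS (n := n))) (x1 := (n : ℝ) ^ (-(1 / 6) : ℝ) / 2) (θ := θ) (R := 2)
    (δ := 2 * θ) (E := E) (S := S) b.h1 (b.hx8.trans hy) hyx hxs b.θ0 (by linarith [b.θ1])
    (by norm_num) (by linarith [b.θ0]) (by linarith [b.θ1]) (side b.θ0 b.θ1) hτ hl hls hs0 hsτ
    hε hε1 b.hE b.S0 b.hS hc1 hq h0 hi
  have k2 := b.hesa _ hHq
  have k3 := DD_mono (D := Dz (β / √n)) (c11_lz (β / √n) (SkS (n := n)))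
    (cv_lz (β / √n) (SkS (n := n))) (x := 2 * xs) (y := 2 * x) (by linarith) (by linarith)
    (by linarith : 0 ≤ s + τ) hsτ
  have k4 := DD_nonneg (D := Dz (β / √n)) (c11_lz (β / √n) (SkS (n := n))) (x := 2 * x)
    (by linarith) (by linarith : 0 ≤ s + τ) hsτ
  have k5 := mul_le_mul_of_nonneg_left k3 hε.le
  have k6 := mul_nonneg hε.le k4
  unfold Dn at k2 ⊢
  linarith

/-- **The gain with the late piece frozen, on the product base.** -/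
theorem gain3_p {β a0 a e d w c : ℝ} (hβ : 0 < β) (hU : H695.UpM β a0) (haa : a0 < a)
    (hd : 0 ≤ d) (hw : 0 ≤ w) (hc0 : 0 ≤ c) (hc : 2 * (d + w) + 2 * c < 5 * e) (Q : ℝ) :
    ∀ᶠ n : ℕ in atTop, AntiN n β → ∀ x xs y s τ l ε b1 b2 : ℝ, (n : ℝ) ^ (-(1 / 6) + e) ≤ x →
      x ≤ (n : ℝ) ^ (-a) → x ≤ 1 → (n : ℝ) ^ (-w) * x ^ 2 ≤ s → 0 ≤ τ → s + τ < 1 → x / 8 ≤ y →
      y ≤ xs → xs < x → 0 ≤ l → l ≤ s → 0 < ε → ε ≤ 1 / 2 →
      (n : ℝ) ^ (1 - d) * s * x ^ 3 ≤ Dn n β x s →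
      0 ≤ b1 → 0 ≤ b2 → b1 ^ 2 + b2 ^ 2 = 1 - (s + τ) →
      ∀ (ι : Type) [Fintype ι] (f G : ι → (Pair n → ℝ) → ℝ), (∀ i, EG (f i)) → (∀ i, EG (G i)) →
      (∀ v u, 0 ≤ ∑ i, f i v * G i u) → ∀ A : ℝ, 0 < A →
      ∫ g, (∫ g', ∑ i, f i (b1 • g) * G i (b1 • g + b2 • g') ∂(gI (Pair n))) ∂(gI (Pair n)) = A →
      (∀ v u, ∑ i, f i v * G i u ≤ (n : ℝ) ^ Q * A) →
      (Dn n β x s - (1 + τ / s) * Dn n β xs s - (n : ℝ) ^ (-c) * Dn n β x s -
          (4 * ε * Dn n β (2 * x) (s + τ) + ε * Dn n β ((x - xs) / ε) l)) * A ≤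
        ∫ g, (∫ g', (∑ i, f i (b1 • g) * G i (b1 • g + b2 • g')) *
          (V2 y τ x s (lz (β / √n) (SkS (n := n))) (b1 • g + b2 • g') -
            W y (√τ) (W xs (√(s - l)) (uu x (1 - l) (lz (β / √n) (SkS (n := n)))))
              (b1 • g + b2 • g'))
          ∂(gI (Pair n))) ∂(gI (Pair n)) := by
  filter_upwards [gain3_n hβ hU haa hd hw hc0 hc Q, eventually_ge_atTop 1]
    with n h1 h7 hA x xs y s τ l ε b1 b2 hxl hxu hx1 hs hτ hsτ hy hyx hxs hl hls hε hε1 hD hb1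
      hb2 hbb ι _ f G hf hG h0 A hA0 hAe hQ
  have hn1 : (1 : ℝ) ≤ n := by exact_mod_cast h7
  have hn0 : (0 : ℝ) < n := by linarith
  have hx0 : 0 < x := (Real.rpow_pos_of_pos hn0 _).trans_le hxl
  have hy0 : 0 < y := by linarith
  have hxs0 : 0 < xs := hy0.trans_le hyx
  have hc' : 0 < √(1 - (s + τ)) := Real.sqrt_pos.2 (by linarith)
  have hbc : b1 ^ 2 + b2 ^ 2 = (√(1 - (s + τ))) ^ 2 := by
    rw [Real.sq_sqrt (by linarith)]
    exact hbb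
  have hφ : EG (fun z => V2 y τ x s (lz (β / √n) (SkS (n := n))) z -
      V3 y τ xs (s - l) x l (lz (β / √n) (SkS (n := n))) z) :=
    (eg_V2 (c11_lz (β / √n) (SkS (n := n))) hx0 hy0 τ s).sub
      (eg_V3 (c11_lz (β / √n) (SkS (n := n))) hx0 hxs0 hy0 τ (s - l) l)
  have e1 := marg hf hG hφ hb1 hb2 hc' hbc
  have e2 := marg_one hf hG hb1 hb2 hc' hbc
  rw [hAe] at e2
  have k := h1 hA x xs y s τ l ε hxl hxu hx1 hs hτ hsτ.le hy hyx hxs hl hls hε hε1 hD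
    (fun z => qb f G b1 b2 (√(1 - (s + τ))) z / A)
    (by
      have := (eg_qb (a := b1) (b := b2) (c := √(1 - (s + τ))) hf hG).const_mul (1 / A)
      simpa [div_eq_inv_mul] using this)
    (fun z => div_nonneg (qb_nonneg hf h0 z) hA0.le)
    (by rw [integral_div, ← e2, div_self hA0.ne'])
    (fun z => by
      rw [div_le_iff₀ hA0]
      exact qb_le hf hQ z)
  change _ ≤ ∫ g, (∫ g', (∑ i, f i (b1 • g) * G i (b1 • g + b2 • g')) *
          (V2 y τ x s (lz (β / √n) (SkS (n := n))) (b1 • g + b2 • g') -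
            V3 y τ xs (s - l) x l (lz (β / √n) (SkS (n := n))) (b1 • g + b2 • g'))
          ∂(gI (Pair n))) ∂(gI (Pair n))
  rw [e1]
  have e3 : ∫ z, qb f G b1 b2 (√(1 - (s + τ))) z / A *
      (V2 y τ x s (lz (β / √n) (SkS (n := n))) (√(1 - (s + τ)) • z) -
        V3 y τ xs (s - l) x l (lz (β / √n) (SkS (n := n))) (√(1 - (s + τ)) • z))
        ∂(gI (Pair n)) = (∫ z, qb f G b1 b2 (√(1 - (s + τ))) z *
      (V2 y τ x s (lz (β / √n) (SkS (n := n))) (√(1 - (s + τ)) • z) -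
        V3 y τ xs (s - l) x l (lz (β / √n) (SkS (n := n))) (√(1 - (s + τ)) • z))
        ∂(gI (Pair n))) / A := by
    rw [← integral_div]
    refine integral_congr_ae (Eventually.of_forall fun z => ?_)
    simp only
    ring
  rw [e3] at k
  have k2 := mul_le_mul_of_nonneg_right k hA0.le
  refine k2.trans (le_of_eq ?_)
  field_simp

end Vale.Agent.P146.H767
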