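import Vale.Agent.P146.H641.Tail
import Vale.Agent.P146.H946.SkI
import Vale.Agent.P146.H522.SkDic

/-!
# P146: the variance from the overlap of one window

The profile with the exponent `0` up to the time `t` and the exponent `x` afterwards: its squared
gradient at the time `t` (the mean square overlap of two completions, tilted by `e^{x F}`, of the
same disorder `z_t`) bounds `log E e^{2x(F-EF)}` from below.  Together with the bound
`log E e^{y(F-EF)} ≤ 3/2` for `y ≤ 1/(18(1+√Var F))` it bounds the variance from below.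
-/

open MeasureTheory ProbabilityTheory

namespace Vale.Agent.P146.H767

open Vale.Agent.P157.Lv Vale.Agent.P146.H425 Vale.Agent.P146.H332 Vale.Agent.P146.H325
open Vale.Agent.P146.R1 Vale.Agent.P146.H522
open Vale.Agent.P146.H946 (Dz)

set_option linter.unusedSectionVars false

section gen

variable {κ : Type} [Fintype κ] {F : (κ → ℝ) → ℝ} {D : κ → (κ → ℝ) → ℝ} {B L x a b : ℝ}

/-- The layer functional dominates the mean. -/
lemma mean_le_W (h : C11 F D B L) (hx : 0 < x) (b : ℝ) (y : κ → ℝ) :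
    ∫ z, F (y + b • z) ∂(gI κ) ≤ W x b F y := by
  have hs := h.shift y b
  have eF : EG fun z => F (y + b • z) := hs.eg
  have h1 := jensen_tilt (q := fun _ : κ → ℝ => (1 : ℝ)) (EG.const 1) (fun _ => zero_le_one)
    (by simp) (eF.const_mul x) (by simpa using hs.eg_exp x)
  simp only [one_mul, integral_const, probReal_univ, smul_eq_mul, div_one] at h1
  have h2 := Real.log_le_log (Real.exp_pos _) h1
  rw [Real.log_exp, integral_const_mul] at h2
  unfold W
  rw [one_div, inv_mul_eq_div, le_div_iff₀ hx, mul_comm]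
  exact h2

/-- The full tilt dominates the mean of the value function at an intermediate time. -/
lemma mean_W_le (h : C11 F D B L) (hx : 0 < x) (hab : a ^ 2 + b ^ 2 = 1) :
    ∫ z, W x b F (a • z) ∂(gI κ) ≤ W x 1 F 0 := by
  have hW := h.W' hx b
  have h1 := mean_le_W hW hx a 0
  simp only [zero_add] at h1
  refine h1.trans (le_of_eq ?_)
  have h2 := Nm_one h hx hab
  unfold W at h2 ⊢
  simp only [zero_add, one_smul] at h2 ⊢
  rw [h2]

/-- **The gain of one window.** -/
theorem gain (h : C11 F D B L) (hc : Cv F) (hx : 0 < x) (hab : a ^ 2 + b ^ 2 = 1) :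
    ∫ z, F z ∂(gI κ) + x / 2 * (b ^ 2 * ∫ z, G2 x b F D (a • z) ∂(gI κ)) ≤
      W (2 * x) 1 F 0 := by
  have hx2 : 0 < 2 * x := by positivity
  have hW := h.W' hx b
  have hW2 := h.W' hx2 b
  have eW : EG fun z : κ → ℝ => W x b F (a • z) := EG.smul' hW.eg a
  have eW2 : EG fun z : κ → ℝ => W (2 * x) b F (a • z) := EG.smul' hW2.eg a
  have eG : EG fun z : κ → ℝ => G2 x b F D (a • z) := EG.smul' hW.eg_G2 a
  have h1 : ∫ z, F z ∂(gI κ) ≤ ∫ z, W x b F (a • z) ∂(gI κ) := by
    have h2 := gI_rot h.eg (a := a) (b := b) (c := 1) (by rw [hab]; norm_num) 0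
    simp only [zero_add, one_smul] at h2
    rw [← h2]
    exact integral_mono (EG.smul' (EG.conv h.eg b) a).integrable eW.integrable
      fun z => mean_le_W h hx b (a • z)
  have h3 : ∫ z, W x b F (a • z) ∂(gI κ) + x / 2 * (b ^ 2 * ∫ z, G2 x b F D (a • z) ∂(gI κ)) ≤
      ∫ z, W (2 * x) b F (a • z) ∂(gI κ) := by
    rw [← integral_const_mul, ← integral_const_mul, ← integral_add eW.integrable
      ((eG.const_mul _).const_mul _).integrable]
    exact integral_mono (eW.add ((eG.const_mul _).const_mul _)).integrable eW2.integrable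
      fun z => W_two_ge h hc hx (a • z)
  have h4 := mean_W_le h hx2 hab
  linarith

/-- The Laplace transform from the gain of one window. -/
theorem log_ge_gen (h : C11 F D B L) (hc : Cv F) (hx : 0 < x) (hab : a ^ 2 + b ^ 2 = 1) :
    x ^ 2 * (b ^ 2 * ∫ z, G2 x b F D (a • z) ∂(gI κ)) ≤
      Real.log (∫ g, Real.exp (2 * x * (F g - ∫ h, F h ∂(gI κ))) ∂(gI κ)) := by
  have hx2 : 0 < 2 * x := by positivity
  have h1 := gain h hc hx hab
  rw [W_one_zero] at h1
  obtain ⟨m, hm⟩ : ∃ m, m = ∫ h, F h ∂(gI κ) := ⟨_, rfl⟩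
  obtain ⟨G, hG⟩ : ∃ G, G = ∫ z, G2 x b F D (a • z) ∂(gI κ) := ⟨_, rfl⟩
  rw [← hm, ← hG] at h1
  rw [← hm, ← hG]
  have hp : 0 < ∫ z, Real.exp (2 * x * F z) ∂(gI κ) :=
    integral_exp_pos (h.eg_exp (2 * x)).integrable
  have e1 : ∀ g, Real.exp (2 * x * (F g - m)) =
      Real.exp (-(2 * x * m)) * Real.exp (2 * x * F g) := fun g => by
    rw [← Real.exp_add]
    congr 1
    ring
  simp_rw [e1]
  rw [integral_const_mul, Real.log_mul (Real.exp_pos _).ne' hp.ne', Real.log_exp]
  obtain ⟨A, hA⟩ : ∃ A, A = Real.log (∫ z, Real.exp (2 * x * F z) ∂(gI κ)) := ⟨_, rfl⟩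
  rw [← hA] at h1
  rw [← hA]
  have h2 := mul_le_mul_of_nonneg_left h1 hx2.le
  have e2 : 2 * x * (1 / (2 * x) * A) = A := by field_simp
  rw [e2] at h2
  nlinarith [h2]

end gen

/-- `Q(x, t) = E |∇u_t(z_t)|²`, `u_t` the value function of the free energy at the exponent `x`,
`z_t` the untilted disorder at the time `t`. -/
noncomputable def Qw (n : ℕ) (β x t : ℝ) : ℝ :=
  ∫ z, sq x t (lz (β / √n) (SkS (n := n))) (Dz (β / √n)) (√t • z) ∂(gI (Pair n))

/-- the same in terms of the matrix of the conditional two point functions -/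
theorem Qw_eq {n : ℕ} (hn : 0 < n) (β : ℝ) {x : ℝ} (hx : 0 < x) (t : ℝ) :
    Qw n β x t = β ^ 2 / (2 * n) *
      (∫ z, fr (AA (n := n) (β / √n) x t (√t • z)) ∂(gI (Pair n)) - n) := by
  have hn' : (0 : ℝ) < n := Nat.cast_pos.2 hn
  have hk2 : (β / √n) ^ 2 = β ^ 2 / n := by rw [div_pow, Real.sq_sqrt hn'.le]
  have hW := (c11_lz (β / √n) (SkS (n := n))).W' hx (√(1 - t))
  have eS : EG fun z : Pair n → ℝ => sq x t (lz (β / √n) (SkS (n := n))) (Dz (β / √n)) z :=
    hW.eg_G2
  have h1 : ∀ z : Pair n → ℝ, sq x t (lz (β / √n) (SkS (n := n))) (Dz (β / √n)) z =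
      (β / √n) ^ 2 / 2 * (fr (AA (n := n) (β / √n) x t z) - n) := fun z =>
    sq_sk (β / √n) x t z
  unfold Qw
  simp_rw [h1]
  rw [integral_const_mul, hk2]
  rcases eq_or_ne β 0 with hβ | hβ
  · subst hβ; simp
  have hc : (β / √n) ^ 2 / 2 ≠ 0 := by
    rw [hk2]; positivity
  have h2 : ∀ z : Pair n → ℝ, fr (AA (n := n) (β / √n) x t z) - n =
      ((β / √n) ^ 2 / 2)⁻¹ * sq x t (lz (β / √n) (SkS (n := n))) (Dz (β / √n)) z := by
    intro z
    rw [h1 z]
    field_simp
  have e3 : EG fun z : Pair n → ℝ => fr (AA (n := n) (β / √n) x t z) - n := by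
    simp_rw [h2]
    exact eS.const_mul _
  have i3 := (EG.smul' e3 (√t)).integrable
  have e4 : ∫ z, fr (AA (n := n) (β / √n) x t (√t • z)) ∂(gI (Pair n)) =
      ∫ z, (fr (AA (n := n) (β / √n) x t (√t • z)) - n) ∂(gI (Pair n)) + n := by
    have i4 : Integrable (fun z : Pair n → ℝ => fr (AA (n := n) (β / √n) x t (√t • z)))
        (gI (Pair n)) := by
      have := i3.add (integrable_const (n : ℝ))
      refine this.congr (Filter.Eventually.of_forall fun z => ?_)
      simp
    rw [integral_sub i4 (integrable_const _)]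
    simp
  rw [e4]
  ring

/-- **The Laplace transform of the free energy from the overlap of one window.** -/
theorem log_ge (n : ℕ) (β : ℝ) {x t : ℝ} (hx : 0 < x) (ht0 : 0 ≤ t) (ht1 : t ≤ 1) :
    x ^ 2 * ((1 - t) * Qw n β x t) ≤
      Real.log (∫ g, Real.exp (2 * x * (freeEnergy n β g -
        ∫ h, freeEnergy n β h ∂(disorder n))) ∂(disorder n)) := by
  have hd : disorder n = gI (Pair n) := rfl
  have hf : freeEnergy n β = lz (β / √n) (SkS (n := n)) := by
    funext g
    exact H332.freeEnergy_eq β g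
  have hab : (√t) ^ 2 + (√(1 - t)) ^ 2 = 1 := by
    rw [Real.sq_sqrt ht0, Real.sq_sqrt (by linarith)]; ring
  have h1 := log_ge_gen (c11_lz (β / √n) (SkS (n := n))) (cv_lz (β / √n) (SkS (n := n))) hx hab
  rw [Real.sq_sqrt (by linarith : (0 : ℝ) ≤ 1 - t)] at h1
  rw [hd, hf]
  exact h1

/-- **A lower bound for the variance from the overlap of one window**: if
`x² (1-t) Q(x, t) > 3/2`, then `√Var F ≥ 1/(36 x) - 1`. -/
theorem sd_of_window (n : ℕ) (β : ℝ) {x t : ℝ} (hx : 0 < x) (ht0 : 0 ≤ t) (ht1 : t ≤ 1)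
    (h : 3 / 2 < x ^ 2 * ((1 - t) * Qw n β x t)) :
    1 / (36 * x) - 1 ≤ √(Var[freeEnergy n β; disorder n]) := by
  have h1 := H641.sd_of_tail n β (x := 2 * x) (by positivity)
    (h.trans_le (log_ge n β hx ht0 ht1))
  have e : 18 * (2 * x) = 36 * x := by ring
  rwa [e] at h1

theorem var_of_window (n : ℕ) (β : ℝ) {x t : ℝ} (hx : 0 < x) (ht0 : 0 ≤ t) (ht1 : t ≤ 1)
    (h : 3 / 2 < x ^ 2 * ((1 - t) * Qw n β x t)) :
    1 / (2592 * x ^ 2) - 1 ≤ Var[freeEnergy n β; disorder n] := by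
  have h1 := H641.var_of_tail n β (x := 2 * x) (by positivity)
    (h.trans_le (log_ge n β hx ht0 ht1))
  have e : 648 * (2 * x) ^ 2 = 2592 * x ^ 2 := by ring
  rwa [e] at h1

end Vale.Agent.P146.H767
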