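import Vale.Agent.P146.H767.SaN

/-!
# P146: the bracket and the gain of the two-layer law, with numbers

At an exponent `n^(-1/6+e) ≤ x ≤ n^(-a)` and a window `s ≥ n^(-w) x²` with
`D(x, s) ≥ n^(1-d) s x³`: for every weight `q ≤ n^Q` of the position at the start of the `y`-layer
`(x-y)/2 τ E_q |∇φ(y; x)|² ≤ (τ/s + n^(-c)) D(x, s)` and
`E_q [φ(y; x) - φ(y; x_*)] ≥ D(x, s) - (1 + τ/s) D(x_*, s) - n^(-c) D(x, s)`.
-/

open MeasureTheory ProbabilityTheory Filter Topology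

namespace Vale.Agent.P146.H767

open Vale.Agent.P157.Lv Vale.Agent.P146.H425 Vale.Agent.P146.R1 Vale.Agent.P146.H376
  Vale.Agent.P146.H332 Vale.Agent.P146.H325
open Vale.Agent.P146.H432 (Dn Lg AntiN ev_small ev_big)
open Vale.Agent.P146.H946 (Dz)

set_option linter.unusedSectionVars false

lemma Lg_W (n : ℕ) (β : ℝ) {x : ℝ} (hx : 0 < x) :
    Lg n β x = x * (W x 1 (lz (β / √n) (SkS (n := n))) 0 -
      ∫ z, lz (β / √n) (SkS (n := n)) z ∂(gI (Pair n))) := by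
  have h := c11_lz (β / √n) (SkS (n := n))
  have h1 := W_sub_Mn h.lip h.B0 hx 1 0
  have h2 : Mn 1 (lz (β / √n) (SkS (n := n))) 0 =
      ∫ z, lz (β / √n) (SkS (n := n)) z ∂(gI (Pair n)) := by
    unfold Mn
    simp
  rw [h2] at h1
  rw [h1]
  unfold Lg
  have hd : disorder n = gI (Pair n) := rfl
  rw [hd, H432.fE_lz]
  simp

/-- everything about the numbers at one point -/
structure SaAt (n : ℕ) (β Q c x s τ θ E S : ℝ) : Prop where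
  θ0 : 0 < θ
  θ1 : θ ≤ 1 / 2
  hE : θ * (W ((n : ℝ) ^ (-(1 / 6) : ℝ) / 2) 1 (lz (β / √n) (SkS (n := n))) 0 -
      ∫ z, lz (β / √n) (SkS (n := n)) z ∂(gI (Pair n))) +
    2 * θ * DD (2 * x) (s + τ) (lz (β / √n) (SkS (n := n))) ≤ E
  S0 : 0 < S
  hS : 2 * E / (θ * ((n : ℝ) ^ (-(1 / 6) : ℝ) / 2)) ≤ S ^ 2
  hesa : ∀ K, K ≤ Q * Real.log n →
    esa E S K (θ * ((n : ℝ) ^ (-(1 / 6) : ℝ) / 2)) ≤ (n : ℝ) ^ (-c) * Dn n β x s
  hx8 : (n : ℝ) ^ (-(1 / 6) : ℝ) / 2 ≤ x / 8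
  h1 : 0 < (n : ℝ) ^ (-(1 / 6) : ℝ) / 2

theorem ev_log {ε Q : ℝ} (hε : 0 < ε) : ∀ᶠ n : ℕ in atTop,
    Q * Real.log n + 3 / 2 ≤ (n : ℝ) ^ ε := by
  have h1 := (isLittleO_log_rpow_atTop hε).tendsto_div_nhds_zero
  have h2 := h1.comp tendsto_natCast_atTop_atTop
  have h3 := h2.eventually (gt_mem_nhds (show (0 : ℝ) < 1 / (2 * (|Q| + 1)) by positivity))
  filter_upwards [h3, ev_big (C := 3) hε, eventually_ge_atTop 1] with n h4 h5 h6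
  have hn1 : (1 : ℝ) ≤ n := by exact_mod_cast h6
  have hn0 : (0 : ℝ) < (n : ℝ) ^ ε := Real.rpow_pos_of_pos (by linarith) _
  simp only [Function.comp] at h4
  rw [div_lt_iff₀ hn0] at h4
  have hl := Real.log_nonneg hn1
  have h7 : Q * Real.log n ≤ |Q| * Real.log n := mul_le_mul_of_nonneg_right (le_abs_self Q) hl
  have h8 : |Q| * Real.log n ≤ (|Q| + 1) * (1 / (2 * (|Q| + 1)) * (n : ℝ) ^ ε) :=
    mul_le_mul (by linarith) h4.le hl (by positivity)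
  have h9 : (|Q| + 1) * (1 / (2 * (|Q| + 1)) * (n : ℝ) ^ ε) = (n : ℝ) ^ ε / 2 := by
    field_simp
  linarith

/-- **The numbers of the self-averaging.** -/
theorem sa_num {β a0 a e d w c : ℝ} (hβ : 0 < β) (hU : H695.UpM β a0) (haa : a0 < a)
    (hd : 0 ≤ d) (hw : 0 ≤ w) (hc0 : 0 ≤ c) (hc : 2 * (d + w) + 2 * c < 5 * e) (Q : ℝ) :
    ∀ᶠ n : ℕ in atTop, ∀ x s τ : ℝ, (n : ℝ) ^ (-(1 / 6) + e) ≤ x → x ≤ (n : ℝ) ^ (-a) →
      (n : ℝ) ^ (-w) * x ^ 2 ≤ s → 0 ≤ τ → s + τ ≤ 1 →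
      (n : ℝ) ^ (1 - d) * s * x ^ 3 ≤ Dn n β x s → ∃ θ E S, SaAt n β Q c x s τ θ E S := by
  obtain ⟨ε, hεd⟩ : ∃ ε, ε = (5 * e - 2 * (d + w) - 2 * c) / 7 := ⟨_, rfl⟩
  have hε : 0 < ε := by rw [hεd]; linarith
  have he : 0 < e := by linarith
  filter_upwards [hU ε hε, H432.Lg_base hβ hε, ev_big (C := 2400) hε, ev_log (Q := Q) hε,
    ev_big (C := 4) he, ev_big (C := 2) (sub_pos.2 haa), eventually_ge_atTop 1]
    with n h1 h2 h3 h4 h5 h6 h7 x s τ hxl hxu hs hτ hsτ hD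
  have hn1 : (1 : ℝ) ≤ n := by exact_mod_cast h7
  have hn0 : (0 : ℝ) < n := by linarith
  obtain ⟨N, hN⟩ : ∃ N : ℝ, N = n := ⟨_, rfl⟩
  have hx0 : 0 < x := (Real.rpow_pos_of_pos hn0 _).trans_le hxl
  have hs0 : 0 < s := by
    have : 0 < (n : ℝ) ^ (-w) * x ^ 2 := by
      have := Real.rpow_pos_of_pos hn0 (-w)
      positivity
    linarith
  have hx2 : (n : ℝ) ^ (-(1 / 6) : ℝ) ≤ 2 * x := by
    have : (n : ℝ) ^ (-(1 / 6) : ℝ) ≤ (n : ℝ) ^ (-(1 / 6) + e) :=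
      Real.rpow_le_rpow_of_exponent_le hn1 (by linarith)
    linarith
  have hx3 : 2 * x ≤ (n : ℝ) ^ (-a0) := by
    have e1 : (n : ℝ) ^ (-a0) = (n : ℝ) ^ (a - a0) * (n : ℝ) ^ (-a) := by
      rw [← Real.rpow_add hn0]
      congr 1
      ring
    rw [e1]
    exact mul_le_mul h6.le hxu hx0.le (by linarith)
  have k1 := h1 (2 * x) hx2 hx3
  have k2 : Lg n β (2 * x) ≤ (n : ℝ) ^ (1 + ε) * (2 * x) ^ 6 := k1
  have hDD : DD (2 * x) (s + τ) (lz (β / √n) (SkS (n := n))) ≤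
      32 * (n : ℝ) ^ (1 + ε) * x ^ 5 := by
    have k3 := DD_le_W (c11_lz (β / √n) (SkS (n := n))) (x := 2 * x) (by positivity)
      (by linarith : 0 ≤ s + τ) hsτ
    rw [Lg_W n β (by positivity : 0 < 2 * x)] at k2
    have k4 := (mul_le_mul_of_nonneg_left k3 (by positivity : 0 ≤ 2 * x)).trans k2
    have e1 : (n : ℝ) ^ (1 + ε) * (2 * x) ^ 6 = 2 * x * (32 * (n : ℝ) ^ (1 + ε) * x ^ 5) := by ring
    rw [e1] at k4
    exact le_of_mul_le_mul_left k4 (by positivity)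
  have hx1 : 0 < (n : ℝ) ^ (-(1 / 6) : ℝ) / 2 := by
    have := Real.rpow_pos_of_pos hn0 (-(1 / 6) : ℝ)
    positivity
  have hP : W ((n : ℝ) ^ (-(1 / 6) : ℝ) / 2) 1 (lz (β / √n) (SkS (n := n))) 0 -
      ∫ z, lz (β / √n) (SkS (n := n)) z ∂(gI (Pair n)) ≤ 2 * (n : ℝ) ^ (1 / 6 + ε) := by
    rw [Lg_W n β hx1] at h2
    have e1 : (n : ℝ) ^ ε = (n : ℝ) ^ (-(1 / 6) : ℝ) / 2 * (2 * (n : ℝ) ^ (1 / 6 + ε)) := by
      have e2 : (n : ℝ) ^ (-(1 / 6) : ℝ) * (n : ℝ) ^ (1 / 6 + ε) = (n : ℝ) ^ ε := by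
        rw [← Real.rpow_add hn0]
        congr 1
        ring
      linarith
    rw [e1] at h2
    exact le_of_mul_le_mul_left h2 hx1
  obtain ⟨θ, E, S, b1, b2, b3, b4, b5, b6⟩ := sa_core (N := n) (ε := ε) (d := d) (w := w)
    (c := c) (e := e) (x := x) (s := s) (D := Dn n β x s)
    (P1 := W ((n : ℝ) ^ (-(1 / 6) : ℝ) / 2) 1 (lz (β / √n) (SkS (n := n))) 0 -
      ∫ z, lz (β / √n) (SkS (n := n)) z ∂(gI (Pair n)))
    (DD2 := DD (2 * x) (s + τ) (lz (β / √n) (SkS (n := n)))) (K := Q * Real.log n) hn1 hε hd hw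
    hc0 (by rw [hεd]; linarith) h3.le hxl hs hD hP hDD h4
  refine ⟨θ, E, S, b1, b2, b3, b4, b5, fun K hK => le_trans ?_ b6, ?_, hx1⟩
  · unfold esa
    have hl : 0 < θ * ((n : ℝ) ^ (-(1 / 6) : ℝ) / 2) := mul_pos b1 hx1
    have g1 : K / (θ * ((n : ℝ) ^ (-(1 / 6) : ℝ) / 2)) ≤
        Q * Real.log n / (θ * ((n : ℝ) ^ (-(1 / 6) : ℝ) / 2)) := by gcongr
    have g2 : 12 * S * (K + 3 / 2) ≤ 12 * S * (Q * Real.log n + 3 / 2) :=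
      mul_le_mul_of_nonneg_left (by linarith) (by positivity)
    linarith
  · have e1 : (n : ℝ) ^ (-(1 / 6) + e) = (n : ℝ) ^ (-(1 / 6) : ℝ) * (n : ℝ) ^ e :=
      Real.rpow_add hn0 _ _
    rw [e1] at hxl
    have := mul_le_mul_of_nonneg_left h5.le (Real.rpow_nonneg hn0.le (-(1 / 6) : ℝ))
    linarith

/-- the side condition of the exponents -/
lemma side {θ : ℝ} (h0 : 0 < θ) (h1 : θ ≤ 1 / 2) : 1 / (1 - θ) - 1 ≤ 2 * θ * (2 - 1) := by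
  have h2 : 0 < 1 - θ := by linarith
  rw [sub_le_iff_le_add, div_le_iff₀ h2]
  nlinarith

/-- **The bracket, with numbers.** -/
theorem bracket_n {β a0 a e d w c : ℝ} (hβ : 0 < β) (hU : H695.UpM β a0) (haa : a0 < a)
    (hd : 0 ≤ d) (hw : 0 ≤ w) (hc0 : 0 ≤ c) (hc : 2 * (d + w) + 2 * c < 5 * e) (Q : ℝ) :
    ∀ᶠ n : ℕ in atTop, AntiN n β → ∀ x y s τ : ℝ, (n : ℝ) ^ (-(1 / 6) + e) ≤ x →
      x ≤ (n : ℝ) ^ (-a) → x ≤ 1 → (n : ℝ) ^ (-w) * x ^ 2 ≤ s → 0 ≤ τ → s + τ ≤ 1 → x / 8 ≤ y →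
      y ≤ x → (n : ℝ) ^ (1 - d) * s * x ^ 3 ≤ Dn n β x s →
      ∀ q : (Pair n → ℝ) → ℝ, EG q → (∀ z, 0 ≤ q z) → ∫ z, q z ∂(gI (Pair n)) = 1 →
        (∀ z, q z ≤ (n : ℝ) ^ Q) →
      (x - y) / 2 * (τ * ∫ z, q z * S2 y τ x s (lz (β / √n) (SkS (n := n))) (Dz (β / √n))
        (√(1 - (s + τ)) • z) ∂(gI (Pair n))) ≤ τ / s * Dn n β x s + (n : ℝ) ^ (-c) * Dn n β x s := by
  filter_upwards [sa_num hβ hU haa hd hw hc0 hc Q, eventually_ge_atTop 1]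
    with n h1 h7 hA x y s τ hxl hxu hx1 hs hτ hsτ hy hyx hD q hq h0 hi hQ
  have hn1 : (1 : ℝ) ≤ n := by exact_mod_cast h7
  have hn0 : (0 : ℝ) < n := by linarith
  have hx0 : 0 < x := (Real.rpow_pos_of_pos hn0 _).trans_le hxl
  have hs0 : 0 < s := by
    have : 0 < (n : ℝ) ^ (-w) * x ^ 2 := by
      have := Real.rpow_pos_of_pos hn0 (-w)
      positivity
    linarith
  obtain ⟨θ, E, S, b⟩ := h1 x s τ hxl hxu hs hτ hsτ hD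
  have hc1 := hA.dd hx0 hx1 hs0.le (by linarith : s ≤ s + τ) hsτ
  have hHq : Hq q ≤ Q * Real.log n := by
    refine (Hq_le hq h0 hi hQ).trans (le_of_eq ?_)
    rw [Real.log_rpow hn0]
  have k := bracket_sa (D := Dz (β / √n)) (c11_lz (β / √n) (SkS (n := n)))
    (cv_lz (β / √n) (SkS (n := n))) (x1 := (n : ℝ) ^ (-(1 / 6) : ℝ) / 2) (θ := θ) (R := 2)
    (δ := 2 * θ) (E := E) (S := S) b.h1 (b.hx8.trans hy) hyx b.θ0 (by linarith [b.θ1])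
    (by norm_num) (by linarith [b.θ0]) (by linarith [b.θ1]) (side b.θ0 b.θ1) hτ hs0 hsτ b.hE
    b.S0 b.hS hc1 hq h0 hi
  have k2 := b.hesa _ hHq
  unfold Dn at k2 ⊢
  linarith

/-- **The gain, with numbers.** -/
theorem gain_n {β a0 a e d w c : ℝ} (hβ : 0 < β) (hU : H695.UpM β a0) (haa : a0 < a)
    (hd : 0 ≤ d) (hw : 0 ≤ w) (hc0 : 0 ≤ c) (hc : 2 * (d + w) + 2 * c < 5 * e) (Q : ℝ) :
    ∀ᶠ n : ℕ in atTop, AntiN n β → ∀ x xs y s τ : ℝ, (n : ℝ) ^ (-(1 / 6) + e) ≤ x →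
      x ≤ (n : ℝ) ^ (-a) → x ≤ 1 → (n : ℝ) ^ (-w) * x ^ 2 ≤ s → 0 ≤ τ → s + τ ≤ 1 → x / 8 ≤ y →
      y ≤ xs → xs ≤ x → (n : ℝ) ^ (1 - d) * s * x ^ 3 ≤ Dn n β x s →
      ∀ q : (Pair n → ℝ) → ℝ, EG q → (∀ z, 0 ≤ q z) → ∫ z, q z ∂(gI (Pair n)) = 1 →
        (∀ z, q z ≤ (n : ℝ) ^ Q) →
      Dn n β x s - (1 + τ / s) * Dn n β xs s - (n : ℝ) ^ (-c) * Dn n β x s ≤
        ∫ z, q z * (V2 y τ x s (lz (β / √n) (SkS (n := n))) (√(1 - (s + τ)) • z) -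
          V2 y τ xs s (lz (β / √n) (SkS (n := n))) (√(1 - (s + τ)) • z)) ∂(gI (Pair n)) := by
  filter_upwards [sa_num hβ hU haa hd hw hc0 hc Q, eventually_ge_atTop 1]
    with n h1 h7 hA x xs y s τ hxl hxu hx1 hs hτ hsτ hy hyx hxs hD q hq h0 hi hQ
  have hn1 : (1 : ℝ) ≤ n := by exact_mod_cast h7
  have hn0 : (0 : ℝ) < n := by linarith
  have hx0 : 0 < x := (Real.rpow_pos_of_pos hn0 _).trans_le hxl
  have hs0 : 0 < s := by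
    have : 0 < (n : ℝ) ^ (-w) * x ^ 2 := by
      have := Real.rpow_pos_of_pos hn0 (-w)
      positivity
    linarith
  have hy0 : 0 < y := by linarith
  obtain ⟨θ, E, S, b⟩ := h1 x s τ hxl hxu hs hτ hsτ hD
  have hc1 := hA.dd (hy0.trans_le hyx) (hxs.trans hx1) hs0.le (by linarith : s ≤ s + τ) hsτ
  have hHq : Hq q ≤ Q * Real.log n := by
    refine (Hq_le hq h0 hi hQ).trans (le_of_eq ?_)
    rw [Real.log_rpow hn0]
  have k := gain_sa (D := Dz (β / √n)) (c11_lz (β / √n) (SkS (n := n)))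
    (cv_lz (β / √n) (SkS (n := n))) (x1 := (n : ℝ) ^ (-(1 / 6) : ℝ) / 2) (θ := θ) (R := 2)
    (δ := 2 * θ) (E := E) (S := S) b.h1 (b.hx8.trans hy) hyx hxs b.θ0 (by linarith [b.θ1])
    (by norm_num) (by linarith [b.θ0]) (by linarith [b.θ1]) (side b.θ0 b.θ1) hτ hs0 hsτ b.hE
    b.S0 b.hS hc1 hq h0 hi
  have k2 := b.hesa _ hHq
  unfold Dn at k2 ⊢
  linarith

end Vale.Agent.P146.H767
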