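import Vale.Agent.P146.H767.Conc3

/-!
# P146: the SK instance of the conclusion of step (a)
-/

open MeasureTheory ProbabilityTheory Filter Topology

namespace Vale.Agent.P146.H767

open Vale.Agent.P157.Lv Vale.Agent.P146.H425 Vale.Agent.P146.H332 Vale.Agent.P146.H325
open Vale.Agent.P146.R1 Vale.Agent.P146.H522
open Vale.Agent.P146.H946 (Dz Hz sk_c2)

set_option linter.unusedSectionVars false

/-- a bounded gradient gives a Lipschitz constant -/
lemma lip_of_fd {κ : Type} [Fintype κ] {G : (κ → ℝ) → ℝ} {G' : κ → (κ → ℝ) → ℝ} {M : ℝ}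
    (hM0 : 0 ≤ M)
    (h : ∀ u, HasFDerivAt G (∑ e, G' e u • (ContinuousLinearMap.proj e : (κ → ℝ) →L[ℝ] ℝ)) u)
    (hM : ∀ e u, |G' e u| ≤ M) : LipB G (Fintype.card κ * M) := by
  intro y w
  have hd : ∀ τ : ℝ, HasDerivAt (fun τ : ℝ => G (y + τ • w))
      (∑ f, G' f (y + τ • w) * w f) τ := by
    intro τ
    have h1 : HasDerivAt (fun τ : ℝ => y + τ • w) w τ := by
      simpa using ((hasDerivAt_id τ).smul_const w).const_add y
    have h2 := (h (y + τ • w)).comp_hasDerivAt τ h1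
    refine h2.congr_deriv ?_
    exact H785.lf_apply (fun i => G' i (y + τ • w)) w
  obtain ⟨c, hc, hc2⟩ := exists_hasDerivAt_eq_slope (fun τ : ℝ => G (y + τ • w))
    (fun τ => ∑ f, G' f (y + τ • w) * w f) zero_lt_one
    (fun τ _ => (hd τ).continuousAt.continuousWithinAt) fun τ _ => hd τ
  simp only [one_smul, zero_smul, add_zero, sub_zero, div_one] at hc2
  rw [← hc2]
  refine (abs_sum_le hM0 (fun e => hM e (y + c • w)) (w := w)).trans (le_of_eq ?_)
  ring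

variable {n : ℕ}

lemma lip_av {k : ℝ} {h : (Fin n → ℤˣ) → ℝ} (hh : ∀ σ, |h σ| ≤ 1) :
    LipB (H325.av k (SkS (n := n)) h) (Fintype.card (Pair n) * (2 * |k|)) := by
  refine lip_of_fd (by positivity) (c2_av k SkS h).fd fun e u => ?_
  have h1 : |H325.av k SkS (fun σ : Fin n → ℤˣ => h σ * SkS e σ) u| ≤ 1 := by
    refine H325.abs_av_le k SkS (fun σ => ?_) u
    rw [abs_mul, H946.abs_SkS, mul_one]
    exact hh σ
  have h2 : |H325.av k SkS h u * H325.av k SkS (SkS e) u| ≤ 1 := by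
    rw [abs_mul]
    exact mul_le_one₀ (H325.abs_av_le k SkS hh u) (abs_nonneg _) (H946.abs_av_SkS k e u)
  rw [abs_mul]
  have h3 : |H325.av k SkS (fun σ : Fin n → ℤˣ => h σ * SkS e σ) u -
      H325.av k SkS h u * H325.av k SkS (SkS e) u| ≤ 2 := (abs_sub _ _).trans (by linarith)
  have := mul_le_mul_of_nonneg_left h3 (abs_nonneg k)
  linarith

lemma lip_Hz (k : ℝ) (e f : Pair n) : LipB (Hz (n := n) k e f)
    (k ^ 2 * (3 * (Fintype.card (Pair n) * (2 * |k|)))) := by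
  set K : ℝ := Fintype.card (Pair n) * (2 * |k|) with hK
  have hK0 : 0 ≤ K := by positivity
  have l1 : LipB (H325.av k SkS (fun σ : Fin n → ℤˣ => SkS e σ * SkS f σ)) K := lip_av fun σ => by
    rw [abs_mul, H946.abs_SkS, H946.abs_SkS, one_mul]
  have l2 : ∀ e : Pair n, LipB (H325.av k SkS (SkS e)) K := fun e =>
    lip_av fun σ => (H946.abs_SkS e σ).le
  have l3 := LipB.mul_bd (l2 e) (l2 f) (H946.abs_av_SkS k e) (H946.abs_av_SkS k f) hK0 hK0
  have l4 := LipB.const_mul' (LipB.sub' l1 l3) (sq_nonneg k)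
  have e1 : Hz (n := n) k e f = fun u => k ^ 2 *
      (H325.av k SkS (fun σ : Fin n → ℤˣ => SkS e σ * SkS f σ) u -
        H325.av k SkS (SkS e) u * H325.av k SkS (SkS f) u) := by
    funext u
    simp only [Hz]
    ring
  rw [e1]
  refine LipB.mono' l4 (le_of_eq ?_)
  ring

/-- **The mean square of the base gradient is nonincreasing in the window, from (T).** -/
theorem Q0_anti_sk (k : ℝ) {x : ℝ} (hx : 0 < x)
    (hT : ∀ s, 0 ≤ s → s < 1 → TT x s (lz k (SkS (n := n))) (Dz k) (Hz k)) :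
    ∀ a c, 0 ≤ a → a ≤ c → c ≤ 1 →
      Q0 x c (lz k (SkS (n := n))) (Dz k) ≤ Q0 x a (lz k (SkS (n := n))) (Dz k) := by
  intro a c ha hac hc
  rcases isEmpty_or_nonempty (Pair n) with he | he
  · unfold Q0 R1.sq G2
    simp
  · exact Q0_anti (sk_c2 k) (lip_Hz k) (by positivity) hx hT ha hac hc

theorem conc_of_TT (k : ℝ) {x : ℝ} (hx : 0 < x)
    (hT : ∀ s, 0 ≤ s → s < 1 → TT x s (lz k (SkS (n := n))) (Dz k) (Hz k)) {s : ℝ}
    (hs : 0 ≤ s) (hs1 : s ≤ 1) :
    x / 2 * (s * Q0 x s (lz k (SkS (n := n))) (Dz k)) ≤ DD x s (lz k (SkS (n := n))) ∧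
      s * DD x 1 (lz k (SkS (n := n))) ≤ DD x s (lz k (SkS (n := n))) :=
  ⟨DD_ge_of (sk_c2 k).c1 hx (Q0_anti_sk k hx hT) hs hs1,
    DD_one_of (sk_c2 k).c1 hx (Q0_anti_sk k hx hT) hs hs1⟩

end Vale.Agent.P146.H767
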