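import Vale.Agent.P146.H767.DDx

/-!
# P146: the functional of one window as a function of the length of the window

`D(x, s₂) - D(x, s₁) = (x/2) ∫ Q0 x s ds` (the exponent is fixed, the window grows).
-/

open MeasureTheory ProbabilityTheory Filter Topology

namespace Vale.Agent.P146.H767

open Vale.Agent.P157.Lv Vale.Agent.P146.H425
open Vale.Agent.P146.R1

set_option linter.unusedSectionVars false

section gen

variable {κ : Type} [Fintype κ] {F X : (κ → ℝ) → ℝ} {D : κ → (κ → ℝ) → ℝ} {B L x s s' : ℝ}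

/-- the first moment of the norm -/
noncomputable def m1 (κ : Type) [Fintype κ] : ℝ := ∫ z : κ → ℝ, ‖z‖ ∂(gI κ)

lemma m1_nonneg : 0 ≤ m1 κ := integral_nonneg fun _ => norm_nonneg _

/-- translation of the layer by the gradient -/
lemma shift_bd (h : C11 X D B L) (hx : 0 < x) {b : ℝ} (hb : 0 ≤ b) (hb1 : b ≤ 1) (y : κ → ℝ) :
    |∫ z, X (y + b • z + (x * b ^ 2) • (fun e => D e y)) ∂(gI κ) - Mn b X y -
      x * b ^ 2 * ∑ e, D e y ^ 2| ≤
      (6 * x * L * B * Fintype.card κ * m1 κ + L * x ^ 2 * B ^ 2) * b ^ 3 := by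
  have hB := h.B0
  have hL := h.L0
  set v : κ → ℝ := (x * b ^ 2) • (fun e => D e y) with hv
  have hvn : ‖v‖ ≤ x * b ^ 2 * B := by
    rw [hv, norm_smul, Real.norm_eq_abs, abs_of_nonneg (by positivity)]
    refine mul_le_mul_of_nonneg_left ?_ (by positivity)
    exact (pi_norm_le_iff_of_nonneg hB).2 fun e => by simpa using h.bd e y
  have e0 : EG fun z => X (y + b • z) := (h.lip.lip_smul hB y b).eg
  have e1 : EG fun z => X (y + b • z + v) := by
    have := (h.lip.lip_smul hB (y + v) b).eg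
    refine cast ?_ this
    congr 1
    funext z
    congr 1
    abel
  have hpt : ∀ z : κ → ℝ, |X (y + b • z + v) - X (y + b • z) - x * b ^ 2 * ∑ e, D e y ^ 2| ≤
      6 * x * L * B * Fintype.card κ * b ^ 3 * ‖z‖ + L * x ^ 2 * B ^ 2 * b ^ 3 := by
    intro z
    have h1 := h.quad (y + b • z) v
    have h2 : |∑ e, D e (y + b • z) * v e - x * b ^ 2 * ∑ e, D e y ^ 2| ≤
        6 * x * L * B * Fintype.card κ * b ^ 3 * ‖z‖ := by
      have e2 : ∑ e, D e (y + b • z) * v e - x * b ^ 2 * ∑ e, D e y ^ 2 =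
          ∑ e, x * b ^ 2 * (D e y * (D e (y + b • z) - D e y)) := by
        rw [Finset.mul_sum, ← Finset.sum_sub_distrib]
        refine Finset.sum_congr rfl fun e _ => ?_
        rw [hv]
        simp only [Pi.smul_apply, smul_eq_mul]
        ring
      rw [e2]
      refine (Finset.abs_sum_le_sum_abs _ _).trans ?_
      have h3 : ∀ e ∈ (Finset.univ : Finset κ),
          |x * b ^ 2 * (D e y * (D e (y + b • z) - D e y))| ≤
            x * b ^ 2 * (B * (6 * L * (b * ‖z‖))) := by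
        intro e _
        rw [abs_mul, abs_of_nonneg (by positivity : 0 ≤ x * b ^ 2), abs_mul]
        refine mul_le_mul_of_nonneg_left ?_ (by positivity)
        refine mul_le_mul (h.bd e y) ?_ (abs_nonneg _) hB
        have h4 := h.grad_lip e y (b • z)
        rwa [norm_smul, Real.norm_eq_abs, abs_of_nonneg hb] at h4
      refine (Finset.sum_le_card_nsmul _ _ _ h3).trans (le_of_eq ?_)
      rw [nsmul_eq_mul, Finset.card_univ]
      ring
    have h5 : L * ‖v‖ ^ 2 ≤ L * x ^ 2 * B ^ 2 * b ^ 3 := by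
      have h6 : ‖v‖ ^ 2 ≤ (x * b ^ 2 * B) ^ 2 := pow_le_pow_left₀ (norm_nonneg _) hvn 2
      have h7 : b ^ 4 ≤ b ^ 3 := pow_le_pow_of_le_one hb hb1 (by norm_num)
      calc L * ‖v‖ ^ 2 ≤ L * (x * b ^ 2 * B) ^ 2 := mul_le_mul_of_nonneg_left h6 hL
        _ = L * x ^ 2 * B ^ 2 * b ^ 4 := by ring
        _ ≤ L * x ^ 2 * B ^ 2 * b ^ 3 := mul_le_mul_of_nonneg_left h7 (by positivity)
    rw [abs_le] at h1 h2 ⊢
    constructor <;> linarith [h1.1, h1.2, h2.1, h2.2]
  have i0 := e0.integrable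
  have i1 := e1.integrable
  have e3 : ∫ z, X (y + b • z + v) ∂(gI κ) - Mn b X y - x * b ^ 2 * ∑ e, D e y ^ 2 =
      ∫ z, (X (y + b • z + v) - X (y + b • z) - x * b ^ 2 * ∑ e, D e y ^ 2) ∂(gI κ) := by
    have i2 : Integrable (fun z => X (y + b • z + v) - X (y + b • z)) (gI κ) := i1.sub i0
    rw [integral_sub i2 (integrable_const _), integral_sub i1 i0]
    unfold Mn
    simp
  rw [e3]
  refine abs_integral_le_integral_abs.trans ?_
  have h8 : (6 * x * L * B * Fintype.card κ * m1 κ + L * x ^ 2 * B ^ 2) * b ^ 3 =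
      ∫ z : κ → ℝ, (6 * x * L * B * Fintype.card κ * b ^ 3 * ‖z‖ +
        L * x ^ 2 * B ^ 2 * b ^ 3) ∂(gI κ) := by
    rw [integral_add (eg_norm.integrable.const_mul _) (integrable_const _), integral_const_mul]
    unfold m1
    simp
    ring
  rw [h8]
  exact integral_mono ((i1.sub i0).sub (integrable_const _)).abs
    ((eg_norm.integrable.const_mul _).add (integrable_const _)) hpt

/-- **One small layer, both sides.** -/
theorem layer_two (hx : 0 < x) (hB : 0 ≤ B) (hL : 0 ≤ L) : ∃ C : ℝ, 0 ≤ C ∧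
    ∀ (X : (κ → ℝ) → ℝ) (D : κ → (κ → ℝ) → ℝ), C11 X D B L → ∀ b, 0 ≤ b → b ≤ 1 → ∀ y,
      |W x b X y - Mn b X y - x / 2 * b ^ 2 * ∑ e, D e y ^ 2| ≤ C * b ^ 3 := by
  obtain ⟨C, hC, hup⟩ := upper_step (κ := κ) hx hB hL
  set K := 6 * x * L * B * Fintype.card κ * m1 κ + L * x ^ 2 * B ^ 2 with hK
  have hm := m1_nonneg (κ := κ)
  have hK0 : 0 ≤ K := by positivity
  refine ⟨C + K, by positivity, fun X D h b hb hb1 y => ?_⟩
  have h1 := hup X D h b hb hb1 y
  have h2 := lower_step (s := b) h.lip hB hx y (fun e => D e y)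
  have h3 := abs_le.1 (shift_bd h hx hb hb1 y)
  have h4 : C * b ^ 4 ≤ C * b ^ 3 :=
    mul_le_mul_of_nonneg_left (pow_le_pow_of_le_one hb hb1 (by norm_num)) hC
  have h5 : 0 ≤ K * b ^ 3 := by positivity
  have h6 : 0 ≤ C * b ^ 3 := by positivity
  rw [← hK] at h3
  rw [abs_le]
  constructor <;> nlinarith [h3.1, h3.2, h1, h2]

/-- the squared gradient is Lipschitz -/
lemma sqg_lip (h : C11 X D B L) (y w : κ → ℝ) :
    |∑ e, D e (y + w) ^ 2 - ∑ e, D e y ^ 2| ≤ 12 * B * L * Fintype.card κ * ‖w‖ := by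
  rw [← Finset.sum_sub_distrib]
  refine (Finset.abs_sum_le_sum_abs _ _).trans ?_
  have h1 : ∀ e ∈ (Finset.univ : Finset κ), |D e (y + w) ^ 2 - D e y ^ 2| ≤
      12 * B * L * ‖w‖ := by
    intro e _
    have e1 : D e (y + w) ^ 2 - D e y ^ 2 = (D e (y + w) - D e y) * (D e (y + w) + D e y) := by
      ring
    rw [e1, abs_mul]
    have h2 := h.grad_lip e y w
    have h3 : |D e (y + w) + D e y| ≤ 2 * B := by
      refine (abs_add_le _ _).trans ?_
      linarith [h.bd e (y + w), h.bd e y]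
    calc |D e (y + w) - D e y| * |D e (y + w) + D e y| ≤ (6 * L * ‖w‖) * (2 * B) :=
          mul_le_mul h2 h3 (abs_nonneg _) (by have := h.L0; positivity)
      _ = _ := by ring
  refine (Finset.sum_le_card_nsmul _ _ _ h1).trans (le_of_eq ?_)
  rw [nsmul_eq_mul, Finset.card_univ]
  ring

/-- the mean of the norm under a tilted law -/
noncomputable def tl (κ : Type) [Fintype κ] (c : ℝ) : ℝ :=
  (∫ z : κ → ℝ, Real.exp (c * ‖z‖) * ‖z‖ ∂(gI κ)) / ∫ z : κ → ℝ, Real.exp (-c * ‖z‖) ∂(gI κ)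

lemma tl_nonneg (c : ℝ) : 0 ≤ tl κ c :=
  div_nonneg (integral_nonneg fun _ => by positivity) (integral_nonneg fun _ => by positivity)

lemma tilt_norm (h : LipB X B) (hB : 0 ≤ B) (hx : 0 < x) {b : ℝ} (hb : 0 ≤ b) (hb1 : b ≤ 1)
    (y : κ → ℝ) : ∫ z, Real.exp (x * X (y + b • z)) * ‖z‖ ∂(gI κ) ≤
      tl κ (x * B) * ∫ z, Real.exp (x * X (y + b • z)) ∂(gI κ) := by
  have hp : 0 < ∫ z : κ → ℝ, Real.exp (-(x * B) * ‖z‖) ∂(gI κ) :=
    integral_exp_pos (eg_exp_norm _).integrable
  have hd : ∀ z : κ → ℝ, |X (y + b • z) - X y| ≤ B * ‖z‖ := fun z => by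
    refine (h y (b • z)).trans ?_
    rw [norm_smul, Real.norm_eq_abs, abs_of_nonneg hb]
    have : b * ‖z‖ ≤ 1 * ‖z‖ := mul_le_mul_of_nonneg_right hb1 (norm_nonneg _)
    rw [one_mul] at this
    exact mul_le_mul_of_nonneg_left this hB
  have h1 : ∫ z, Real.exp (x * X (y + b • z)) * ‖z‖ ∂(gI κ) ≤
      Real.exp (x * X y) * ∫ z : κ → ℝ, Real.exp (x * B * ‖z‖) * ‖z‖ ∂(gI κ) := by
    rw [← integral_const_mul]
    refine integral_mono (((h.eg_exp hB y b x).mul eg_norm)).integrable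
      (((eg_exp_norm (x * B)).mul eg_norm).const_mul _).integrable fun z => ?_
    simp only
    rw [← mul_assoc, ← Real.exp_add]
    refine mul_le_mul_of_nonneg_right (Real.exp_le_exp.2 ?_) (norm_nonneg _)
    have := (abs_le.1 (hd z)).2
    nlinarith [mul_le_mul_of_nonneg_left this hx.le]
  have h2 : Real.exp (x * X y) * ∫ z : κ → ℝ, Real.exp (-(x * B) * ‖z‖) ∂(gI κ) ≤
      ∫ z, Real.exp (x * X (y + b • z)) ∂(gI κ) := by
    rw [← integral_const_mul]
    refine integral_mono ((eg_exp_norm (-(x * B))).const_mul _).integrable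
      (h.int_exp hB y b x) fun z => ?_
    simp only
    rw [← Real.exp_add]
    refine Real.exp_le_exp.2 ?_
    have := (abs_le.1 (hd z)).1
    nlinarith [mul_le_mul_of_nonneg_left this hx.le]
  refine h1.trans ?_
  have h3 := mul_le_mul_of_nonneg_left h2 (tl_nonneg (κ := κ) (x * B))
  refine le_trans (le_of_eq ?_) h3
  unfold tl
  generalize (∫ z : κ → ℝ, Real.exp (-(x * B) * ‖z‖) ∂(gI κ)) = p at hp
  generalize (∫ z : κ → ℝ, Real.exp (x * B * ‖z‖) * ‖z‖ ∂(gI κ)) = q
  field_simp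

/-- the gradient moves little when the layer grows -/
lemma DW_move (h : C11 F D B L) (hx : 0 < x) (hs : 0 ≤ s) (hss : s ≤ s') (hs1 : s' ≤ 1) (e : κ)
    (y : κ → ℝ) : |DW x (√s') F D e y - DW x (√s) F D e y| ≤
      6 * (L + 2 * x * (Fintype.card κ * B) ^ 2) * tl κ (x * B) * √(s' - s) := by
  have hU := h.W' hx (√s)
  have hb1 : √(s' - s) ≤ 1 := by
    rw [Real.sqrt_le_one]; linarith
  have h0 : (√(s' - s)) ^ 2 + (√s) ^ 2 = (√s') ^ 2 := by
    rw [Real.sq_sqrt (by linarith), Real.sq_sqrt hs, Real.sq_sqrt (by linarith)]; ring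
  rw [DW_step h hx h0]
  set b := √(s' - s) with hb
  have hb0 : 0 ≤ b := Real.sqrt_nonneg _
  set L' := L + 2 * x * (Fintype.card κ * B) ^ 2 with hL'
  have hp : 0 < ∫ z, Real.exp (x * W x (√s) F (y + b • z)) ∂(gI κ) :=
    integral_exp_pos (hU.lip.int_exp h.B0 y b x)
  have eE := hU.lip.eg_exp h.B0 y b x
  have eD := EG.add_smul (hU.eg_D e) y b
  have h1 : (∫ z, Real.exp (x * W x (√s) F (y + b • z)) * DW x (√s) F D e (y + b • z) ∂(gI κ)) /
      (∫ z, Real.exp (x * W x (√s) F (y + b • z)) ∂(gI κ)) - DW x (√s) F D e y =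
      (∫ z, Real.exp (x * W x (√s) F (y + b • z)) *
        (DW x (√s) F D e (y + b • z) - DW x (√s) F D e y) ∂(gI κ)) /
        ∫ z, Real.exp (x * W x (√s) F (y + b • z)) ∂(gI κ) := by
    have e2 : ∫ z, Real.exp (x * W x (√s) F (y + b • z)) *
        (DW x (√s) F D e (y + b • z) - DW x (√s) F D e y) ∂(gI κ) =
        (∫ z, Real.exp (x * W x (√s) F (y + b • z)) * DW x (√s) F D e (y + b • z) ∂(gI κ)) -
        DW x (√s) F D e y * ∫ z, Real.exp (x * W x (√s) F (y + b • z)) ∂(gI κ) := by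
      rw [← integral_const_mul, ← integral_sub (eE.mul eD).integrable
        (eE.integrable.const_mul _)]
      refine integral_congr_ae (Eventually.of_forall fun z => ?_)
      simp only
      ring
    rw [e2]
    field_simp
  rw [h1, abs_div, abs_of_pos hp, div_le_iff₀ hp]
  refine abs_integral_le_integral_abs.trans ?_
  have h2 : ∀ z, |Real.exp (x * W x (√s) F (y + b • z)) *
        (DW x (√s) F D e (y + b • z) - DW x (√s) F D e y)| ≤
      6 * L' * b * (Real.exp (x * W x (√s) F (y + b • z)) * ‖z‖) := by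
    intro z
    rw [abs_mul, abs_of_pos (Real.exp_pos _)]
    have h3 := hU.grad_lip e y (b • z)
    rw [norm_smul, Real.norm_eq_abs, abs_of_nonneg hb0] at h3
    have h4 := mul_le_mul_of_nonneg_left h3 (Real.exp_pos (x * W x (√s) F (y + b • z))).le
    refine h4.trans (le_of_eq ?_)
    ring
  refine (integral_mono (eE.mul (eD.sub (EG.const _))).abs.integrable
    ((eE.mul eg_norm).const_mul (6 * L' * b)).integrable h2).trans ?_
  rw [integral_const_mul]
  have h5 := tilt_norm hU.lip h.B0 hx hb0 hb1 y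
  have hL0 : 0 ≤ L' := hU.L0
  have h6 := mul_le_mul_of_nonneg_left h5 (by positivity : 0 ≤ 6 * L' * b)
  refine h6.trans (le_of_eq ?_)
  ring

/-- **The base gradient is continuous in the window.** -/
theorem Q0_cont (h : C11 F D B L) (hx : 0 < x) : ∃ C : ℝ, 0 ≤ C ∧ ∀ s s', 0 ≤ s → s ≤ s' →
    s' ≤ 1 → |Q0 x s' F D - Q0 x s F D| ≤ C * √(s' - s) := by
  set N : ℝ := (Fintype.card κ : ℝ) with hN
  have hN0 : 0 ≤ N := Nat.cast_nonneg _
  set L' := L + 2 * x * (N * B) ^ 2 with hL'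
  have hB := h.B0
  have hL0 : 0 ≤ L' := (h.W' hx 0).L0
  have hm := m1_nonneg (κ := κ)
  have ht := tl_nonneg (κ := κ) (x * B)
  refine ⟨12 * B * L' * N * m1 κ + N * (2 * B * (6 * L' * tl κ (x * B))), by positivity,
    fun s s' hs hss hs1 => ?_⟩
  have hU := h.W' hx (√s)
  have hU' := h.W' hx (√s')
  have hd0 : 0 ≤ √(s' - s) := Real.sqrt_nonneg _
  have es : (1 : ℝ) - (1 - s) = s := by ring
  have es' : (1 : ℝ) - (1 - s') = s' := by ring
  have e1 : Q0 x s F D = ∫ z, ∑ e, DW x (√s) F D e (√(1 - s) • z) ^ 2 ∂(gI κ) := by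
    unfold Q0 R1.sq G2
    rw [es]
  have e2 : Q0 x s' F D = ∫ z, ∑ e, DW x (√s') F D e (√(1 - s') • z) ^ 2 ∂(gI κ) := by
    unfold Q0 R1.sq G2
    rw [es']
  have g1 := EG.smul' hU.eg_G2 (√(1 - s))
  have g2 := EG.smul' hU'.eg_G2 (√(1 - s'))
  rw [e1, e2, ← integral_sub g2.integrable g1.integrable]
  refine abs_integral_le_integral_abs.trans ?_
  have hpt : ∀ z : κ → ℝ, |∑ e, DW x (√s') F D e (√(1 - s') • z) ^ 2 -
      ∑ e, DW x (√s) F D e (√(1 - s) • z) ^ 2| ≤
      12 * B * L' * N * √(s' - s) * ‖z‖ + N * (2 * B * (6 * L' * tl κ (x * B))) * √(s' - s) := by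
    intro z
    have k1 := sqg_lip hU (√(1 - s) • z) ((√(1 - s') - √(1 - s)) • z)
    have e3 : √(1 - s) • z + (√(1 - s') - √(1 - s)) • z = √(1 - s') • z := by
      rw [← add_smul]; congr 1; ring
    rw [e3, norm_smul, Real.norm_eq_abs] at k1
    have k2 : |√(1 - s') - √(1 - s)| ≤ √(s' - s) := by
      have h1 : √(1 - s') ≤ √(1 - s) := Real.sqrt_le_sqrt (by linarith)
      rw [abs_of_nonpos (by linarith)]
      have h2 : √(1 - s) ≤ √(1 - s') + √(s' - s) := by
        rw [Real.sqrt_le_left (by positivity)]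
        have e4 : (√(1 - s') + √(s' - s)) ^ 2 = (√(1 - s')) ^ 2 + (√(s' - s)) ^ 2 +
          2 * (√(1 - s') * √(s' - s)) := by ring
        rw [e4, Real.sq_sqrt (by linarith), Real.sq_sqrt (by linarith)]
        have : 0 ≤ √(1 - s') * √(s' - s) := by positivity
        linarith
      linarith
    have k3 : |∑ e, DW x (√s') F D e (√(1 - s') • z) ^ 2 -
        ∑ e, DW x (√s) F D e (√(1 - s') • z) ^ 2| ≤
        N * (2 * B * (6 * L' * tl κ (x * B))) * √(s' - s) := by
      rw [← Finset.sum_sub_distrib]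
      refine (Finset.abs_sum_le_sum_abs _ _).trans ?_
      have h1 : ∀ e ∈ (Finset.univ : Finset κ), |DW x (√s') F D e (√(1 - s') • z) ^ 2 -
          DW x (√s) F D e (√(1 - s') • z) ^ 2| ≤
          (2 * B) * (6 * L' * tl κ (x * B) * √(s' - s)) := by
        intro e _
        have e5 : DW x (√s') F D e (√(1 - s') • z) ^ 2 - DW x (√s) F D e (√(1 - s') • z) ^ 2 =
          (DW x (√s') F D e (√(1 - s') • z) + DW x (√s) F D e (√(1 - s') • z)) *
          (DW x (√s') F D e (√(1 - s') • z) - DW x (√s) F D e (√(1 - s') • z)) := by ring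
        rw [e5, abs_mul]
        refine mul_le_mul ?_ (DW_move h hx hs hss hs1 e _) (abs_nonneg _) (by positivity)
        refine (abs_add_le _ _).trans ?_
        linarith [hU.bd e (√(1 - s') • z), hU'.bd e (√(1 - s') • z)]
      refine (Finset.sum_le_card_nsmul _ _ _ h1).trans (le_of_eq ?_)
      rw [nsmul_eq_mul, Finset.card_univ]
      ring
    have k4 : 12 * B * L' * N * (|√(1 - s') - √(1 - s)| * ‖z‖) ≤
        12 * B * L' * N * √(s' - s) * ‖z‖ := by
      have : |√(1 - s') - √(1 - s)| * ‖z‖ ≤ √(s' - s) * ‖z‖ :=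
        mul_le_mul_of_nonneg_right k2 (norm_nonneg _)
      have := mul_le_mul_of_nonneg_left this (by positivity : 0 ≤ 12 * B * L' * N)
      linarith
    have e6 : ∑ e, DW x (√s') F D e (√(1 - s') • z) ^ 2 -
      ∑ e, DW x (√s) F D e (√(1 - s) • z) ^ 2 =
      (∑ e, DW x (√s') F D e (√(1 - s') • z) ^ 2 -
        ∑ e, DW x (√s) F D e (√(1 - s') • z) ^ 2) +
      (∑ e, DW x (√s) F D e (√(1 - s') • z) ^ 2 -
      ∑ e, DW x (√s) F D e (√(1 - s) • z) ^ 2) := by ring
    rw [e6]
    refine (abs_add_le _ _).trans ?_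
    linarith
  have j1 : Integrable (fun z : κ → ℝ => 12 * B * L' * N * √(s' - s) * ‖z‖) (gI κ) :=
    eg_norm.integrable.const_mul _
  have j2 : Integrable (fun z : κ → ℝ => 12 * B * L' * N * √(s' - s) * ‖z‖ +
      N * (2 * B * (6 * L' * tl κ (x * B))) * √(s' - s)) (gI κ) := j1.add (integrable_const _)
  refine (integral_mono (g2.sub g1).abs.integrable j2 hpt).trans (le_of_eq ?_)
  rw [integral_add j1 (integrable_const _), integral_const_mul]
  unfold m1
  simp
  ring

/-- **One step in the length of the window.** -/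
theorem DD_step (h : C11 F D B L) (hx : 0 < x) : ∃ C : ℝ, 0 ≤ C ∧ ∀ s s', 0 ≤ s → s ≤ s' →
    s' ≤ 1 → |DD x s' F - DD x s F - x / 2 * (s' - s) * Q0 x s F D| ≤
      C * ((s' - s) * √(s' - s)) := by
  set N : ℝ := (Fintype.card κ : ℝ) with hN
  have hN0 : 0 ≤ N := Nat.cast_nonneg _
  set L' := L + 2 * x * (N * B) ^ 2 with hL'
  have hB := h.B0
  have hL0 : 0 ≤ L' := (h.W' hx 0).L0
  have hm := m1_nonneg (κ := κ)
  obtain ⟨C, hC, hstep⟩ := layer_two (κ := κ) hx hB hL0
  refine ⟨C + x / 2 * (12 * B * L' * N * m1 κ), by positivity, fun s s' hs hss hs1 => ?_⟩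
  have hU := h.W' hx (√s)
  have hd : 0 ≤ s' - s := by linarith
  have hb0 : 0 ≤ √(s' - s) := Real.sqrt_nonneg _
  have hb1 : √(s' - s) ≤ 1 := by rw [Real.sqrt_le_one]; linarith
  have hb2 : (√(s' - s)) ^ 2 = s' - s := Real.sq_sqrt hd
  have h0 : (√(s' - s)) ^ 2 + (√s) ^ 2 = (√s') ^ 2 := by
    rw [Real.sq_sqrt hd, Real.sq_sqrt hs, Real.sq_sqrt (by linarith)]; ring
  have hab : (√(1 - s')) ^ 2 + (√(s' - s)) ^ 2 = (√(1 - s)) ^ 2 := by
    rw [Real.sq_sqrt (by linarith), Real.sq_sqrt hd, Real.sq_sqrt (by linarith)]; ring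
  set b := √(s' - s) with hb
  have es : (1 : ℝ) - (1 - s) = s := by ring
  -- the difference as one layer
  have r1 := gI_rot hU.eg hab 0
  simp only [zero_add] at r1
  have r2 := gI_rot hU.eg_G2 hab 0
  simp only [zero_add] at r2
  have egM : EG fun z => Mn b (W x (√s) F) (√(1 - s') • z) :=
    EG.smul' (EG.conv hU.eg b) (√(1 - s'))
  have egW : EG fun z => W x b (W x (√s) F) (√(1 - s') • z) :=
    EG.smul' (hU.W' hx b).eg (√(1 - s'))
  have egG : EG fun z => ∑ e, DW x (√s) F D e (√(1 - s') • z) ^ 2 :=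
    EG.smul' hU.eg_G2 (√(1 - s'))
  have egG2 : EG fun z => ∫ w, ∑ e, DW x (√s) F D e (√(1 - s') • z + b • w) ^ 2 ∂(gI κ) :=
    EG.smul' (EG.conv hU.eg_G2 b) (√(1 - s'))
  have d1 : DD x s' F - DD x s F = ∫ z, (W x b (W x (√s) F) (√(1 - s') • z) -
      Mn b (W x (√s) F) (√(1 - s') • z)) ∂(gI κ) := by
    rw [DD_eq, DD_eq, ← r1, integral_sub egW.integrable egM.integrable]
    have : ∀ z : κ → ℝ, W x b (W x (√s) F) (√(1 - s') • z) = W x (√s') F (√(1 - s') • z) :=
      fun z => W_W h.lip hB hx h0 _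
    simp_rw [this]
    unfold Mn
    ring
  have d2 : Q0 x s F D = ∫ z, (∫ w, ∑ e, DW x (√s) F D e (√(1 - s') • z + b • w) ^ 2
      ∂(gI κ)) ∂(gI κ) := by
    rw [r2]
    unfold Q0 R1.sq G2
    rw [es]
  have hpt : ∀ z : κ → ℝ, |(W x b (W x (√s) F) (√(1 - s') • z) -
      Mn b (W x (√s) F) (√(1 - s') • z)) - x / 2 * (s' - s) *
      ∫ w, ∑ e, DW x (√s) F D e (√(1 - s') • z + b • w) ^ 2 ∂(gI κ)| ≤
      (C + x / 2 * (12 * B * L' * N * m1 κ)) * ((s' - s) * b) := by
    intro z
    have k1 := hstep _ _ hU b hb0 hb1 (√(1 - s') • z)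
    have k2 : |∫ w, ∑ e, DW x (√s) F D e (√(1 - s') • z + b • w) ^ 2 ∂(gI κ) -
        ∑ e, DW x (√s) F D e (√(1 - s') • z) ^ 2| ≤ 12 * B * L' * N * m1 κ * b := by
      have g1 := EG.add_smul hU.eg_G2 (√(1 - s') • z) b
      have e1 : ∫ w, ∑ e, DW x (√s) F D e (√(1 - s') • z + b • w) ^ 2 ∂(gI κ) -
        ∑ e, DW x (√s) F D e (√(1 - s') • z) ^ 2 =
        ∫ w, (∑ e, DW x (√s) F D e (√(1 - s') • z + b • w) ^ 2 -
          ∑ e, DW x (√s) F D e (√(1 - s') • z) ^ 2) ∂(gI κ) := by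
        rw [integral_sub g1.integrable (integrable_const _)]
        simp
      rw [e1]
      refine abs_integral_le_integral_abs.trans ?_
      have e2 : 12 * B * L' * N * m1 κ * b = ∫ w : κ → ℝ, 12 * B * L' * N * b * ‖w‖ ∂(gI κ) := by
        rw [integral_const_mul]
        unfold m1
        ring
      rw [e2]
      refine integral_mono (g1.sub (EG.const _)).abs.integrable
        (eg_norm.integrable.const_mul _) fun w => ?_
      have k3 := sqg_lip hU (√(1 - s') • z) (b • w)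
      rw [norm_smul, Real.norm_eq_abs, abs_of_nonneg hb0] at k3
      simp only
      refine k3.trans (le_of_eq ?_)
      ring
    have k4 : |x / 2 * (s' - s) * (∑ e, DW x (√s) F D e (√(1 - s') • z) ^ 2 -
        ∫ w, ∑ e, DW x (√s) F D e (√(1 - s') • z + b • w) ^ 2 ∂(gI κ))| ≤
        x / 2 * (s' - s) * (12 * B * L' * N * m1 κ * b) := by
      rw [abs_mul, abs_of_nonneg (by positivity : 0 ≤ x / 2 * (s' - s)), abs_sub_comm]
      exact mul_le_mul_of_nonneg_left k2 (by positivity)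
    have e3 : b ^ 3 = (s' - s) * b := by rw [← hb2]; ring
    rw [e3, hb2] at k1
    have e4 : (W x b (W x (√s) F) (√(1 - s') • z) - Mn b (W x (√s) F) (√(1 - s') • z)) -
      x / 2 * (s' - s) * ∫ w, ∑ e, DW x (√s) F D e (√(1 - s') • z + b • w) ^ 2 ∂(gI κ) =
      (W x b (W x (√s) F) (√(1 - s') • z) - Mn b (W x (√s) F) (√(1 - s') • z) -
        x / 2 * (s' - s) * ∑ e, DW x (√s) F D e (√(1 - s') • z) ^ 2) +
      x / 2 * (s' - s) * (∑ e, DW x (√s) F D e (√(1 - s') • z) ^ 2 -
        ∫ w, ∑ e, DW x (√s) F D e (√(1 - s') • z + b • w) ^ 2 ∂(gI κ)) := by ring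
    rw [e4]
    refine (abs_add_le _ _).trans ((add_le_add k1 k4).trans (le_of_eq ?_))
    ring
  have d3 : DD x s' F - DD x s F - x / 2 * (s' - s) * Q0 x s F D =
      ∫ z, ((W x b (W x (√s) F) (√(1 - s') • z) -
      Mn b (W x (√s) F) (√(1 - s') • z)) - x / 2 * (s' - s) *
      ∫ w, ∑ e, DW x (√s) F D e (√(1 - s') • z + b • w) ^ 2 ∂(gI κ)) ∂(gI κ) := by
    rw [d1, d2, integral_sub (egW.sub egM).integrable (egG2.const_mul _).integrable,
      integral_const_mul]
  rw [d3]
  refine abs_integral_le_integral_abs.trans ?_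
  have := integral_mono ((egW.sub egM).sub (egG2.const_mul (x / 2 * (s' - s)))).abs.integrable
    (integrable_const ((C + x / 2 * (12 * B * L' * N * m1 κ)) * ((s' - s) * b))) hpt
  simpa using this

/-- **`D` as an integral in the length of the window.** -/
theorem DD_int_s (h : C11 F D B L) (hx : 0 < x) (hs : 0 ≤ s) (hss : s ≤ s') (hs1 : s' ≤ 1) :
    DD x s' F - DD x s F = ∫ σ in s..s', x / 2 * Q0 x σ F D := by
  obtain ⟨C, hC, h1⟩ := DD_step (D := D) h hx
  obtain ⟨C', hC', h2⟩ := Q0_cont (D := D) h hx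
  -- continuity of `Q0`
  have hQ2 : ∀ a ∈ Set.Icc s s', ∀ c ∈ Set.Icc s s', |Q0 x a F D - Q0 x c F D| ≤
      C' * √|a - c| := by
    intro a ha c hc
    rcases le_total c a with hle | hle
    · have := h2 c a (hs.trans hc.1) hle (ha.2.trans hs1)
      rwa [abs_of_nonneg (by linarith : 0 ≤ a - c)]
    · have := h2 a c (hs.trans ha.1) hle (hc.2.trans hs1)
      rw [abs_sub_comm, abs_sub_comm a c]
      rwa [abs_of_nonneg (by linarith : 0 ≤ c - a)]
  have hQc : ContinuousOn (fun σ => Q0 x σ F D) (Set.Icc s s') := by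
    intro c hc
    rw [ContinuousWithinAt, tendsto_iff_dist_tendsto_zero]
    have hlim : Tendsto (fun a : ℝ => C' * √|a - c|) (𝓝[Set.Icc s s'] c) (𝓝 0) := by
      have : Tendsto (fun a : ℝ => C' * √|a - c|) (𝓝 c) (𝓝 (C' * √|c - c|)) := by
        apply Continuous.tendsto
        fun_prop
      rw [sub_self, abs_zero, Real.sqrt_zero, mul_zero] at this
      exact this.mono_left nhdsWithin_le_nhds
    refine squeeze_zero' (Eventually.of_forall fun a => dist_nonneg) ?_ hlim
    filter_upwards [self_mem_nhdsWithin] with a ha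
    rw [Real.dist_eq]
    exact hQ2 a ha c hc
  have hDc : ContinuousOn (fun σ => DD x σ F) (Set.Icc s s') := by
    intro c hc
    rw [ContinuousWithinAt, tendsto_iff_dist_tendsto_zero]
    obtain ⟨M, hM⟩ : ∃ M, ∀ a ∈ Set.Icc s s', |Q0 x a F D| ≤ M := by
      obtain ⟨M, hM⟩ := (isCompact_Icc (a := s) (b := s')).exists_bound_of_continuousOn hQc
      exact ⟨M, fun a ha => by simpa using hM a ha⟩
    have hM0 : 0 ≤ M := (abs_nonneg _).trans (hM c hc)
    have hb : ∀ a ∈ Set.Icc s s', |DD x a F - DD x c F| ≤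
        x / 2 * |a - c| * M + C * (|a - c| * √|a - c|) := by
      intro a ha
      rcases le_total c a with hle | hle
      · have k := h1 c a (hs.trans hc.1) hle (ha.2.trans hs1)
        have e : DD x a F - DD x c F = (DD x a F - DD x c F - x / 2 * (a - c) * Q0 x c F D) +
          x / 2 * (a - c) * Q0 x c F D := by ring
        rw [e, abs_of_nonneg (by linarith : 0 ≤ a - c)]
        refine (abs_add_le _ _).trans ?_
        have k2 : |x / 2 * (a - c) * Q0 x c F D| ≤ x / 2 * (a - c) * M := by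
          rw [abs_mul, abs_of_nonneg (by
            have : 0 ≤ a - c := by linarith
            positivity : 0 ≤ x / 2 * (a - c))]
          exact mul_le_mul_of_nonneg_left (hM c hc) (by
            have : 0 ≤ a - c := by linarith
            positivity)
        linarith
      · have k := h1 a c (hs.trans ha.1) hle (hc.2.trans hs1)
        have e : DD x a F - DD x c F = -(DD x c F - DD x a F - x / 2 * (c - a) * Q0 x a F D) -
          x / 2 * (c - a) * Q0 x a F D := by ring
        rw [e, abs_sub_comm a c, abs_of_nonneg (by linarith : 0 ≤ c - a)]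
        refine (abs_sub _ _).trans ?_
        rw [abs_neg]
        have k2 : |x / 2 * (c - a) * Q0 x a F D| ≤ x / 2 * (c - a) * M := by
          rw [abs_mul, abs_of_nonneg (by
            have : 0 ≤ c - a := by linarith
            positivity : 0 ≤ x / 2 * (c - a))]
          exact mul_le_mul_of_nonneg_left (hM a ha) (by
            have : 0 ≤ c - a := by linarith
            positivity)
        linarith
    have hlim : Tendsto (fun a : ℝ => x / 2 * |a - c| * M + C * (|a - c| * √|a - c|))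
        (𝓝[Set.Icc s s'] c) (𝓝 0) := by
      have : Tendsto (fun a : ℝ => x / 2 * |a - c| * M + C * (|a - c| * √|a - c|)) (𝓝 c)
          (𝓝 (x / 2 * |c - c| * M + C * (|c - c| * √|c - c|))) := by
        apply Continuous.tendsto
        fun_prop
      rw [sub_self, abs_zero] at this
      simp only [mul_zero, zero_mul, add_zero] at this
      exact this.mono_left nhdsWithin_le_nhds
    refine squeeze_zero' (Eventually.of_forall fun a => dist_nonneg) ?_ hlim
    filter_upwards [self_mem_nhdsWithin] with a ha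
    rw [Real.dist_eq]
    exact hb a ha
  symm
  refine intervalIntegral.integral_eq_sub_of_hasDeriv_right_of_le hss hDc (fun c hc => ?_) ?_
  · rw [hasDerivWithinAt_iff_isLittleO, Asymptotics.isLittleO_iff]
    intro ε hε
    have hlim : Tendsto (fun a : ℝ => C * √|a - c|) (𝓝[Set.Ioi c] c) (𝓝 0) := by
      have : Tendsto (fun a : ℝ => C * √|a - c|) (𝓝 c) (𝓝 (C * √|c - c|)) := by
        apply Continuous.tendsto
        fun_prop
      rw [sub_self, abs_zero, Real.sqrt_zero, mul_zero] at this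
      exact this.mono_left nhdsWithin_le_nhds
    have hIoo : Set.Ioo c s' ∈ 𝓝[Set.Ioi c] c := Ioo_mem_nhdsGT hc.2
    filter_upwards [hlim.eventually_le_const hε, hIoo] with a ha ha2
    have k := h1 c a (hs.trans hc.1.le) ha2.1.le (ha2.2.le.trans hs1)
    have hac : 0 ≤ a - c := by linarith [ha2.1]
    rw [Real.norm_eq_abs, Real.norm_eq_abs, smul_eq_mul]
    have e : DD x a F - DD x c F - (a - c) * (x / 2 * Q0 x c F D) =
        DD x a F - DD x c F - x / 2 * (a - c) * Q0 x c F D := by ring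
    rw [e, abs_of_nonneg hac]
    rw [abs_of_nonneg hac] at ha
    refine k.trans ?_
    have := mul_le_mul_of_nonneg_right ha hac
    linarith
  · refine ContinuousOn.intervalIntegrable ?_
    rw [Set.uIcc_of_le hss]
    exact hQc.const_smul (x / 2)

end gen

end Vale.Agent.P146.H767
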