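import Vale.Agent.P146.H767.SA2

/-!
# P146: the exponential gap of the value functions of the two-layer law

`W (θ x₁) b₀ (V2 y τ x s F) 0 - E V2 y τ x s F ≤ θ (W x₁ 1 F 0 - E F) + δ D(R x, s + τ)`.
-/

open MeasureTheory ProbabilityTheory

namespace Vale.Agent.P146.H767

open Vale.Agent.P157.Lv Vale.Agent.P146.H425 Vale.Agent.P146.R1 Vale.Agent.P146.H376

set_option linter.unusedSectionVars false

section gen

variable {κ : Type} [Fintype κ] {F G G0 G1 U : (κ → ℝ) → ℝ} {D DU : κ → (κ → ℝ) → ℝ}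
  {B B0 B1 L x y x' y' a b s τ lam : ℝ}

lemma uu_conv (h : C11 F D B L) (hc : Cv F) (hx : 0 < x) (hx' : 0 < x') {p q : ℝ}
    (hp : 0 ≤ p) (hq : 0 ≤ q) (hpq : p + q = 1) (t : ℝ) (w0 w1 : κ → ℝ) :
    uu (p * x + q * x') t F (p • w0 + q • w1) ≤ p * uu x t F w0 + q * uu x' t F w1 :=
  layer_b h h.lip h.B0 h.lip h.B0 hx hx' hp hq hpq (hc p q hp hq hpq) _ w0 w1

lemma comb_pos' (hx : 0 < x) (hx' : 0 < x') {p q : ℝ} (hp : 0 ≤ p) (hq : 0 ≤ q)
    (hpq : p + q = 1) : 0 < p * x + q * x' := by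
  rcases hp.eq_or_lt with h | h
  · have : q = 1 := by linarith
    rw [← h, this]
    linarith
  · have := mul_pos h hx
    have := mul_nonneg hq hx'.le
    linarith

/-- **The value function of two layers is jointly convex in the exponents and the position.** -/
lemma V2_conv (h : C11 F D B L) (hc : Cv F) (hx : 0 < x) (hx' : 0 < x') (hy : 0 < y)
    (hy' : 0 < y') {p q : ℝ} (hp : 0 ≤ p) (hq : 0 ≤ q) (hpq : p + q = 1) (τ s : ℝ)
    (w0 w1 : κ → ℝ) :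
    V2 (p * y + q * y') τ (p * x + q * x') s F (p • w0 + q • w1) ≤
      p * V2 y τ x s F w0 + q * V2 y' τ x' s F w1 := by
  have c := c11_uu h (comb_pos' hx hx' hp hq hpq) (1 - s)
  have c0 := c11_uu h hx (1 - s)
  have c1 := c11_uu h hx' (1 - s)
  exact layer_b c c0.lip c0.B0 c1.lip c1.B0 hy hy' hp hq hpq
    (uu_conv h hc hx hx' hp hq hpq (1 - s)) (√τ) w0 w1

/-- the value function of two layers increases with the exponents -/
lemma V2_mono (h : C11 F D B L) (hx : 0 < x) (hxx : x ≤ x') (hy : 0 < y) (hyy : y ≤ y')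
    (τ s : ℝ) (z : κ → ℝ) : V2 y τ x s F z ≤ V2 y' τ x' s F z := by
  have hx' := hx.trans_le hxx
  have hy' := hy.trans_le hyy
  have c0 := c11_uu h hx (1 - s)
  have c1 := c11_uu h hx' (1 - s)
  refine (H941.W_mono_exp (s := √τ) c0.lip c0.B0 hy hyy z).trans ?_
  exact H941.W_mono (s := √τ) c0.lip c0.B0 c1.lip c1.B0 hy'
    (fun w => H941.W_mono_exp (s := √(1 - (1 - s))) h.lip h.B0 hx hxx w) z

/-- the mean of the value function is at least the mean of `F` -/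
lemma mean_le_V2 (h : C11 F D B L) (hx : 0 < x) (hy : 0 < y) (hτ : 0 ≤ τ) (hs : 0 ≤ s)
    (h1 : s + τ ≤ 1) :
    ∫ z, F z ∂(gI κ) ≤ ∫ z, V2 y τ x s F (√(1 - (s + τ)) • z) ∂(gI κ) := by
  have e0 := int_V0 h hx hτ h1
  have h2 := DD_nonneg h hx hs (by linarith : s ≤ 1)
  have h3 : ∫ z, V0 τ x s F (√(1 - (s + τ)) • z) ∂(gI κ) ≤
      ∫ z, V2 y τ x s F (√(1 - (s + τ)) • z) ∂(gI κ) :=
    integral_mono (EG.smul' (eg_V0 h hx τ s) _).integrable
      (EG.smul' (eg_V2 h hx hy τ s) _).integrable fun z => V0_le_V2 h hx hy τ s _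
  unfold DD at h2
  linarith

/-- equal exponents -/
lemma int_V2_self (h : C11 F D B L) (hx : 0 < x) (hτ : 0 ≤ τ) (hs : 0 ≤ s) :
    ∫ z, V2 x τ x s F (√(1 - (s + τ)) • z) ∂(gI κ) =
      DD x (s + τ) F + ∫ z, F z ∂(gI κ) := by
  simp_rw [V2_self h hx hτ hs]
  unfold DD
  ring

/-- the mean of the value function is a convex function of the common factor of the exponents -/
lemma int_V2_scale (h : C11 F D B L) (hc : Cv F) (hx : 0 < x) (hy : 0 < y) (hyx : y ≤ x)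
    (hτ : 0 ≤ τ) (hs : 0 ≤ s) (h1 : s + τ ≤ 1) {r R δ : ℝ} (hr : 0 < r) (hR : 0 < R)
    (hδ : 0 ≤ δ) (hδ1 : δ ≤ 1) (hrR : r - 1 ≤ δ * (R - 1)) :
    ∫ z, V2 (r * y) τ (r * x) s F (√(1 - (s + τ)) • z) ∂(gI κ) ≤
      ∫ z, V2 y τ x s F (√(1 - (s + τ)) • z) ∂(gI κ) + δ * DD (R * x) (s + τ) F := by
  have hRx : 0 < R * x := mul_pos hR hx
  have hRy : 0 < R * y := mul_pos hR hy
  have hrx : 0 < r * x := mul_pos hr hx
  have hry : 0 < r * y := mul_pos hr hy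
  have e1 : r * y ≤ (1 - δ) * y + δ * (R * y) := by nlinarith
  have e2 : r * x ≤ (1 - δ) * x + δ * (R * x) := by nlinarith
  have key : ∀ z : κ → ℝ, V2 (r * y) τ (r * x) s F z ≤
      (1 - δ) * V2 y τ x s F z + δ * V2 (R * x) τ (R * x) s F z := by
    intro z
    have k1 := V2_mono h hrx e2 hry e1 τ s z
    have k2 := V2_conv h hc hx hRx hy hRy (sub_nonneg.2 hδ1) hδ (by ring) τ s z z
    have k3 := V2_mono h hRx le_rfl hRy (mul_le_mul_of_nonneg_left hyx hR.le) τ s z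
    have e3 : (1 - δ) • z + δ • z = z := by
      rw [← add_smul]
      simp
    rw [e3] at k2
    have k4 := mul_le_mul_of_nonneg_left k3 hδ
    linarith
  have i0 := EG.smul' (eg_V2 (τ := τ) (s := s) h hx hy) (√(1 - (s + τ)))
  have i1 := EG.smul' (eg_V2 (τ := τ) (s := s) h hRx hRx) (√(1 - (s + τ)))
  have i2 := EG.smul' (eg_V2 (τ := τ) (s := s) h hrx hry) (√(1 - (s + τ)))
  have h2 : ∫ z, V2 (r * y) τ (r * x) s F (√(1 - (s + τ)) • z) ∂(gI κ) ≤
      (1 - δ) * ∫ z, V2 y τ x s F (√(1 - (s + τ)) • z) ∂(gI κ) +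
        δ * ∫ z, V2 (R * x) τ (R * x) s F (√(1 - (s + τ)) • z) ∂(gI κ) := by
    rw [← integral_const_mul, ← integral_const_mul,
      ← integral_add (i0.const_mul _).integrable (i1.const_mul _).integrable]
    exact integral_mono i2.integrable ((i0.const_mul _).add (i1.const_mul _)).integrable
      fun z => key _
  rw [int_V2_self h hRx hτ hs] at h2
  have h3 := mean_le_V2 h hx hy hτ hs h1
  nlinarith

/-- **The exponential gap over the free base.** -/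
theorem gap_V2 (h : C11 F D B L) (hc : Cv F) {x1 θ R δ : ℝ} (hx1 : 0 < x1) (h1y : x1 ≤ y)
    (hyx : y ≤ x) (hθ : 0 < θ) (hθ1 : θ < 1) (hR : 0 < R) (hδ : 0 ≤ δ) (hδ1 : δ ≤ 1)
    (hδR : 1 / (1 - θ) - 1 ≤ δ * (R - 1)) (hτ : 0 ≤ τ) (hs : 0 ≤ s) (h1 : s + τ ≤ 1) :
    W (θ * x1) (√(1 - (s + τ))) (V2 y τ x s F) 0 -
        ∫ z, V2 y τ x s F (√(1 - (s + τ)) • z) ∂(gI κ) ≤
      θ * (W x1 1 F 0 - ∫ z, F z ∂(gI κ)) + δ * DD (R * x) (s + τ) F := by
  have hy : 0 < y := hx1.trans_le h1y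
  have hx : 0 < x := hy.trans_le hyx
  have hθ' : 0 < 1 - θ := by linarith
  set y' := (y - θ * x1) / (1 - θ) with hy'
  set x' := (x - θ * x1) / (1 - θ) with hx'
  have hy0 : 0 < y' := div_pos (by nlinarith) hθ'
  have hx0 : 0 < x' := div_pos (by nlinarith) hθ'
  have ey : (1 - θ) * y' + θ * x1 = y := by
    rw [hy']
    field_simp
    ring
  have ex : (1 - θ) * x' + θ * x1 = x := by
    rw [hx']
    field_simp
    ring
  have cV := (c11_uu h hx (1 - s)).W' hy (√τ)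
  have cV' := (c11_uu h hx0 (1 - s)).W' hy0 (√τ)
  have cu := c11_uu h hx1 (1 - (s + τ))
  have k1 : W (θ * x1) (√(1 - (s + τ))) (V2 y τ x s F) 0 ≤
      (1 - θ) * Mn (√(1 - (s + τ))) (V2 y' τ x' s F) 0 +
        θ * W x1 (√(1 - (s + τ))) (uu x1 (1 - (s + τ)) F) 0 := by
    have k2 := layer0 (G := V2 y τ x s F) (G0 := V2 y' τ x' s F)
      (G1 := uu x1 (1 - (s + τ)) F) cV cV'.lip cV'.B0 cu.lip cu.B0 (x1 := x1) (p := 1 - θ)
      (q := θ) hx1 hθ'.le hθ (by ring) (fun w0 w1 => by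
        have k3 := V2_conv h hc hx0 hx1 hy0 hx1 hθ'.le hθ.le (by ring) τ s w0 w1
        rw [ex, ey, V2_self h hx1 hτ hs w1] at k3
        exact k3) (√(1 - (s + τ))) 0 0
    simpa using k2
  have e1 : W x1 (√(1 - (s + τ))) (uu x1 (1 - (s + τ)) F) 0 = W x1 1 F 0 := by
    unfold uu
    refine W_W h.lip h.B0 hx1 ?_ 0
    rw [Real.sq_sqrt (by linarith), Real.sq_sqrt (by linarith)]
    ring
  have e2 : Mn (√(1 - (s + τ))) (V2 y' τ x' s F) 0 =
      ∫ z, V2 y' τ x' s F (√(1 - (s + τ)) • z) ∂(gI κ) := by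
    unfold Mn
    simp
  rw [e1, e2] at k1
  have k4 := mean_le_V2 h hx0 hy0 hτ hs h1
  have hr : 0 < 1 / (1 - θ) := by positivity
  have k5 : ∫ z, V2 y' τ x' s F (√(1 - (s + τ)) • z) ∂(gI κ) ≤
      ∫ z, V2 (1 / (1 - θ) * y) τ (1 / (1 - θ) * x) s F (√(1 - (s + τ)) • z) ∂(gI κ) := by
    refine integral_mono (EG.smul' (eg_V2 h hx0 hy0 τ s) _).integrable
      (EG.smul' (eg_V2 h (mul_pos hr hx) (mul_pos hr hy) τ s) _).integrable fun z => ?_
    refine V2_mono h hx0 ?_ hy0 ?_ τ s _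
    · rw [hx', one_div, inv_mul_eq_div]
      refine div_le_div_of_nonneg_right ?_ hθ'.le
      nlinarith
    · rw [hy', one_div, inv_mul_eq_div]
      refine div_le_div_of_nonneg_right ?_ hθ'.le
      nlinarith
  have k6 := int_V2_scale h hc hx hy hyx hτ hs h1 hr hR hδ hδ1 hδR
  nlinarith

/-- **The exponential gap, one window.** -/
theorem gap_uu (h : C11 F D B L) (hc : Cv F) {x1 θ R δ : ℝ} (hx1 : 0 < x1) (h1x : x1 ≤ x)
    (hθ : 0 < θ) (hθ1 : θ < 1) (hR : 0 < R) (hδ : 0 ≤ δ) (hδ1 : δ ≤ 1)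
    (hδR : 1 / (1 - θ) - 1 ≤ δ * (R - 1)) (hs : 0 ≤ s) (h1 : s ≤ 1) :
    W (θ * x1) (√(1 - s)) (uu x (1 - s) F) 0 -
        ∫ z, uu x (1 - s) F (√(1 - s) • z) ∂(gI κ) ≤
      θ * (W x1 1 F 0 - ∫ z, F z ∂(gI κ)) + δ * DD (R * x) s F := by
  have hx : 0 < x := hx1.trans_le h1x
  have k := gap_V2 h hc hx1 h1x le_rfl hθ hθ1 hR hδ hδ1 hδR (le_refl 0) hs (by linarith)
  have e : V2 x 0 x s F = uu x (1 - s) F := by
    funext z
    rw [V2_self h hx le_rfl hs]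
    simp
  rw [e, add_zero] at k
  exact k

end gen

end Vale.Agent.P146.H767
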