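import Vale.Agent.P146.H767.SA3

/-!
# P146: changes of law on the free base, for the value functions of the two-layer law

For every weight `q` of the base position with entropy `Hq q`: the means of `V2 y τ x s F` (exponent
`y` on the layer `[w - τ, w]`, `x` on the last window) and of `V0 τ x s F` (exponent `0` on the
layer) under `q` are within `E + Hq q / (θ x₁)` above and `12 S (Hq q + 3/2)` below the free means.
-/

open MeasureTheory ProbabilityTheory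

namespace Vale.Agent.P146.H767

open Vale.Agent.P157.Lv Vale.Agent.P146.H425 Vale.Agent.P146.R1 Vale.Agent.P146.H376

set_option linter.unusedSectionVars false

section gen

variable {κ : Type} [Fintype κ] {F G G0 G1 U : (κ → ℝ) → ℝ} {D DU : κ → (κ → ℝ) → ℝ}
  {B B0 B1 L x y x' y' a b s τ lam x1 θ R δ E S : ℝ} {q : (κ → ℝ) → ℝ}

lemma lipB_Mn (h : LipB F B) (hB : 0 ≤ B) (b : ℝ) : LipB (Mn b F) B := by
  intro u w
  unfold Mn
  have e0 : EG fun z => F (u + w + b • z) := (h.lip_smul hB _ b).eg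
  have e1 : EG fun z => F (u + b • z) := (h.lip_smul hB _ b).eg
  rw [← integral_sub e0.integrable e1.integrable]
  refine abs_integral_le_integral_abs.trans ?_
  have e2 : B * ‖w‖ = ∫ _z : κ → ℝ, B * ‖w‖ ∂(gI κ) := by simp
  rw [e2]
  refine integral_mono (e0.sub e1).integrable.abs (integrable_const _) fun z => ?_
  have e3 : u + w + b • z = u + b • z + w := by abel
  simp only
  rw [e3]
  exact h _ _

lemma Mn_zero (b : ℝ) (U : (κ → ℝ) → ℝ) : Mn b U 0 = ∫ z, U (b • z) ∂(gI κ) := by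
  unfold Mn
  simp

/-- **Up, exponent `y` on the layer.** -/
theorem sa_V2_up (h : C11 F D B L) (hc : Cv F) (hx1 : 0 < x1) (h1y : x1 ≤ y)
    (hyx : y ≤ x) (hθ : 0 < θ) (hθ1 : θ < 1) (hR : 0 < R) (hδ : 0 ≤ δ) (hδ1 : δ ≤ 1)
    (hδR : 1 / (1 - θ) - 1 ≤ δ * (R - 1)) (hτ : 0 ≤ τ) (hs : 0 ≤ s) (h1 : s + τ ≤ 1)
    (hE : θ * (W x1 1 F 0 - ∫ z, F z ∂(gI κ)) + δ * DD (R * x) (s + τ) F ≤ E)
    (hq : EG q) (h0 : ∀ z, 0 ≤ q z) (hi : ∫ z, q z ∂(gI κ) = 1) :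
    ∫ z, q z * V2 y τ x s F (√(1 - (s + τ)) • z) ∂(gI κ) ≤
      ∫ z, V2 y τ x s F (√(1 - (s + τ)) • z) ∂(gI κ) + (E + Hq q / (θ * x1)) := by
  have hy : 0 < y := hx1.trans_le h1y
  have hx : 0 < x := hy.trans_le hyx
  have cV := (c11_uu h hx (1 - s)).W' hy (√τ)
  have k := up_shift cV.lip cV.B0 (mul_pos hθ hx1) (√(1 - (s + τ))) 0 hq h0 hi
  have g := gap_V2 h hc hx1 h1y hyx hθ hθ1 hR hδ hδ1 hδR hτ hs h1
  simp only [Mn_zero, zero_add] at k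
  unfold V2 at g ⊢
  linarith

/-- **Down, exponent `y` on the layer.** -/
theorem sa_V2_dn (h : C11 F D B L) (hc : Cv F) (hx1 : 0 < x1) (h1y : x1 ≤ y)
    (hyx : y ≤ x) (hθ : 0 < θ) (hθ1 : θ < 1) (hR : 0 < R) (hδ : 0 ≤ δ) (hδ1 : δ ≤ 1)
    (hδR : 1 / (1 - θ) - 1 ≤ δ * (R - 1)) (hτ : 0 ≤ τ) (hs : 0 ≤ s) (h1 : s + τ ≤ 1)
    (hE : θ * (W x1 1 F 0 - ∫ z, F z ∂(gI κ)) + δ * DD (R * x) (s + τ) F ≤ E)
    (hS : 0 < S) (hES : 2 * E / (θ * x1) ≤ S ^ 2)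
    (hq : EG q) (h0 : ∀ z, 0 ≤ q z) (hi : ∫ z, q z ∂(gI κ) = 1) :
    ∫ z, V2 y τ x s F (√(1 - (s + τ)) • z) ∂(gI κ) - 12 * S * (Hq q + 3 / 2) ≤
      ∫ z, q z * V2 y τ x s F (√(1 - (s + τ)) • z) ∂(gI κ) := by
  have hy : 0 < y := hx1.trans_le h1y
  have hx : 0 < x := hy.trans_le hyx
  have hl := mul_pos hθ hx1
  have cV := (c11_uu h hx (1 - s)).W' hy (√τ)
  have g := gap_V2 h hc hx1 h1y hyx hθ hθ1 hR hδ hδ1 hδR hτ hs h1
  have hcV : Cv (V2 y τ x s F) := cv_V2 h hc hx hy τ s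
  have v := var_le_gap cV hcV hl (√(1 - (s + τ))) 0
  have hV : ∫ w, (W y (√τ) (uu x (1 - s) F) (0 + √(1 - (s + τ)) • w) -
      Mn (√(1 - (s + τ))) (W y (√τ) (uu x (1 - s) F)) 0) ^ 2 ∂(gI κ) ≤ S ^ 2 := by
    refine le_trans ?_ hES
    rw [le_div_iff₀ hl]
    simp only [Mn_zero, zero_add] at v g ⊢
    unfold V2 at g
    linarith
  have k := dn_shift cV.lip cV.B0 hcV (√(1 - (s + τ))) 0 hS hV hq h0 hi
  simp only [Mn_zero, zero_add] at k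
  unfold V2
  linarith

lemma sq_int_le {f : (κ → ℝ) → ℝ} (hf : EG f) :
    (∫ z, f z ∂(gI κ)) ^ 2 ≤ ∫ z, f z ^ 2 ∂(gI κ) := by
  set m := ∫ z, f z ∂(gI κ) with hm
  have h1 : 0 ≤ ∫ z, (f z - m) ^ 2 ∂(gI κ) := integral_nonneg fun z => sq_nonneg _
  have e : (fun z => (f z - m) ^ 2) = fun z => (f z ^ 2 - 2 * m * f z) + m ^ 2 := by
    funext z
    ring
  rw [e, integral_add ((hf.pow 2).sub (hf.const_mul (2 * m))).integrable (integrable_const _),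
    integral_sub (hf.pow 2).integrable (hf.const_mul (2 * m)).integrable, integral_const_mul,
    ← hm] at h1
  simp only [integral_const, probReal_univ, one_smul] at h1
  nlinarith

/-- the gap of the mean over a layer -/
lemma gap_V0 (h : C11 F D B L) (hx : 0 < x) (hl : 0 < lam) (hτ : 0 ≤ τ) (h1 : s + τ ≤ 1) :
    W lam (√(1 - (s + τ))) (V0 τ x s F) 0 - Mn (√(1 - (s + τ))) (V0 τ x s F) 0 ≤
      W lam (√(1 - s)) (uu x (1 - s) F) 0 - Mn (√(1 - s)) (uu x (1 - s) F) 0 := by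
  have c := c11_uu h hx (1 - s)
  have hl0 : LipB (V0 τ x s F) _ := lipB_Mn c.lip c.B0 (√τ)
  have cW := c.W' hl (√τ)
  have k1 : W lam (√(1 - (s + τ))) (V0 τ x s F) 0 ≤
      W lam (√(1 - (s + τ))) (W lam (√τ) (uu x (1 - s) F)) 0 :=
    H941.W_mono hl0 c.B0 cW.lip cW.B0 hl (fun z => mean_le_W c hl (√τ) z) 0
  have k2 : W lam (√(1 - (s + τ))) (W lam (√τ) (uu x (1 - s) F)) 0 =
      W lam (√(1 - s)) (uu x (1 - s) F) 0 := by
    refine W_W c.lip c.B0 hl ?_ 0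
    rw [Real.sq_sqrt (by linarith), Real.sq_sqrt hτ, Real.sq_sqrt (by linarith)]
    ring
  have k3 := int_V0 h hx hτ h1
  rw [Mn_zero, Mn_zero]
  linarith

/-- the variance of the mean over a layer -/
lemma var_V0 (h : C11 F D B L) (hx : 0 < x) (hτ : 0 ≤ τ) (h1 : s + τ ≤ 1) :
    ∫ w, (V0 τ x s F (0 + √(1 - (s + τ)) • w) - Mn (√(1 - (s + τ))) (V0 τ x s F) 0) ^ 2 ∂(gI κ) ≤
      ∫ w, (uu x (1 - s) F (0 + √(1 - s) • w) - Mn (√(1 - s)) (uu x (1 - s) F) 0) ^ 2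
        ∂(gI κ) := by
  have hU := c11_uu h hx (1 - s)
  have k3 := int_V0 h hx hτ h1
  have ec : Mn (√(1 - (s + τ))) (V0 τ x s F) 0 = Mn (√(1 - s)) (uu x (1 - s) F) 0 := by
    rw [Mn_zero, Mn_zero, k3]
  rw [ec]
  set c := Mn (√(1 - s)) (uu x (1 - s) F) 0 with hcd
  have eQ : EG fun z => (uu x (1 - s) F z - c) ^ 2 := (hU.eg.sub (EG.const c)).pow 2
  have h2 := gI_rot eQ (a := √(1 - (s + τ))) (b := √τ) (c := √(1 - s)) (by
    rw [Real.sq_sqrt (by linarith), Real.sq_sqrt hτ, Real.sq_sqrt (by linarith)]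
    ring) 0
  rw [← h2]
  have i0 : EG fun w => (V0 τ x s F (0 + √(1 - (s + τ)) • w) - c) ^ 2 := by
    simp only [zero_add]
    exact ((EG.smul' (eg_V0 h hx τ s) (√(1 - (s + τ)))).sub (EG.const c)).pow 2
  have i1 : EG fun w => ∫ z', (uu x (1 - s) F (0 + √(1 - (s + τ)) • w + √τ • z') - c) ^ 2
      ∂(gI κ) := by
    simp only [zero_add]
    exact EG.smul' (EG.conv eQ (√τ)) (√(1 - (s + τ)))
  refine integral_mono i0.integrable i1.integrable fun w => ?_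
  have e1 : EG fun z' => uu x (1 - s) F (0 + √(1 - (s + τ)) • w + √τ • z') - c :=
    (EG.add_smul hU.eg _ _).sub (EG.const c)
  have e2 : V0 τ x s F (0 + √(1 - (s + τ)) • w) - c =
      ∫ z', (uu x (1 - s) F (0 + √(1 - (s + τ)) • w + √τ • z') - c) ∂(gI κ) := by
    rw [integral_sub (EG.add_smul hU.eg _ _).integrable (integrable_const _)]
    simp [V0, Mn]
  simp only
  rw [e2]
  exact sq_int_le e1

/-- **Up, exponent `0` on the layer.** -/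
theorem sa_V0_up (h : C11 F D B L) (hc : Cv F) (hx1 : 0 < x1) (h1x : x1 ≤ x)
    (hθ : 0 < θ) (hθ1 : θ < 1) (hR : 0 < R) (hδ : 0 ≤ δ) (hδ1 : δ ≤ 1)
    (hδR : 1 / (1 - θ) - 1 ≤ δ * (R - 1)) (hτ : 0 ≤ τ) (hs : 0 ≤ s) (h1 : s + τ ≤ 1)
    (hE : θ * (W x1 1 F 0 - ∫ z, F z ∂(gI κ)) + δ * DD (R * x) s F ≤ E)
    (hq : EG q) (h0 : ∀ z, 0 ≤ q z) (hi : ∫ z, q z ∂(gI κ) = 1) :
    ∫ z, q z * V0 τ x s F (√(1 - (s + τ)) • z) ∂(gI κ) ≤
      ∫ z, V0 τ x s F (√(1 - (s + τ)) • z) ∂(gI κ) + (E + Hq q / (θ * x1)) := by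
  have hx : 0 < x := hx1.trans_le h1x
  have c := c11_uu h hx (1 - s)
  have hl0 : LipB (V0 τ x s F) _ := lipB_Mn c.lip c.B0 (√τ)
  have k := up_shift hl0 c.B0 (mul_pos hθ hx1) (√(1 - (s + τ))) 0 hq h0 hi
  have g := gap_uu h hc hx1 h1x hθ hθ1 hR hδ hδ1 hδR hs (by linarith)
  have g0 := gap_V0 h hx (mul_pos hθ hx1) hτ h1
  simp only [Mn_zero, zero_add] at k g0
  linarith

/-- **Down, exponent `0` on the layer.** -/
theorem sa_V0_dn (h : C11 F D B L) (hc : Cv F) (hx1 : 0 < x1) (h1x : x1 ≤ x)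
    (hθ : 0 < θ) (hθ1 : θ < 1) (hR : 0 < R) (hδ : 0 ≤ δ) (hδ1 : δ ≤ 1)
    (hδR : 1 / (1 - θ) - 1 ≤ δ * (R - 1)) (hτ : 0 ≤ τ) (hs : 0 ≤ s) (h1 : s + τ ≤ 1)
    (hE : θ * (W x1 1 F 0 - ∫ z, F z ∂(gI κ)) + δ * DD (R * x) s F ≤ E)
    (hS : 0 < S) (hES : 2 * E / (θ * x1) ≤ S ^ 2)
    (hq : EG q) (h0 : ∀ z, 0 ≤ q z) (hi : ∫ z, q z ∂(gI κ) = 1) :
    ∫ z, V0 τ x s F (√(1 - (s + τ)) • z) ∂(gI κ) - 12 * S * (Hq q + 3 / 2) ≤
      ∫ z, q z * V0 τ x s F (√(1 - (s + τ)) • z) ∂(gI κ) := by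
  have hx : 0 < x := hx1.trans_le h1x
  have hl := mul_pos hθ hx1
  have c := c11_uu h hx (1 - s)
  have hl0 : LipB (V0 τ x s F) _ := lipB_Mn c.lip c.B0 (√τ)
  have g := gap_uu h hc hx1 h1x hθ hθ1 hR hδ hδ1 hδR hs (by linarith)
  have v := var_le_gap c (cv_uu h hc hx (1 - s)) hl (√(1 - s)) 0
  have hV := (var_V0 (s := s) h hx hτ h1).trans (b := _) (c := S ^ 2) (by
    refine le_trans ?_ hES
    rw [le_div_iff₀ hl]
    simp only [Mn_zero, zero_add] at v g ⊢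
    linarith)
  have k := dn_shift hl0 c.B0 (cv_V0 h hc hx τ s) (√(1 - (s + τ))) 0 hS hV hq h0 hi
  simp only [Mn_zero, zero_add] at k
  linarith

end gen

end Vale.Agent.P146.H767
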