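import Vale.Agent.P146.H767.DDs
import Vale.Agent.P146.H785.Hes

/-!
# P146: the functional of one window is concave in the length of the window, step (a)

One small step in the length of the window: the mean square of the base gradient moves by
`(s' - s) E (2 x v·Hv - |H|²)` up to an error of the order `(s' - s)^(3/2)`.
-/

open MeasureTheory ProbabilityTheory Filter Topology

namespace Vale.Agent.P146.H767

open Vale.Agent.P157.Lv Vale.Agent.P146.H425
open Vale.Agent.P146.R1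
open Vale.Agent.P146.H785 (C2 HW Ax Dv lf lf_apply)

set_option linter.unusedSectionVars false

section gen

variable {κ : Type} [Fintype κ] {F U : (κ → ℝ) → ℝ} {D v : κ → (κ → ℝ) → ℝ}
  {H HF : κ → κ → (κ → ℝ) → ℝ} {B L B2 B3 x s s' : ℝ}

/-- second moments of linear forms -/
lemma int_lin2 (a c : κ → ℝ) :
    ∫ w : κ → ℝ, (∑ e, a e * w e) * (∑ e, c e * w e) ∂(gI κ) = ∑ e, a e * c e := by
  classical
  have hE : EG fun w : κ → ℝ => ∑ e, c e * w e := EG.sum _ fun e _ => (EG.coord e).const_mul _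
  have h1 : ∀ e, ∫ w : κ → ℝ, w e * (∑ f, c f * w f) ∂(gI κ) = c e := by
    intro e
    have hd : PD e (fun w : κ → ℝ => ∑ f, c f * w f) (fun _ => ∑ f, c f * if f = e then 1 else 0) :=
      PD.sum _ fun f _ => (PD.coord f).const_mul (c f)
    rw [hd.stein hE (EG.const _)]
    simp
  have e1 : (fun w : κ → ℝ => (∑ e, a e * w e) * (∑ e, c e * w e)) =
      fun w => ∑ e, a e * (w e * (∑ f, c f * w f)) := by
    funext w
    rw [Finset.sum_mul]
    exact Finset.sum_congr rfl fun e _ => by ring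
  rw [e1, integral_finsetSum _ fun e _ => (((EG.coord e).mul hE).const_mul _).integrable]
  exact Finset.sum_congr rfl fun e _ => by rw [integral_const_mul, h1]

lemma int_lin1 (c : κ → ℝ) : ∫ w : κ → ℝ, ∑ e, c e * w e ∂(gI κ) = 0 := by
  rw [integral_finsetSum _ fun e _ => ((EG.coord e).const_mul _).integrable]
  exact Finset.sum_eq_zero fun e _ => by rw [integral_const_mul, int_coord, mul_zero]

lemma eg_lin (c : κ → ℝ) : EG fun w : κ → ℝ => ∑ e, c e * w e :=
  EG.sum _ fun e _ => (EG.coord e).const_mul _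

/-- moments of the norm under an exponential weight -/
noncomputable def mk (κ : Type) [Fintype κ] (k : ℕ) (c : ℝ) : ℝ :=
  ∫ w : κ → ℝ, ‖w‖ ^ k * Real.exp (c * ‖w‖) ∂(gI κ)

lemma mk_nonneg (k : ℕ) (c : ℝ) : 0 ≤ mk κ k c := integral_nonneg fun _ => by positivity

lemma eg_mk (k : ℕ) (c : ℝ) : EG fun w : κ → ℝ => ‖w‖ ^ k * Real.exp (c * ‖w‖) :=
  (eg_norm.pow k).mul (eg_exp_norm c)

lemma exp_lin_bd (t : ℝ) : |Real.exp t - 1 - t| ≤ t ^ 2 * Real.exp |t| := by
  have h1 := exp_le_quad t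
  have h2 := Real.add_one_le_exp t
  rw [abs_of_nonneg (by linarith)]
  linarith

section pt

variable (hU : C11 U v B L) (hv : ∀ e, C11 (v e) (H e) B L) (hx : 0 < x)
include hU hx

lemma tilt_bd {b : ℝ} (hb : 0 ≤ b) (hb1 : b ≤ 1) (y w : κ → ℝ) :
    |Real.exp (x * (U (y + b • w) - U y)) - 1| ≤ x * B * b * (‖w‖ * Real.exp (x * B * ‖w‖)) ∧
    |Real.exp (x * (U (y + b • w) - U y)) - 1 - x * b * ∑ e, v e y * w e| ≤
      (x ^ 2 * B ^ 2 + x * L) * b ^ 2 * (‖w‖ ^ 2 * Real.exp (x * B * ‖w‖)) := by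
  have hB := hU.B0
  have hL := hU.L0
  have h1 : |x * (U (y + b • w) - U y)| ≤ x * B * b * ‖w‖ := by
    rw [abs_mul, abs_of_pos hx]
    have := hU.lip y (b • w)
    rw [norm_smul, Real.norm_eq_abs, abs_of_nonneg hb] at this
    nlinarith [mul_le_mul_of_nonneg_left this hx.le]
  have h2 : |x * (U (y + b • w) - U y)| ≤ x * B * ‖w‖ := by
    refine h1.trans ?_
    have : x * B * b * ‖w‖ ≤ x * B * 1 * ‖w‖ := by gcongr
    linarith
  have h3 : Real.exp |x * (U (y + b • w) - U y)| ≤ Real.exp (x * B * ‖w‖) := Real.exp_le_exp.2 h2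
  have h4 : 1 ≤ Real.exp (x * B * ‖w‖) := Real.one_le_exp (by positivity)
  constructor
  · refine (abs_exp_sub_one_le' _).trans ?_
    calc |x * (U (y + b • w) - U y)| * Real.exp |x * (U (y + b • w) - U y)| ≤
        (x * B * b * ‖w‖) * Real.exp (x * B * ‖w‖) :=
          mul_le_mul h1 h3 (Real.exp_pos _).le (by positivity)
      _ = _ := by ring
  · have h5 := exp_lin_bd (x * (U (y + b • w) - U y))
    have h6 : (x * (U (y + b • w) - U y)) ^ 2 * Real.exp |x * (U (y + b • w) - U y)| ≤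
        x ^ 2 * B ^ 2 * b ^ 2 * (‖w‖ ^ 2 * Real.exp (x * B * ‖w‖)) := by
      have h7 : (x * (U (y + b • w) - U y)) ^ 2 ≤ (x * B * b * ‖w‖) ^ 2 := by
        rw [← sq_abs]
        exact pow_le_pow_left₀ (abs_nonneg _) h1 2
      calc _ ≤ (x * B * b * ‖w‖) ^ 2 * Real.exp (x * B * ‖w‖) :=
            mul_le_mul h7 h3 (Real.exp_pos _).le (by positivity)
        _ = _ := by ring
    have h8 : |x * (U (y + b • w) - U y) - x * b * ∑ e, v e y * w e| ≤
        x * L * b ^ 2 * (‖w‖ ^ 2 * Real.exp (x * B * ‖w‖)) := by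
      have h9 := hU.quad y (b • w)
      have e1 : ∑ e, v e y * (b • w) e = b * ∑ e, v e y * w e := by
        rw [Finset.mul_sum]
        exact Finset.sum_congr rfl fun e _ => by simp only [Pi.smul_apply, smul_eq_mul]; ring
      rw [e1, norm_smul, Real.norm_eq_abs, abs_of_nonneg hb] at h9
      have e2 : x * (U (y + b • w) - U y) - x * b * ∑ e, v e y * w e =
          x * (U (y + b • w) - U y - b * ∑ e, v e y * w e) := by ring
      rw [e2, abs_mul, abs_of_pos hx]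
      have h10 := mul_le_mul_of_nonneg_left h9 hx.le
      refine h10.trans ?_
      have h11 : x * L * b ^ 2 * (‖w‖ ^ 2 * 1) ≤
          x * L * b ^ 2 * (‖w‖ ^ 2 * Real.exp (x * B * ‖w‖)) := by gcongr
      refine le_trans (le_of_eq ?_) h11
      ring
    have e3 : Real.exp (x * (U (y + b • w) - U y)) - 1 - x * b * ∑ e, v e y * w e =
        (Real.exp (x * (U (y + b • w) - U y)) - 1 - x * (U (y + b • w) - U y)) +
        (x * (U (y + b • w) - U y) - x * b * ∑ e, v e y * w e) := by ring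
    rw [e3]
    refine (abs_add_le _ _).trans ?_
    have h12 := h5.trans h6
    nlinarith [h12, h8]

end pt

section pt2

lemma g_bd {w0 : (κ → ℝ) → ℝ} {h0 : κ → (κ → ℝ) → ℝ} (hv : C11 w0 h0 B L) {b : ℝ} (hb : 0 ≤ b)
    (y w : κ → ℝ) : |w0 (y + b • w) - w0 y| ≤ B * b * ‖w‖ ∧
    |w0 (y + b • w) - w0 y - b * ∑ f, h0 f y * w f| ≤ L * b ^ 2 * ‖w‖ ^ 2 := by
  constructor
  · have := hv.lip y (b • w)
    rw [norm_smul, Real.norm_eq_abs, abs_of_nonneg hb] at this
    linarith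
  · have h9 := hv.quad y (b • w)
    have e1 : ∑ e, h0 e y * (b • w) e = b * ∑ e, h0 e y * w e := by
      rw [Finset.mul_sum]
      exact Finset.sum_congr rfl fun e _ => by simp only [Pi.smul_apply, smul_eq_mul]; ring
    rw [e1, norm_smul, Real.norm_eq_abs, abs_of_nonneg hb] at h9
    refine h9.trans (le_of_eq ?_)
    ring

/-- the constants -/
noncomputable def k5 (x B L : ℝ) : ℝ := x ^ 2 * B ^ 2 + x * L

noncomputable def k1 (κ : Type) [Fintype κ] (x B L : ℝ) : ℝ :=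
  k5 x B L * B + x * (Fintype.card κ * B) * L

noncomputable def al (κ : Type) [Fintype κ] (c : ℝ) : ℝ := ∫ w : κ → ℝ, Real.exp (-c * ‖w‖) ∂(gI κ)

lemma al_pos (c : ℝ) : 0 < al κ c := integral_exp_pos (eg_exp_norm _).integrable

noncomputable def k4 (κ : Type) [Fintype κ] (x B L : ℝ) : ℝ :=
  L * mk κ 2 (x * B) + x * (Fintype.card κ * B ^ 2) + k1 κ x B L * mk κ 3 (x * B)

lemma k5_nonneg (hx : 0 < x) (hL : 0 ≤ L) : 0 ≤ k5 x B L := by unfold k5; positivity

lemma k1_nonneg (hx : 0 < x) (hB : 0 ≤ B) (hL : 0 ≤ L) : 0 ≤ k1 κ x B L := by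
  have := k5_nonneg (B := B) hx hL
  unfold k1; positivity

lemma k4_nonneg (hx : 0 < x) (hB : 0 ≤ B) (hL : 0 ≤ L) : 0 ≤ k4 κ x B L := by
  have := k1_nonneg (κ := κ) hx hB hL
  have h2 := mk_nonneg (κ := κ) 2 (x * B)
  have h3 := mk_nonneg (κ := κ) 3 (x * B)
  unfold k4; positivity

section one

variable {w0 : (κ → ℝ) → ℝ} {h0 : κ → (κ → ℝ) → ℝ}
  (hU : C11 U v B L) (hv : C11 w0 h0 B L) (hx : 0 < x)
include hU hv hx

lemma eg_a (b : ℝ) (y : κ → ℝ) : EG fun w => Real.exp (x * (U (y + b • w) - U y)) := by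
  have h1 : EG fun w => Real.exp (x * U (y + b • w)) := hU.lip.eg_exp hU.B0 y b x
  have e1 : (fun w => Real.exp (x * (U (y + b • w) - U y))) =
      fun w => Real.exp (-(x * U y)) * Real.exp (x * U (y + b • w)) := by
    funext w
    rw [← Real.exp_add]
    congr 1
    ring
  rw [e1]
  exact h1.const_mul _

lemma eg_g (b : ℝ) (y : κ → ℝ) : EG fun w => w0 (y + b • w) - w0 y :=
  (EG.add_smul hv.eg y b).sub (EG.const _)

lemma cross_bd {b : ℝ} (hb : 0 ≤ b) (hb1 : b ≤ 1) (y w : κ → ℝ) :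
    |(Real.exp (x * (U (y + b • w) - U y)) - 1) * (w0 (y + b • w) - w0 y) -
      x * b ^ 2 * ((∑ e, v e y * w e) * ∑ e, h0 e y * w e)| ≤
      k1 κ x B L * b ^ 3 * (‖w‖ ^ 3 * Real.exp (x * B * ‖w‖)) := by
  have hB := hU.B0
  have hL := hU.L0
  obtain ⟨t1, t2⟩ := tilt_bd hU hx hb hb1 y w
  obtain ⟨g1, g2⟩ := g_bd hv hb y w
  have hE : 1 ≤ Real.exp (x * B * ‖w‖) := Real.one_le_exp (by positivity)
  have e1 : (Real.exp (x * (U (y + b • w) - U y)) - 1) * (w0 (y + b • w) - w0 y) -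
      x * b ^ 2 * ((∑ e, v e y * w e) * ∑ e, h0 e y * w e) =
      (Real.exp (x * (U (y + b • w) - U y)) - 1 - x * b * ∑ e, v e y * w e) *
        (w0 (y + b • w) - w0 y) +
      (x * b * ∑ e, v e y * w e) * (w0 (y + b • w) - w0 y - b * ∑ e, h0 e y * w e) := by ring
  rw [e1]
  refine (abs_add_le _ _).trans ?_
  rw [abs_mul, abs_mul, abs_mul, abs_of_nonneg (by positivity : 0 ≤ x * b)]
  have h1 := abs_sum_le hB (fun e => hU.bd e y) (w := w)
  have h2 : |Real.exp (x * (U (y + b • w) - U y)) - 1 - x * b * ∑ e, v e y * w e| *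
      |w0 (y + b • w) - w0 y| ≤
      ((x ^ 2 * B ^ 2 + x * L) * b ^ 2 * (‖w‖ ^ 2 * Real.exp (x * B * ‖w‖))) * (B * b * ‖w‖) :=
    mul_le_mul t2 g1 (abs_nonneg _) (by positivity)
  have h3 : x * b * |∑ e, v e y * w e| * |w0 (y + b • w) - w0 y - b * ∑ e, h0 e y * w e| ≤
      (x * b * (Fintype.card κ * (B * ‖w‖))) * (L * b ^ 2 * ‖w‖ ^ 2) :=
    mul_le_mul (mul_le_mul_of_nonneg_left h1 (by positivity)) g2 (abs_nonneg _) (by positivity)
  have h4 : (x * b * (Fintype.card κ * (B * ‖w‖))) * (L * b ^ 2 * ‖w‖ ^ 2) * 1 ≤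
      (x * b * (Fintype.card κ * (B * ‖w‖))) * (L * b ^ 2 * ‖w‖ ^ 2) *
        Real.exp (x * B * ‖w‖) := mul_le_mul_of_nonneg_left hE (by positivity)
  rw [mul_one] at h4
  refine (add_le_add h2 (h3.trans h4)).trans (le_of_eq ?_)
  unfold k1 k5
  ring

lemma int_cross {b : ℝ} (hb : 0 ≤ b) (hb1 : b ≤ 1) (y : κ → ℝ) :
    |∫ w, (Real.exp (x * (U (y + b • w) - U y)) - 1) * (w0 (y + b • w) - w0 y) ∂(gI κ) -
      x * b ^ 2 * ∑ e, v e y * h0 e y| ≤ k1 κ x B L * mk κ 3 (x * B) * b ^ 3 := by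
  have ea := eg_a hU hv hx b y
  have eg := eg_g hU hv hx b y
  have i1 := ((ea.sub (EG.const 1)).mul eg).integrable
  have i2 := (((eg_lin fun e => v e y).mul (eg_lin fun e => h0 e y)).const_mul
    (x * b ^ 2)).integrable
  have e1 : ∫ w, (Real.exp (x * (U (y + b • w) - U y)) - 1) * (w0 (y + b • w) - w0 y) ∂(gI κ) -
      x * b ^ 2 * ∑ e, v e y * h0 e y =
      ∫ w, ((Real.exp (x * (U (y + b • w) - U y)) - 1) * (w0 (y + b • w) - w0 y) -
      x * b ^ 2 * ((∑ e, v e y * w e) * ∑ e, h0 e y * w e)) ∂(gI κ) := by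
    rw [integral_sub i1 i2, integral_const_mul, int_lin2]
  rw [e1]
  refine abs_integral_le_integral_abs.trans ?_
  have e2 : k1 κ x B L * mk κ 3 (x * B) * b ^ 3 = ∫ w : κ → ℝ, k1 κ x B L * b ^ 3 *
      (‖w‖ ^ 3 * Real.exp (x * B * ‖w‖)) ∂(gI κ) := by
    rw [integral_const_mul]
    unfold mk
    ring
  rw [e2]
  exact integral_mono (i1.sub i2).abs ((eg_mk 3 (x * B)).const_mul _).integrable
    fun w => cross_bd hU hv hx hb hb1 y w

lemma int_g_bd {b : ℝ} (hb : 0 ≤ b) (y : κ → ℝ) :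
    |∫ w, (w0 (y + b • w) - w0 y) ∂(gI κ)| ≤ L * mk κ 2 (x * B) * b ^ 2 := by
  have hB := hU.B0
  have hL := hU.L0
  have eg := eg_g hU hv hx b y
  have i2 := ((eg_lin fun e => h0 e y).const_mul b).integrable
  have e1 : ∫ w, (w0 (y + b • w) - w0 y) ∂(gI κ) =
      ∫ w, (w0 (y + b • w) - w0 y - b * ∑ e, h0 e y * w e) ∂(gI κ) := by
    rw [integral_sub eg.integrable i2, integral_const_mul, int_lin1]
    ring
  rw [e1]
  refine abs_integral_le_integral_abs.trans ?_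
  have e2 : L * mk κ 2 (x * B) * b ^ 2 = ∫ w : κ → ℝ, L * b ^ 2 *
      (‖w‖ ^ 2 * Real.exp (x * B * ‖w‖)) ∂(gI κ) := by
    rw [integral_const_mul]
    unfold mk
    ring
  rw [e2]
  refine integral_mono (eg.integrable.sub i2).abs ((eg_mk 2 (x * B)).const_mul _).integrable
    fun w => ?_
  refine (g_bd hv hb y w).2.trans ?_
  have hE : 1 ≤ Real.exp (x * B * ‖w‖) := Real.one_le_exp (by positivity)
  have : L * b ^ 2 * (‖w‖ ^ 2 * 1) ≤ L * b ^ 2 * (‖w‖ ^ 2 * Real.exp (x * B * ‖w‖)) := by gcongr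
  linarith

lemma int_a_bd {b : ℝ} (hb : 0 ≤ b) (hb1 : b ≤ 1) (y : κ → ℝ) :
    |∫ w, Real.exp (x * (U (y + b • w) - U y)) ∂(gI κ) - 1| ≤
      k5 x B L * mk κ 2 (x * B) * b ^ 2 ∧
    al κ (x * B) ≤ ∫ w, Real.exp (x * (U (y + b • w) - U y)) ∂(gI κ) := by
  have hB := hU.B0
  have hL := hU.L0
  have ea := eg_a hU hv hx b y
  have i2 := ((eg_lin fun e => v e y).const_mul (x * b)).integrable
  constructor
  · have i3 : Integrable (fun w => Real.exp (x * (U (y + b • w) - U y)) - 1) (gI κ) :=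
      ea.integrable.sub (integrable_const _)
    have e1 : ∫ w, Real.exp (x * (U (y + b • w) - U y)) ∂(gI κ) - 1 =
        ∫ w, (Real.exp (x * (U (y + b • w) - U y)) - 1 - x * b * ∑ e, v e y * w e) ∂(gI κ) := by
      rw [integral_sub i3 i2, integral_sub ea.integrable (integrable_const _),
        integral_const_mul, int_lin1]
      simp
    rw [e1]
    refine abs_integral_le_integral_abs.trans ?_
    have e2 : k5 x B L * mk κ 2 (x * B) * b ^ 2 = ∫ w : κ → ℝ, k5 x B L * b ^ 2 *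
        (‖w‖ ^ 2 * Real.exp (x * B * ‖w‖)) ∂(gI κ) := by
      rw [integral_const_mul]
      unfold mk
      ring
    rw [e2]
    exact integral_mono (i3.sub i2).abs ((eg_mk 2 (x * B)).const_mul _).integrable
      fun w => (tilt_bd hU hx hb hb1 y w).2
  · unfold al
    refine integral_mono (eg_exp_norm _).integrable ea.integrable fun w => ?_
    refine Real.exp_le_exp.2 ?_
    have h1 := hU.lip y (b • w)
    rw [norm_smul, Real.norm_eq_abs, abs_of_nonneg hb] at h1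
    have h2 : B * (b * ‖w‖) ≤ B * ‖w‖ := by
      have : b * ‖w‖ ≤ 1 * ‖w‖ := mul_le_mul_of_nonneg_right hb1 (norm_nonneg _)
      rw [one_mul] at this
      exact mul_le_mul_of_nonneg_left this hB
    have h3 := (abs_le.1 (h1.trans h2)).1
    have := mul_le_mul_of_nonneg_left h3 hx.le
    linarith

lemma int_gsq {b : ℝ} (hb : 0 ≤ b) (y : κ → ℝ) :
    b ^ 2 * ∑ e, h0 e y ^ 2 - (L * (B + Fintype.card κ * B)) * mk κ 3 (x * B) * b ^ 3 ≤
      ∫ w, (w0 (y + b • w) - w0 y) ^ 2 ∂(gI κ) := by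
  have hB := hU.B0
  have hL := hU.L0
  have eg := eg_g hU hv hx b y
  have i1 := (((eg_lin fun e => h0 e y).mul (eg_lin fun e => h0 e y)).const_mul (b ^ 2)).integrable
  have i2 := ((eg_mk (κ := κ) 3 (x * B)).const_mul
    ((L * (B + Fintype.card κ * B)) * b ^ 3)).integrable
  have e1 : b ^ 2 * ∑ e, h0 e y ^ 2 - (L * (B + Fintype.card κ * B)) * mk κ 3 (x * B) * b ^ 3 =
      ∫ w : κ → ℝ, (b ^ 2 * ((∑ e, h0 e y * w e) * ∑ e, h0 e y * w e) -
        (L * (B + Fintype.card κ * B)) * b ^ 3 * (‖w‖ ^ 3 * Real.exp (x * B * ‖w‖))) ∂(gI κ) := by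
    rw [integral_sub i1 i2, integral_const_mul, integral_const_mul, int_lin2]
    unfold mk
    have : ∑ e, h0 e y ^ 2 = ∑ e, h0 e y * h0 e y := Finset.sum_congr rfl fun e _ => pow_two _
    rw [this]
    ring
  rw [e1]
  refine integral_mono (i1.sub i2) (eg.pow 2).integrable fun w => ?_
  simp only
  obtain ⟨g1, g2⟩ := g_bd hv hb y w
  have h1 := abs_sum_le hB (fun e => hv.bd e y) (w := w)
  have hE : 1 ≤ Real.exp (x * B * ‖w‖) := Real.one_le_exp (by positivity)
  set l := ∑ e, h0 e y * w e with hl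
  set g := w0 (y + b • w) - w0 y with hg
  have h2 : |(g - b * l) * (g + b * l)| ≤ (L * b ^ 2 * ‖w‖ ^ 2) *
      (B * b * ‖w‖ + b * (Fintype.card κ * (B * ‖w‖))) := by
    rw [abs_mul]
    refine mul_le_mul g2 ?_ (abs_nonneg _) (by positivity)
    refine (abs_add_le _ _).trans (add_le_add g1 ?_)
    rw [abs_mul, abs_of_nonneg hb]
    exact mul_le_mul_of_nonneg_left h1 hb
  have h3 : (L * b ^ 2 * ‖w‖ ^ 2) * (B * b * ‖w‖ + b * (Fintype.card κ * (B * ‖w‖))) ≤
      L * (B + Fintype.card κ * B) * b ^ 3 * (‖w‖ ^ 3 * Real.exp (x * B * ‖w‖)) := by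
    have h4 : L * (B + Fintype.card κ * B) * b ^ 3 * (‖w‖ ^ 3 * 1) ≤
        L * (B + Fintype.card κ * B) * b ^ 3 * (‖w‖ ^ 3 * Real.exp (x * B * ‖w‖)) := by gcongr
    refine le_trans (le_of_eq ?_) h4
    ring
  have h5 := (abs_le.1 (h2.trans h3)).1
  nlinarith [h5]

/-- the tilted mean of one component -/
lemma comp_bd {b : ℝ} (hb : 0 ≤ b) (hb1 : b ≤ 1) (y : κ → ℝ) :
    |Ax x b U w0 y - w0 y| ≤ k4 κ x B L / al κ (x * B) * b ^ 2 ∧
    |Ax x b U w0 y - w0 y - ∫ w, (w0 (y + b • w) - w0 y) ∂(gI κ) -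
      x * b ^ 2 * ∑ e, v e y * h0 e y| ≤
      (k1 κ x B L * mk κ 3 (x * B) +
        k4 κ x B L * (k5 x B L * mk κ 2 (x * B)) / al κ (x * B)) * b ^ 3 := by
  have hB := hU.B0
  have hL := hU.L0
  have ea := eg_a hU hv hx b y
  have eg := eg_g hU hv hx b y
  have hm2 := mk_nonneg (κ := κ) 2 (x * B)
  have hm3 := mk_nonneg (κ := κ) 3 (x * B)
  have ha0 := al_pos (κ := κ) (x * B)
  have hk4 := k4_nonneg (κ := κ) hx hB hL
  have hk1 := k1_nonneg (κ := κ) hx hB hL
  have hk5 := k5_nonneg (B := B) hx hL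
  have c1 := int_cross hU hv hx hb hb1 y
  have c2 := int_g_bd hU hv hx hb y
  obtain ⟨c3, c4⟩ := int_a_bd hU hv hx hb hb1 y
  have eA : Ax x b U w0 y - w0 y =
      (∫ w, Real.exp (x * (U (y + b • w) - U y)) * (w0 (y + b • w) - w0 y) ∂(gI κ)) /
      ∫ w, Real.exp (x * (U (y + b • w) - U y)) ∂(gI κ) := by
    have hp : 0 < ∫ w, Real.exp (x * (U (y + b • w) - U y)) ∂(gI κ) := ha0.trans_le c4
    have hq : 0 < ∫ w, Real.exp (x * U (y + b • w)) ∂(gI κ) := hU.lip.pos hB y b x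
    have e1 : ∀ w, Real.exp (x * (U (y + b • w) - U y)) =
        Real.exp (-(x * U y)) * Real.exp (x * U (y + b • w)) := fun w => by
      rw [← Real.exp_add]
      congr 1
      ring
    have i1 : Integrable (fun w => Real.exp (x * U (y + b • w)) * w0 (y + b • w)) (gI κ) :=
      ((hU.lip.eg_exp hB y b x).mul (EG.add_smul hv.eg y b)).integrable
    have e2 : ∫ w, Real.exp (x * (U (y + b • w) - U y)) * (w0 (y + b • w) - w0 y) ∂(gI κ) =
        Real.exp (-(x * U y)) * (∫ w, Real.exp (x * U (y + b • w)) * w0 (y + b • w) ∂(gI κ) -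
          w0 y * ∫ w, Real.exp (x * U (y + b • w)) ∂(gI κ)) := by
      rw [← integral_const_mul, ← integral_sub i1
        ((hU.lip.eg_exp hB y b x).integrable.const_mul _), ← integral_const_mul]
      refine integral_congr_ae (Eventually.of_forall fun w => ?_)
      simp only
      rw [e1 w]
      ring
    have e3 : ∫ w, Real.exp (x * (U (y + b • w) - U y)) ∂(gI κ) =
        Real.exp (-(x * U y)) * ∫ w, Real.exp (x * U (y + b • w)) ∂(gI κ) := by
      simp_rw [e1]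
      rw [integral_const_mul]
    rw [e2, e3, mul_div_mul_left _ _ (Real.exp_pos _).ne', sub_div, mul_div_assoc,
      div_self hq.ne', mul_one]
    rfl
  have eI : ∫ w, Real.exp (x * (U (y + b • w) - U y)) * (w0 (y + b • w) - w0 y) ∂(gI κ) =
      (∫ w, (w0 (y + b • w) - w0 y) ∂(gI κ)) +
      ∫ w, (Real.exp (x * (U (y + b • w) - U y)) - 1) * (w0 (y + b • w) - w0 y) ∂(gI κ) := by
    rw [← integral_add eg.integrable ((ea.sub (EG.const 1)).mul eg).integrable]
    refine integral_congr_ae (Eventually.of_forall fun w => ?_)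
    simp only
    ring
  rw [eI] at eA
  set A := ∫ w, Real.exp (x * (U (y + b • w) - U y)) ∂(gI κ) with hA
  set G := ∫ w, (w0 (y + b • w) - w0 y) ∂(gI κ) with hG
  set J := ∫ w, (Real.exp (x * (U (y + b • w) - U y)) - 1) * (w0 (y + b • w) - w0 y) ∂(gI κ)
    with hJ
  have hA0 : 0 < A := ha0.trans_le c4
  have hR : |∑ e, v e y * h0 e y| ≤ Fintype.card κ * B ^ 2 := by
    refine (Finset.abs_sum_le_sum_abs _ _).trans ?_
    refine (Finset.sum_le_card_nsmul _ _ (B ^ 2) fun e _ => ?_).trans (le_of_eq ?_)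
    · rw [abs_mul, pow_two]
      exact mul_le_mul (hU.bd e y) (hv.bd e y) (abs_nonneg _) hB
    · rw [nsmul_eq_mul, Finset.card_univ]
  have hb3 : b ^ 3 ≤ b ^ 2 := pow_le_pow_of_le_one hb hb1 (by norm_num)
  have hb4 : b ^ 4 ≤ b ^ 3 := pow_le_pow_of_le_one hb hb1 (by norm_num)
  have hI : |G + J| ≤ k4 κ x B L * b ^ 2 := by
    have h1 : |x * b ^ 2 * ∑ e, v e y * h0 e y| ≤ x * b ^ 2 * (Fintype.card κ * B ^ 2) := by
      rw [abs_mul, abs_of_nonneg (by positivity)]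
      exact mul_le_mul_of_nonneg_left hR (by positivity)
    have h2 : |G + J| ≤ |G| + (|J - x * b ^ 2 * ∑ e, v e y * h0 e y| +
        |x * b ^ 2 * ∑ e, v e y * h0 e y|) := by
      refine (abs_add_le _ _).trans (add_le_add_right ?_ _)
      have e4 : J = (J - x * b ^ 2 * ∑ e, v e y * h0 e y) + x * b ^ 2 * ∑ e, v e y * h0 e y := by
        ring
      nth_rewrite 1 [e4]
      exact abs_add_le _ _
    have h3 : k1 κ x B L * mk κ 3 (x * B) * b ^ 3 ≤ k1 κ x B L * mk κ 3 (x * B) * b ^ 2 :=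
      mul_le_mul_of_nonneg_left hb3 (by positivity)
    unfold k4
    nlinarith [h2, c1, c2, h1, h3]
  constructor
  · rw [eA, abs_div, abs_of_pos hA0, div_mul_eq_mul_div]
    exact div_le_div₀ (by positivity) hI ha0 c4
  · have e5 : Ax x b U w0 y - w0 y - G - x * b ^ 2 * ∑ e, v e y * h0 e y =
        (J - x * b ^ 2 * ∑ e, v e y * h0 e y) - (G + J) * (A - 1) / A := by
      rw [eA]
      field_simp
      ring
    rw [e5]
    refine (abs_sub _ _).trans ?_
    have h4 : |(G + J) * (A - 1) / A| ≤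
        k4 κ x B L * (k5 x B L * mk κ 2 (x * B)) / al κ (x * B) * b ^ 3 := by
      rw [abs_div, abs_of_pos hA0, abs_mul]
      have h5 : |G + J| * |A - 1| ≤ (k4 κ x B L * b ^ 2) * (k5 x B L * mk κ 2 (x * B) * b ^ 2) :=
        mul_le_mul hI c3 (abs_nonneg _) (by positivity)
      have h6 : (k4 κ x B L * b ^ 2) * (k5 x B L * mk κ 2 (x * B) * b ^ 2) ≤
          k4 κ x B L * (k5 x B L * mk κ 2 (x * B)) * b ^ 3 := by
        have : k4 κ x B L * (k5 x B L * mk κ 2 (x * B)) * b ^ 4 ≤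
            k4 κ x B L * (k5 x B L * mk κ 2 (x * B)) * b ^ 3 :=
          mul_le_mul_of_nonneg_left hb4 (by positivity)
        refine le_trans (le_of_eq ?_) this
        ring
      rw [div_mul_eq_mul_div]
      exact div_le_div₀ (by positivity) (h5.trans h6) ha0 c4
    rw [add_mul (k1 κ x B L * mk κ 3 (x * B))]
    exact add_le_add c1 h4

end one

/-- **One small step at a fixed position.** -/
theorem step_pt (hx : 0 < x) (hB : 0 ≤ B) (hL : 0 ≤ L) : ∃ C : ℝ, 0 ≤ C ∧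
    ∀ (U : (κ → ℝ) → ℝ) (v : κ → (κ → ℝ) → ℝ) (H : κ → κ → (κ → ℝ) → ℝ), C11 U v B L →
      (∀ e, C11 (v e) (H e) B L) → ∀ b, 0 ≤ b → b ≤ 1 → ∀ y,
      ∑ e, Ax x b U (v e) y ^ 2 ≤ ∫ w, ∑ e, v e (y + b • w) ^ 2 ∂(gI κ) -
        b ^ 2 * (∑ e, ∑ f, H e f y ^ 2 - 2 * x * ∑ e, ∑ f, v e y * H e f y * v f y) +
        C * b ^ 3 := by
  set C1 := k1 κ x B L * mk κ 3 (x * B) +
        k4 κ x B L * (k5 x B L * mk κ 2 (x * B)) / al κ (x * B) with hC1
  set C2 := k4 κ x B L / al κ (x * B) with hC2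
  set C3 := (L * (B + Fintype.card κ * B)) * mk κ 3 (x * B) with hC3
  have hm2 := mk_nonneg (κ := κ) 2 (x * B)
  have hm3 := mk_nonneg (κ := κ) 3 (x * B)
  have ha0 := al_pos (κ := κ) (x * B)
  have hk4 := k4_nonneg (κ := κ) hx hB hL
  have hk1 := k1_nonneg (κ := κ) hx hB hL
  have hk5 := k5_nonneg (B := B) hx hL
  have h1 : 0 ≤ C1 := by positivity
  have h2 : 0 ≤ C2 := by positivity
  have h3 : 0 ≤ C3 := by positivity
  refine ⟨Fintype.card κ * (2 * B * C1 + C2 ^ 2 + C3), by positivity,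
    fun U v H hU hv b hb hb1 y => ?_⟩
  have hb4 : b ^ 4 ≤ b ^ 3 := pow_le_pow_of_le_one hb hb1 (by norm_num)
  have key : ∀ e, Ax x b U (v e) y ^ 2 ≤ ∫ w, v e (y + b • w) ^ 2 ∂(gI κ) -
      b ^ 2 * (∑ f, H e f y ^ 2 - 2 * x * ∑ f, v e y * H e f y * v f y) +
      (2 * B * C1 + C2 ^ 2 + C3) * b ^ 3 := by
    intro e
    obtain ⟨c1, c2⟩ := comp_bd hU (hv e) hx hb hb1 y
    have c3 := int_gsq hU (hv e) hx hb y
    rw [← hC1] at c2
    rw [← hC2] at c1
    rw [← hC3] at c3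
    have eg := eg_g hU (hv e) hx b y
    have e1 : ∫ w, v e (y + b • w) ^ 2 ∂(gI κ) = v e y ^ 2 +
        2 * v e y * (∫ w, (v e (y + b • w) - v e y) ∂(gI κ)) +
        ∫ w, (v e (y + b • w) - v e y) ^ 2 ∂(gI κ) := by
      have i1 : Integrable (fun w => 2 * v e y * (v e (y + b • w) - v e y)) (gI κ) :=
        (eg.const_mul _).integrable
      have i2 : Integrable (fun w => v e y ^ 2 + 2 * v e y * (v e (y + b • w) - v e y)) (gI κ) :=
        (integrable_const _).add i1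
      have i3 : Integrable (fun w => (v e (y + b • w) - v e y) ^ 2) (gI κ) :=
        (eg.pow 2).integrable
      have e2 : ∀ w, v e (y + b • w) ^ 2 = (v e y ^ 2 + 2 * v e y * (v e (y + b • w) - v e y)) +
          (v e (y + b • w) - v e y) ^ 2 := fun w => by ring
      simp_rw [e2]
      rw [integral_add i2 i3, integral_add (integrable_const _) i1, integral_const_mul]
      simp
    rw [e1]
    set δ := Ax x b U (v e) y - v e y with hδ
    set G := ∫ w, (v e (y + b • w) - v e y) ∂(gI κ) with hG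
    set R := ∑ f, v f y * H e f y with hR
    have e3 : ∑ f, v e y * H e f y * v f y = v e y * R := by
      rw [hR, Finset.mul_sum]
      exact Finset.sum_congr rfl fun f _ => by ring
    have e4 : Ax x b U (v e) y = v e y + δ := by rw [hδ]; ring
    rw [e3, e4]
    have hve := hU.bd e y
    have h5 : 2 * v e y * (δ - G - x * b ^ 2 * R) ≤ 2 * B * (C1 * b ^ 3) := by
      refine (le_abs_self _).trans ?_
      rw [abs_mul, abs_mul, abs_two]
      exact mul_le_mul (mul_le_mul_of_nonneg_left hve (by norm_num)) c2 (abs_nonneg _)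
        (by positivity)
    have h6 : δ ^ 2 ≤ C2 ^ 2 * b ^ 3 := by
      have : δ ^ 2 ≤ (C2 * b ^ 2) ^ 2 := by
        rw [← sq_abs]
        exact pow_le_pow_left₀ (abs_nonneg _) c1 2
      refine this.trans ?_
      have h7 := mul_le_mul_of_nonneg_left hb4 (sq_nonneg C2)
      refine le_trans (le_of_eq ?_) h7
      ring
    nlinarith [h5, h6, c3]
  have h7 : ∑ e, Ax x b U (v e) y ^ 2 ≤ ∑ e, (∫ w, v e (y + b • w) ^ 2 ∂(gI κ) -
      b ^ 2 * (∑ f, H e f y ^ 2 - 2 * x * ∑ f, v e y * H e f y * v f y) +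
      (2 * B * C1 + C2 ^ 2 + C3) * b ^ 3) := Finset.sum_le_sum fun e _ => key e
  refine h7.trans (le_of_eq ?_)
  rw [Finset.sum_add_distrib, Finset.sum_sub_distrib, ← Finset.mul_sum, Finset.sum_sub_distrib,
    ← Finset.mul_sum, integral_finsetSum _ fun e _ =>
      ((EG.add_smul (hU.eg_D e) y b).pow 2).integrable]
  simp only [Finset.sum_const, Finset.card_univ, nsmul_eq_mul]
  ring

end pt2

end gen

end Vale.Agent.P146.H767
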