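import Vale.Agent.P146.H767.Conc

/-!
# P146: the functional of one window is concave in its length, step (a), the base

If `2 x E v·Hv ≤ E |H|²` for all windows then the mean square of the base gradient is nonincreasing
in the length of the window, and the functional is concave in it.
-/

open MeasureTheory ProbabilityTheory Filter Topology

namespace Vale.Agent.P146.H767

open Vale.Agent.P157.Lv Vale.Agent.P146.H425
open Vale.Agent.P146.R1
open Vale.Agent.P146.H785 (C2 HW HW_bd HW_meas HW_dv Ax Ax_int Ax_const Ax_abs_le Dv lf lf_apply)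

set_option linter.unusedSectionVars false

section gen

variable {κ : Type} [Fintype κ] {F U φ ψ : (κ → ℝ) → ℝ} {D v : κ → (κ → ℝ) → ℝ}
  {H HF : κ → κ → (κ → ℝ) → ℝ} {B L B' B2 B3 M M' x s s' : ℝ}

lemma C11.mono' (h : C11 F D B L) {B' L' : ℝ} (hB : B ≤ B') (hL : L ≤ L') : C11 F D B' L' where
  B0 := h.B0.trans hB
  L0 := h.L0.trans hL
  lip := fun y w => (h.lip y w).trans (mul_le_mul_of_nonneg_right hB (norm_nonneg _))
  meas := h.meas
  bd := fun e y => (h.bd e y).trans hB
  quad := fun y w => (h.quad y w).trans (mul_le_mul_of_nonneg_right hL (by positivity))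

lemma LipB.mono' (h : LipB F B) (hB : B ≤ B') : LipB F B' :=
  fun y w => (h y w).trans (mul_le_mul_of_nonneg_right hB (norm_nonneg _))

lemma LipB.mul_bd (h : LipB φ B) (h' : LipB ψ B') (hφ : ∀ y, |φ y| ≤ M) (hψ : ∀ y, |ψ y| ≤ M')
    (hB : 0 ≤ B) (hB' : 0 ≤ B') : LipB (fun y => φ y * ψ y) (B * M' + M * B') := by
  intro y w
  have hM : 0 ≤ M := (abs_nonneg _).trans (hφ y)
  have hM' : 0 ≤ M' := (abs_nonneg _).trans (hψ y)
  have e1 : φ (y + w) * ψ (y + w) - φ y * ψ y =
      (φ (y + w) - φ y) * ψ (y + w) + φ y * (ψ (y + w) - ψ y) := by ring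
  simp only
  rw [e1]
  refine (abs_add_le _ _).trans ?_
  rw [abs_mul, abs_mul]
  have h1 : |φ (y + w) - φ y| * |ψ (y + w)| ≤ (B * ‖w‖) * M' :=
    mul_le_mul (h y w) (hψ _) (abs_nonneg _) (by positivity)
  have h2 : |φ y| * |ψ (y + w) - ψ y| ≤ M * (B' * ‖w‖) :=
    mul_le_mul (hφ y) (h' y w) (abs_nonneg _) hM
  linarith

lemma LipB.add' (h : LipB φ B) (h' : LipB ψ B') : LipB (fun y => φ y + ψ y) (B + B') := by
  intro y w
  have e1 : φ (y + w) + ψ (y + w) - (φ y + ψ y) = (φ (y + w) - φ y) + (ψ (y + w) - ψ y) := by ring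
  simp only
  rw [e1]
  refine (abs_add_le _ _).trans ?_
  linarith [h y w, h' y w]

lemma LipB.const_mul' (h : LipB φ B) {c : ℝ} (hc : 0 ≤ c) : LipB (fun y => c * φ y) (c * B) := by
  intro y w
  have e1 : c * φ (y + w) - c * φ y = c * (φ (y + w) - φ y) := by ring
  simp only
  rw [e1, abs_mul, abs_of_nonneg hc]
  have := mul_le_mul_of_nonneg_left (h y w) hc
  linarith

lemma LipB.sub' (h : LipB φ B) (h' : LipB ψ B') : LipB (fun y => φ y - ψ y) (B + B') := by
  intro y w
  have e1 : φ (y + w) - ψ (y + w) - (φ y - ψ y) = (φ (y + w) - φ y) - (ψ (y + w) - ψ y) := by ring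
  simp only
  rw [e1]
  refine (abs_sub _ _).trans ?_
  linarith [h y w, h' y w]

lemma LipB.sum' {ι : Type*} (S : Finset ι) {f : ι → (κ → ℝ) → ℝ}
    (h : ∀ i ∈ S, LipB (f i) B) : LipB (fun y => ∑ i ∈ S, f i y) (S.card * B) := by
  intro y w
  simp only
  rw [← Finset.sum_sub_distrib]
  refine (Finset.abs_sum_le_sum_abs _ _).trans ?_
  refine (Finset.sum_le_card_nsmul _ _ (B * ‖w‖) fun i hi => h i hi y w).trans (le_of_eq ?_)
  rw [nsmul_eq_mul]
  ring

/-- the constant -/
noncomputable def lA (x B B' M : ℝ) : ℝ := Real.exp (2 * (x * B)) * (B' + 4 * M * (x * B)) + 2 * M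

lemma lA_nonneg (hx : 0 ≤ x) (hB : 0 ≤ B) (hB' : 0 ≤ B') (hM : 0 ≤ M) : 0 ≤ lA x B B' M := by
  unfold lA; positivity

/-- Tilted averages of bounded Lipschitz functions are Lipschitz. -/
lemma Ax_lip (h : LipB F B) (hB : 0 ≤ B) (hx : 0 ≤ x) (hm : Measurable φ) (hφ : LipB φ B')
    (hB' : 0 ≤ B') (hM : ∀ u, |φ u| ≤ M) (s : ℝ) : LipB (Ax x s F φ) (lA x B B' M) := by
  have hM0 : 0 ≤ M := (abs_nonneg _).trans (hM 0)
  have eφ : EG φ := EG.of_bdd hm hM
  have key : ∀ y w : κ → ℝ, ‖w‖ ≤ 1 → Ax x s F φ (y + w) - Ax x s F φ y ≤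
      Real.exp (2 * (x * B)) * (B' + 4 * M * (x * B)) * ‖w‖ := by
    intro y w hw
    set ρ := x * B * ‖w‖ with hρ
    have hρ0 : 0 ≤ ρ := by positivity
    have hρ1 : ρ ≤ x * B := by
      rw [hρ]
      have : x * B * ‖w‖ ≤ x * B * 1 := mul_le_mul_of_nonneg_left hw (by positivity)
      linarith
    have hp := h.pos hB y s x
    have hp' := h.pos hB (y + w) s x
    -- the two densities
    have d1 : ∀ z : κ → ℝ, Real.exp (x * F (y + w + s • z)) ≤
        Real.exp ρ * Real.exp (x * F (y + s • z)) := by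
      intro z
      rw [← Real.exp_add]
      refine Real.exp_le_exp.2 ?_
      have h1 := (abs_le.1 (h (y + s • z) w)).2
      have e : y + w + s • z = y + s • z + w := by abel
      rw [e]
      have := mul_le_mul_of_nonneg_left h1 hx
      nlinarith
    have d2 : ∀ z : κ → ℝ, Real.exp (-ρ) * Real.exp (x * F (y + s • z)) ≤
        Real.exp (x * F (y + w + s • z)) := by
      intro z
      rw [← Real.exp_add]
      refine Real.exp_le_exp.2 ?_
      have h1 := (abs_le.1 (h (y + s • z) w)).1
      have e : y + w + s • z = y + s • z + w := by abel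
      rw [e]
      have := mul_le_mul_of_nonneg_left h1 hx
      nlinarith
    have iP := h.int_exp hB y s x
    have iP' := h.int_exp hB (y + w) s x
    have iN := Ax_int h hB eφ x s y
    have iN' := Ax_int h hB eφ x s (y + w)
    -- numerators
    have n1 : ∫ z, Real.exp (x * F (y + w + s • z)) * (φ (y + w + s • z) + M) ∂(gI κ) ≤
        Real.exp ρ * (∫ z, Real.exp (x * F (y + s • z)) * (φ (y + s • z) + M) ∂(gI κ) +
          B' * ‖w‖ * ∫ z, Real.exp (x * F (y + s • z)) ∂(gI κ)) := by
      have i3 : Integrable (fun z => Real.exp (x * F (y + s • z)) * (φ (y + s • z) + M)) (gI κ) := by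
        have : (fun z => Real.exp (x * F (y + s • z)) * (φ (y + s • z) + M)) =
            fun z => Real.exp (x * F (y + s • z)) * φ (y + s • z) +
              Real.exp (x * F (y + s • z)) * M := by funext z; ring
        rw [this]
        exact iN.add (iP.mul_const M)
      have i4 : Integrable (fun z => Real.exp (x * F (y + w + s • z)) *
          (φ (y + w + s • z) + M)) (gI κ) := by
        have : (fun z => Real.exp (x * F (y + w + s • z)) * (φ (y + w + s • z) + M)) =
            fun z => Real.exp (x * F (y + w + s • z)) * φ (y + w + s • z) +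
              Real.exp (x * F (y + w + s • z)) * M := by funext z; ring
        rw [this]
        exact iN'.add (iP'.mul_const M)
      rw [← integral_const_mul (B' * ‖w‖), ← integral_add i3 (iP.const_mul _),
        ← integral_const_mul]
      refine integral_mono i4 ((i3.add (iP.const_mul _)).const_mul _) fun z => ?_
      simp only [Pi.add_apply]
      have e : y + w + s • z = y + s • z + w := by abel
      have h5 := (abs_le.1 (hφ (y + s • z) w)).2
      have h6 := (abs_le.1 (hM (y + s • z + w))).1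
      have h7 := d1 z
      rw [e] at h7 ⊢
      have h8 : Real.exp (x * F (y + s • z + w)) * (φ (y + s • z + w) + M) ≤
          (Real.exp ρ * Real.exp (x * F (y + s • z))) * (φ (y + s • z + w) + M) :=
        mul_le_mul_of_nonneg_right h7 (by linarith)
      have h9 : (Real.exp ρ * Real.exp (x * F (y + s • z))) * (φ (y + s • z + w) + M) ≤
          (Real.exp ρ * Real.exp (x * F (y + s • z))) * (φ (y + s • z) + B' * ‖w‖ + M) :=
        mul_le_mul_of_nonneg_left (by linarith) (by positivity)
      refine (h8.trans h9).trans (le_of_eq ?_)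
      ring
    have n2 : Real.exp (-ρ) * ∫ z, Real.exp (x * F (y + s • z)) ∂(gI κ) ≤
        ∫ z, Real.exp (x * F (y + w + s • z)) ∂(gI κ) := by
      rw [← integral_const_mul]
      exact integral_mono (iP.const_mul _) iP' d2
    have e1 : ∀ y : κ → ℝ, ∫ z, Real.exp (x * F (y + s • z)) * (φ (y + s • z) + M) ∂(gI κ) =
        (Ax x s F φ y + M) * ∫ z, Real.exp (x * F (y + s • z)) ∂(gI κ) := by
      intro y
      have hp := (h.pos hB y s x).ne'
      have iN := Ax_int h hB eφ x s y
      have iP := h.int_exp hB y s x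
      have : (fun z => Real.exp (x * F (y + s • z)) * (φ (y + s • z) + M)) =
          fun z => Real.exp (x * F (y + s • z)) * φ (y + s • z) +
            Real.exp (x * F (y + s • z)) * M := by funext z; ring
      rw [this, integral_add iN (iP.mul_const M), integral_mul_const]
      unfold Ax
      field_simp
    rw [e1, e1] at n1
    set P := ∫ z, Real.exp (x * F (y + s • z)) ∂(gI κ) with hP
    set P' := ∫ z, Real.exp (x * F (y + w + s • z)) ∂(gI κ) with hP'
    set a := Ax x s F φ y with ha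
    set a' := Ax x s F φ (y + w) with ha'
    have hab := Ax_abs_le h hB hm hM x s y
    have hab' := Ax_abs_le h hB hm hM x s (y + w)
    rw [← ha] at hab
    rw [← ha'] at hab'
    -- (a' + M) ≤ exp (2ρ) (a + M + B' ‖w‖)
    have h10 : (a' + M) * (Real.exp (-ρ) * P) ≤ Real.exp ρ * ((a + M) * P + B' * ‖w‖ * P) :=
      (mul_le_mul_of_nonneg_left n2 (by linarith [(abs_le.1 hab').1])).trans n1
    have h11 : a' + M ≤ Real.exp (2 * ρ) * (a + M + B' * ‖w‖) := by
      have h12 : (a' + M) * (Real.exp (-ρ) * P) = (a' + M) * Real.exp (-ρ) * P := by ring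
      have h13 : Real.exp ρ * ((a + M) * P + B' * ‖w‖ * P) =
          Real.exp ρ * (a + M + B' * ‖w‖) * P := by ring
      rw [h12, h13] at h10
      have h14 := le_of_mul_le_mul_right h10 hp
      have h15 := mul_le_mul_of_nonneg_left h14 (Real.exp_pos ρ).le
      have h16 : Real.exp ρ * ((a' + M) * Real.exp (-ρ)) = a' + M := by
        rw [mul_comm (a' + M), ← mul_assoc, ← Real.exp_add, add_neg_cancel, Real.exp_zero,
          one_mul]
      have h17 : Real.exp ρ * (Real.exp ρ * (a + M + B' * ‖w‖)) =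
          Real.exp (2 * ρ) * (a + M + B' * ‖w‖) := by
        rw [← mul_assoc, ← Real.exp_add]; congr 2; ring
      rwa [h16, h17] at h15
    have h18 : Real.exp (2 * ρ) - 1 ≤ 2 * ρ * Real.exp (2 * (x * B)) := by
      have h19 := abs_exp_sub_one_le' (2 * ρ)
      rw [abs_of_nonneg (by positivity : 0 ≤ 2 * ρ)] at h19
      refine (le_abs_self _).trans (h19.trans ?_)
      exact mul_le_mul_of_nonneg_left (Real.exp_le_exp.2 (by linarith)) (by positivity)
    have h20 : Real.exp (2 * ρ) ≤ Real.exp (2 * (x * B)) := Real.exp_le_exp.2 (by linarith)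
    have h21 : (Real.exp (2 * ρ) - 1) * (a + M) ≤ (2 * ρ * Real.exp (2 * (x * B))) * (2 * M) :=
      mul_le_mul h18 (by linarith [(abs_le.1 hab).2]) (by linarith [(abs_le.1 hab).1])
        (by positivity)
    have h22 : Real.exp (2 * ρ) * (B' * ‖w‖) ≤ Real.exp (2 * (x * B)) * (B' * ‖w‖) :=
      mul_le_mul_of_nonneg_right h20 (by positivity)
    have h23 : (2 * ρ * Real.exp (2 * (x * B))) * (2 * M) + Real.exp (2 * (x * B)) * (B' * ‖w‖) =
        Real.exp (2 * (x * B)) * (B' + 4 * M * (x * B)) * ‖w‖ := by rw [hρ]; ring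
    nlinarith [h11, h21, h22, h23]
  intro y w
  have hE : 0 ≤ Real.exp (2 * (x * B)) * (B' + 4 * M * (x * B)) := by positivity
  rcases le_total ‖w‖ 1 with hw | hw
  · have h1 := key y w hw
    have h2 := key (y + w) (-w) (by rwa [norm_neg])
    rw [add_neg_cancel_right, norm_neg] at h2
    have h3 : 0 ≤ 2 * M * ‖w‖ := by positivity
    unfold lA
    rw [abs_le]
    constructor <;> nlinarith
  · have h1 := Ax_abs_le h hB hm hM x s y
    have h2 := Ax_abs_le h hB hm hM x s (y + w)
    refine (abs_sub _ _).trans ?_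
    have h3 : 2 * M * 1 ≤ 2 * M * ‖w‖ := mul_le_mul_of_nonneg_left hw (by positivity)
    have h4 : 0 ≤ Real.exp (2 * (x * B)) * (B' + 4 * M * (x * B)) * ‖w‖ := by positivity
    unfold lA
    nlinarith

/-! ### the gradient of one window is of class `C^{1,1}`, uniformly in the window -/

/-- the Lipschitz constant of the gradient of the layer functional -/
noncomputable def kD (x B L : ℝ) : ℝ := lA x B (6 * L) B

/-- the Lipschitz constant of the Hessian of the layer functional -/
noncomputable def kH (x B L B2 B3 : ℝ) : ℝ :=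
  lA x B B3 B2 + x * (lA x B (6 * L * B + B * (6 * L)) (B * B) + (kD x B L * B + B * kD x B L))

/-- the common constants -/
noncomputable def bS (x B L B2 : ℝ) : ℝ := B + kD x B L + (B2 + 2 * x * B ^ 2)

noncomputable def lS (κ : Type) [Fintype κ] (x B L B2 B3 : ℝ) : ℝ :=
  (L + 2 * x * (Fintype.card κ * B) ^ 2) + Fintype.card κ * kH x B L B2 B3

section reg

variable (h : C2 F D HF B L B2) (hL3 : ∀ e f, LipB (HF e f) B3) (hB3 : 0 ≤ B3) (hx : 0 < x)
include h hx

lemma kD_nonneg : 0 ≤ kD x B L := by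
  have := h.c1.L0
  exact lA_nonneg hx.le h.c1.B0 (by positivity) h.c1.B0

lemma B2_nonneg' [Nonempty κ] : 0 ≤ B2 :=
  (abs_nonneg _).trans (h.bd (Classical.arbitrary κ) (Classical.arbitrary κ) 0)

lemma lip_D (e : κ) : LipB (D e) (6 * L) := fun y w => h.c1.grad_lip e y w

lemma lip_v (s : ℝ) (e : κ) : LipB (DW x s F D e) (kD x B L) := by
  have hL := h.c1.L0
  exact Ax_lip h.c1.lip h.c1.B0 hx.le (h.c1.meas e) (lip_D h hx e) (by positivity)
    (h.c1.bd e) s

include hL3 hB3

lemma lip_HW (s : ℝ) (e f : κ) : LipB (HW x s F D HF e f) (kH x B L B2 B3) := by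
  have hL := h.c1.L0
  have hB := h.c1.B0
  have k1 : LipB (Ax x s F (HF e f)) (lA x B B3 B2) :=
    Ax_lip h.c1.lip hB hx.le (h.meas e f) (hL3 e f) hB3 (h.bd e f) s
  have l2 : LipB (fun u => D e u * D f u) (6 * L * B + B * (6 * L)) :=
    LipB.mul_bd (lip_D h hx e) (lip_D h hx f) (h.c1.bd e) (h.c1.bd f) (by positivity)
      (by positivity)
  have k2 : LipB (Ax x s F fun u => D e u * D f u)
      (lA x B (6 * L * B + B * (6 * L)) (B * B)) :=
    Ax_lip h.c1.lip hB hx.le ((h.c1.meas e).mul (h.c1.meas f)) l2 (by positivity)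
      (fun u => by
        simp only [Pi.mul_apply]
        rw [abs_mul]
        exact mul_le_mul (h.c1.bd e u) (h.c1.bd f u) (abs_nonneg _) hB) s
  have hW := h.c1.W' hx s
  have k3 : LipB (fun y => DW x s F D e y * DW x s F D f y) (kD x B L * B + B * kD x B L) :=
    LipB.mul_bd (lip_v h hx s e) (lip_v h hx s f) (hW.bd e) (hW.bd f) (kD_nonneg h hx)
      (kD_nonneg h hx)
  have k4 := LipB.add' k1 (LipB.const_mul' (LipB.sub' k2 k3) hx.le)
  exact k4

lemma kH_nonneg [Nonempty κ] : 0 ≤ kH x B L B2 B3 := by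
  have e : κ := Classical.arbitrary κ
  have hL := h.c1.L0
  have hB := h.c1.B0
  have h2 := B2_nonneg' h hx
  have h3 := lA_nonneg (M := B2) hx.le hB hB3 h2
  have h4 := lA_nonneg (M := B * B) (B' := 6 * L * B + B * (6 * L)) hx.le hB (by positivity)
    (by positivity)
  have h5 := kD_nonneg h hx
  unfold kH
  positivity

lemma c11_v [Nonempty κ] (s : ℝ) (e : κ) :
    C11 (DW x s F D e) (HW x s F D HF e) (bS x B L B2) (lS κ x B L B2 B3) := by
  have hL := h.c1.L0
  have hB := h.c1.B0
  have hB2 := B2_nonneg' h hx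
  have hk := kD_nonneg h hx
  have hK := kH_nonneg h hL3 hB3 hx
  have b1 : kD x B L ≤ bS x B L B2 := by
    unfold bS
    have : 0 ≤ B + (B2 + 2 * x * B ^ 2) := by positivity
    linarith
  have b2 : B2 + 2 * x * B ^ 2 ≤ bS x B L B2 := by
    unfold bS
    linarith
  have l1 : Fintype.card κ * kH x B L B2 B3 ≤ lS κ x B L B2 B3 := by
    unfold lS
    have : 0 ≤ L + 2 * x * (Fintype.card κ * B) ^ 2 := by positivity
    linarith
  refine ⟨hk.trans b1, le_trans (by positivity) l1, LipB.mono' (lip_v h hx s e) b1,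
    fun f => HW_meas h x s e f, fun f y => (HW_bd h hx.le s e f y).trans b2, fun y w => ?_⟩
  have hd : ∀ τ : ℝ, HasDerivAt (fun τ : ℝ => DW x s F D e (y + τ • w))
      (∑ f, HW x s F D HF e f (y + τ • w) * w f) τ := by
    intro τ
    have h1 : HasDerivAt (fun τ : ℝ => y + τ • w) w τ := by
      simpa using ((hasDerivAt_id τ).smul_const w).const_add y
    have h2 := (HW_dv h x s e (y + τ • w)).comp_hasDerivAt τ h1
    refine h2.congr_deriv ?_
    exact lf_apply (fun i => HW x s F D HF e i (y + τ • w)) w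
  obtain ⟨c, hc, hc2⟩ := exists_hasDerivAt_eq_slope (fun τ : ℝ => DW x s F D e (y + τ • w))
    (fun τ => ∑ f, HW x s F D HF e f (y + τ • w) * w f) zero_lt_one
    (fun τ _ => (hd τ).continuousAt.continuousWithinAt) fun τ _ => hd τ
  simp only [one_smul, zero_smul, add_zero, sub_zero, div_one] at hc2
  rw [← hc2, ← Finset.sum_sub_distrib]
  refine (Finset.abs_sum_le_sum_abs _ _).trans ?_
  have h3 : ∀ f ∈ (Finset.univ : Finset κ), |HW x s F D HF e f (y + c • w) * w f -
      HW x s F D HF e f y * w f| ≤ kH x B L B2 B3 * ‖w‖ ^ 2 := by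
    intro f _
    rw [← sub_mul, abs_mul]
    have h4 := lip_HW h hL3 hB3 hx s e f y (c • w)
    rw [norm_smul, Real.norm_eq_abs, abs_of_pos hc.1] at h4
    have h5 : c * ‖w‖ ≤ 1 * ‖w‖ := mul_le_mul_of_nonneg_right hc.2.le (norm_nonneg _)
    have h6 : |w f| ≤ ‖w‖ := by simpa using norm_le_pi_norm w f
    calc |HW x s F D HF e f (y + c • w) - HW x s F D HF e f y| * |w f| ≤
        (kH x B L B2 B3 * ‖w‖) * ‖w‖ := by
          refine mul_le_mul (h4.trans ?_) h6 (abs_nonneg _) (by positivity)
          rw [one_mul] at h5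
          exact mul_le_mul_of_nonneg_left h5 hK
      _ = _ := by ring
  refine (Finset.sum_le_card_nsmul _ _ _ h3).trans ?_
  rw [nsmul_eq_mul, Finset.card_univ, ← mul_assoc]
  exact mul_le_mul_of_nonneg_right l1 (by positivity)

lemma c11_u [Nonempty κ] (s : ℝ) :
    C11 (W x s F) (DW x s F D) (bS x B L B2) (lS κ x B L B2 B3) := by
  have hB2 := B2_nonneg' h hx
  have hk := kD_nonneg h hx
  have hK := kH_nonneg h hL3 hB3 hx
  have hB := h.c1.B0
  refine C11.mono' (h.c1.W' hx s) ?_ ?_
  · unfold bS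
    have : 0 ≤ kD x B L + (B2 + 2 * x * B ^ 2) := by positivity
    linarith
  · unfold lS
    have : 0 ≤ Fintype.card κ * kH x B L B2 B3 := by positivity
    linarith

end reg

end gen

end Vale.Agent.P146.H767
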