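import Vale.Agent.P146.H767.Conc2

/-!
# P146: the functional of one window is concave in its length, step (a), the conclusion

`Q0_anti`: if `2 x E v·Hv ≤ E |H|²` for all windows then the mean square of the base gradient is
nonincreasing in the length of the window.
-/

open MeasureTheory ProbabilityTheory Filter Topology

namespace Vale.Agent.P146.H767

open Vale.Agent.P157.Lv Vale.Agent.P146.H425
open Vale.Agent.P146.R1
open Vale.Agent.P146.H785 (C2 HW HW_bd HW_meas HW_dv Ax Ax_int Ax_const Ax_abs_le Dv lf lf_apply)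

set_option linter.unusedSectionVars false

section gen

variable {κ : Type} [Fintype κ] {F : (κ → ℝ) → ℝ} {D : κ → (κ → ℝ) → ℝ}
  {HF : κ → κ → (κ → ℝ) → ℝ} {B L B2 B3 x s s' : ℝ}

/-- the density of the derivative of the mean square of the base gradient -/
noncomputable def Ps0 (x s : ℝ) (F : (κ → ℝ) → ℝ) (D : κ → (κ → ℝ) → ℝ)
    (HF : κ → κ → (κ → ℝ) → ℝ) (y : κ → ℝ) : ℝ :=
  ∑ e, ∑ f, HW x (√s) F D HF e f y ^ 2 -
    2 * x * ∑ e, ∑ f, DW x (√s) F D e y * HW x (√s) F D HF e f y * DW x (√s) F D f y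

/-- The inequality (T): `2 x E v·Hv ≤ E |H|²` at the time `1 - s`. -/
def TT (x s : ℝ) (F : (κ → ℝ) → ℝ) (D : κ → (κ → ℝ) → ℝ) (HF : κ → κ → (κ → ℝ) → ℝ) : Prop :=
  2 * x * ∫ z, ∑ e, ∑ f, DW x (√s) F D e (√(1 - s) • z) * HW x (√s) F D HF e f (√(1 - s) • z) *
    DW x (√s) F D f (√(1 - s) • z) ∂(gI κ) ≤
  ∫ z, ∑ e, ∑ f, HW x (√s) F D HF e f (√(1 - s) • z) ^ 2 ∂(gI κ)

section reg

variable (h : C2 F D HF B L B2) (hL3 : ∀ e f, LipB (HF e f) B3) (hB3 : 0 ≤ B3) (hx : 0 < x)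
include h hx

lemma eg_HW (s : ℝ) (e f : κ) : EG (HW x s F D HF e f) :=
  EG.of_bdd (HW_meas h x s e f) (HW_bd h hx.le s e f)

lemma eg_HH (s : ℝ) : EG fun y => ∑ e, ∑ f, HW x s F D HF e f y ^ 2 :=
  EG.sum _ fun e _ => EG.sum _ fun f _ => (eg_HW h hx s e f).pow 2

lemma eg_vHv (s : ℝ) : EG fun y => ∑ e, ∑ f, DW x s F D e y * HW x s F D HF e f y *
    DW x s F D f y :=
  EG.sum _ fun e _ => EG.sum _ fun f _ => (((h.c1.W' hx s).eg_D e).mul (eg_HW h hx s e f)).mul
    ((h.c1.W' hx s).eg_D f)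

lemma eg_Ps0 (s : ℝ) : EG (Ps0 x s F D HF) :=
  (eg_HH h hx (√s)).sub ((eg_vHv h hx (√s)).const_mul _)

lemma TT_iff : TT x s F D HF → 0 ≤ ∫ z, Ps0 x s F D HF (√(1 - s) • z) ∂(gI κ) := by
  intro hT
  unfold Ps0
  rw [integral_sub (EG.smul' (eg_HH h hx (√s)) _).integrable
    ((EG.smul' (eg_vHv h hx (√s)) _).const_mul _).integrable, integral_const_mul]
  unfold TT at hT
  linarith

include hL3 hB3

/-- the Lipschitz constant of the density -/
lemma lip_Ps0 [Nonempty κ] : ∃ C : ℝ, 0 ≤ C ∧ ∀ s, LipB (Ps0 x s F D HF) C := by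
  set N : ℝ := (Fintype.card κ : ℝ) with hN
  have hN0 : 0 ≤ N := Nat.cast_nonneg _
  have hB := h.c1.B0
  have hB2 := B2_nonneg' h hx
  have hk := kD_nonneg h hx
  have hK := kH_nonneg h hL3 hB3 hx
  set b2 := B2 + 2 * x * B ^ 2 with hb2
  have hb20 : 0 ≤ b2 := by positivity
  set c1 := kH x B L B2 B3 * b2 + b2 * kH x B L B2 B3 with hc1
  set c2 := (kD x B L * b2 + B * kH x B L B2 B3) * B + (B * b2) * kD x B L with hc2
  refine ⟨N * (N * c1) + 2 * x * (N * (N * c2)), by positivity, fun s => ?_⟩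
  have hW := h.c1.W' hx (√s)
  have l1 : ∀ e f, LipB (fun y => HW x (√s) F D HF e f y ^ 2) c1 := by
    intro e f
    have := LipB.mul_bd (lip_HW h hL3 hB3 hx (√s) e f) (lip_HW h hL3 hB3 hx (√s) e f)
      (HW_bd h hx.le (√s) e f) (HW_bd h hx.le (√s) e f) hK hK
    have e1 : (fun y => HW x (√s) F D HF e f y ^ 2) =
        fun y => HW x (√s) F D HF e f y * HW x (√s) F D HF e f y := by
      funext y
      exact pow_two _
    rw [e1]
    exact this
  have l2 : ∀ e f, LipB (fun y => DW x (√s) F D e y * HW x (√s) F D HF e f y *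
      DW x (√s) F D f y) c2 := by
    intro e f
    have m1 := LipB.mul_bd (lip_v h hx (√s) e) (lip_HW h hL3 hB3 hx (√s) e f)
      (hW.bd e) (HW_bd h hx.le (√s) e f) hk hK
    have m2 := LipB.mul_bd m1 (lip_v h hx (√s) f) (M := B * b2) (fun y => by
      rw [abs_mul]
      exact mul_le_mul (hW.bd e y) (HW_bd h hx.le (√s) e f y) (abs_nonneg _) hB) (hW.bd f)
      (by positivity) hk
    exact m2
  have n1 : LipB (fun y => ∑ e, ∑ f, HW x (√s) F D HF e f y ^ 2) (N * (N * c1)) := by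
    have := LipB.sum' (Finset.univ : Finset κ) (B := N * c1)
      (f := fun e y => ∑ f, HW x (√s) F D HF e f y ^ 2) fun e _ => by
        have := LipB.sum' (Finset.univ : Finset κ) (B := c1)
          (f := fun f y => HW x (√s) F D HF e f y ^ 2) fun f _ => l1 e f
        rwa [Finset.card_univ] at this
    rwa [Finset.card_univ] at this
  have n2 : LipB (fun y => ∑ e, ∑ f, DW x (√s) F D e y * HW x (√s) F D HF e f y *
      DW x (√s) F D f y) (N * (N * c2)) := by
    have := LipB.sum' (Finset.univ : Finset κ) (B := N * c2)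
      (f := fun e y => ∑ f, DW x (√s) F D e y * HW x (√s) F D HF e f y *
        DW x (√s) F D f y) fun e _ => by
        have := LipB.sum' (Finset.univ : Finset κ) (B := c2)
          (f := fun f y => DW x (√s) F D e y * HW x (√s) F D HF e f y *
            DW x (√s) F D f y) fun f _ => l2 e f
        rwa [Finset.card_univ] at this
    rwa [Finset.card_univ] at this
  exact LipB.sub' n1 (LipB.const_mul' n2 (by positivity))

/-- **One step in the length of the window.** -/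
theorem Q0_step [Nonempty κ] : ∃ C : ℝ, 0 ≤ C ∧ ∀ s s', 0 ≤ s → s ≤ s' → s' ≤ 1 →
    Q0 x s' F D ≤ Q0 x s F D - (s' - s) * (∫ z, Ps0 x s F D HF (√(1 - s) • z) ∂(gI κ)) +
      C * ((s' - s) * √(s' - s)) := by
  have hL := h.c1.L0
  have hB := h.c1.B0
  have hB2 := B2_nonneg' h hx
  have hk := kD_nonneg h hx
  have hK := kH_nonneg h hL3 hB3 hx
  have hbS : 0 ≤ bS x B L B2 := by unfold bS; positivity
  have hlS : 0 ≤ lS κ x B L B2 B3 := by unfold lS; positivity
  obtain ⟨C, hC, hst⟩ := step_pt (κ := κ) hx hbS hlS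
  obtain ⟨C', hC', hlip⟩ := lip_Ps0 h hL3 hB3 hx
  have hm := m1_nonneg (κ := κ)
  refine ⟨C + C' * m1 κ, by positivity, fun s s' hs hss hs1 => ?_⟩
  have hd : 0 ≤ s' - s := by linarith
  have hb0 : 0 ≤ √(s' - s) := Real.sqrt_nonneg _
  have hb1 : √(s' - s) ≤ 1 := by rw [Real.sqrt_le_one]; linarith
  have hb2 : (√(s' - s)) ^ 2 = s' - s := Real.sq_sqrt hd
  have h0 : (√(s' - s)) ^ 2 + (√s) ^ 2 = (√s') ^ 2 := by
    rw [Real.sq_sqrt hd, Real.sq_sqrt hs, Real.sq_sqrt (by linarith)]; ring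
  have hab : (√(1 - s')) ^ 2 + (√(s' - s)) ^ 2 = (√(1 - s)) ^ 2 := by
    rw [Real.sq_sqrt (by linarith), Real.sq_sqrt hd, Real.sq_sqrt (by linarith)]; ring
  set b := √(s' - s) with hb
  have es : (1 : ℝ) - (1 - s) = s := by ring
  have es' : (1 : ℝ) - (1 - s') = s' := by ring
  have hU := h.c1.W' hx (√s)
  have hU' := h.c1.W' hx (√s')
  have e1 : Q0 x s F D = ∫ z, ∑ e, DW x (√s) F D e (√(1 - s) • z) ^ 2 ∂(gI κ) := by
    unfold Q0 R1.sq G2
    rw [es]
  have e2 : Q0 x s' F D = ∫ z, ∑ e, DW x (√s') F D e (√(1 - s') • z) ^ 2 ∂(gI κ) := by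
    unfold Q0 R1.sq G2
    rw [es']
  have r2 := gI_rot hU.eg_G2 hab 0
  simp only [zero_add] at r2
  have e3 : ∀ e (y : κ → ℝ), DW x (√s') F D e y =
      Ax x b (W x (√s) F) (DW x (√s) F D e) y := fun e y => DW_step h.c1 hx h0 e y
  have egA : EG fun z : κ → ℝ => ∑ e, Ax x b (W x (√s) F) (DW x (√s) F D e) (√(1 - s') • z) ^ 2 := by
    have := EG.smul' hU'.eg_G2 (√(1 - s'))
    simp_rw [e3] at this
    exact this
  have egV : EG fun z : κ → ℝ => ∫ w, ∑ e, DW x (√s) F D e (√(1 - s') • z + b • w) ^ 2 ∂(gI κ) :=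
    EG.smul' (EG.conv hU.eg_G2 b) (√(1 - s'))
  have egP : EG fun z : κ → ℝ => Ps0 x s F D HF (√(1 - s') • z) := EG.smul' (eg_Ps0 h hx s) _
  have egP' : EG fun z : κ → ℝ => Ps0 x s F D HF (√(1 - s) • z) := EG.smul' (eg_Ps0 h hx s) _
  have k1 : ∫ z, ∑ e, Ax x b (W x (√s) F) (DW x (√s) F D e) (√(1 - s') • z) ^ 2 ∂(gI κ) ≤
      ∫ z, ((∫ w, ∑ e, DW x (√s) F D e (√(1 - s') • z + b • w) ^ 2 ∂(gI κ)) -
        b ^ 2 * Ps0 x s F D HF (√(1 - s') • z) + C * b ^ 3) ∂(gI κ) := by
    refine integral_mono egA.integrable ((egV.sub (egP.const_mul _)).add (EG.const _)).integrable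
      fun z => ?_
    exact hst _ _ _ (c11_u h hL3 hB3 hx (√s)) (fun e => c11_v h hL3 hB3 hx (√s) e) b hb0 hb1
      (√(1 - s') • z)
  have k2 : ∫ z, ((∫ w, ∑ e, DW x (√s) F D e (√(1 - s') • z + b • w) ^ 2 ∂(gI κ)) -
        b ^ 2 * Ps0 x s F D HF (√(1 - s') • z) + C * b ^ 3) ∂(gI κ) =
      Q0 x s F D - b ^ 2 * (∫ z, Ps0 x s F D HF (√(1 - s') • z) ∂(gI κ)) + C * b ^ 3 := by
    have i1 : Integrable (fun z => (∫ w, ∑ e, DW x (√s) F D e (√(1 - s') • z + b • w) ^ 2 ∂(gI κ)) -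
        b ^ 2 * Ps0 x s F D HF (√(1 - s') • z)) (gI κ) :=
      (egV.sub (egP.const_mul _)).integrable
    rw [integral_add i1 (integrable_const _), integral_sub egV.integrable
      (egP.const_mul _).integrable, integral_const_mul, r2, e1]
    simp
  have k3 : |∫ z, Ps0 x s F D HF (√(1 - s') • z) ∂(gI κ) -
      ∫ z, Ps0 x s F D HF (√(1 - s) • z) ∂(gI κ)| ≤ C' * m1 κ * b := by
    rw [← integral_sub egP.integrable egP'.integrable]
    refine abs_integral_le_integral_abs.trans ?_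
    have e4 : C' * m1 κ * b = ∫ z : κ → ℝ, C' * b * ‖z‖ ∂(gI κ) := by
      rw [integral_const_mul]; unfold m1; ring
    rw [e4]
    refine integral_mono (egP.sub egP').abs.integrable (eg_norm.integrable.const_mul _) fun z => ?_
    simp only
    have k4 := hlip s (√(1 - s) • z) ((√(1 - s') - √(1 - s)) • z)
    have e5 : √(1 - s) • z + (√(1 - s') - √(1 - s)) • z = √(1 - s') • z := by
      rw [← add_smul]; congr 1; ring
    rw [e5, norm_smul, Real.norm_eq_abs] at k4
    have k5 : |√(1 - s') - √(1 - s)| ≤ b := by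
      have h1 : √(1 - s') ≤ √(1 - s) := Real.sqrt_le_sqrt (by linarith)
      rw [abs_of_nonpos (by linarith)]
      have h2 : √(1 - s) ≤ √(1 - s') + b := by
        rw [Real.sqrt_le_left (by positivity)]
        have e6 : (√(1 - s') + b) ^ 2 = (√(1 - s')) ^ 2 + b ^ 2 + 2 * (√(1 - s') * b) := by ring
        rw [e6, Real.sq_sqrt (by linarith), hb2]
        have : 0 ≤ √(1 - s') * b := by positivity
        linarith
      linarith
    refine k4.trans ?_
    have : C' * (|√(1 - s') - √(1 - s)| * ‖z‖) ≤ C' * (b * ‖z‖) :=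
      mul_le_mul_of_nonneg_left (mul_le_mul_of_nonneg_right k5 (norm_nonneg _)) hC'
    linarith
  have e7 : Q0 x s' F D = ∫ z, ∑ e, Ax x b (W x (√s) F) (DW x (√s) F D e) (√(1 - s') • z) ^ 2
      ∂(gI κ) := by
    rw [e2]
    simp_rw [e3]
  rw [e7]
  refine k1.trans ?_
  rw [k2, hb2]
  have k6 := (abs_le.1 k3).1
  have k7 := mul_le_mul_of_nonneg_left k6 hd
  have e8 : b ^ 3 = (s' - s) * b := by rw [← hb2]; ring
  rw [e8]
  nlinarith [k7]

/-- **The mean square of the base gradient is nonincreasing in the length of the window.** -/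
theorem Q0_anti [Nonempty κ] (hT : ∀ s, 0 ≤ s → s < 1 → TT x s F D HF) (hs : 0 ≤ s)
    (hss : s ≤ s') (hs1 : s' ≤ 1) : Q0 x s' F D ≤ Q0 x s F D := by
  obtain ⟨C, hC, hst⟩ := Q0_step h hL3 hB3 hx
  -- one step
  have one : ∀ a c, 0 ≤ a → a ≤ c → c ≤ 1 → Q0 x c F D ≤ Q0 x a F D +
      C * ((c - a) * √(c - a)) := by
    intro a c ha hac hc
    rcases hac.eq_or_lt with he | hlt
    · subst he
      simp
    have h1 := hst a c ha hac hc
    have h2 := TT_iff h hx (hT a ha (hlt.trans_le hc))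
    have h3 := mul_nonneg (sub_nonneg.2 hac) h2
    linarith
  -- many steps
  have many : ∀ N : ℕ, 0 < N → Q0 x s' F D ≤ Q0 x s F D +
      C * ((s' - s) * √((s' - s) / N)) := by
    intro N hN
    have hN' : (0 : ℝ) < N := Nat.cast_pos.2 hN
    set δ := (s' - s) / N with hδ
    have hδ0 : 0 ≤ δ := div_nonneg (by linarith) hN'.le
    have hNδ : N * δ = s' - s := by rw [hδ]; field_simp
    have ind : ∀ k : ℕ, k ≤ N → Q0 x (s + k * δ) F D ≤ Q0 x s F D + k * (C * (δ * √δ)) := by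
      intro k
      induction k with
      | zero => intro _; simp
      | succ k ih =>
        intro hk
        have h1 := ih (by omega)
        have hk' : ((k : ℝ) + 1) ≤ N := by exact_mod_cast hk
        have h2 : s + ((k : ℝ) + 1) * δ ≤ 1 := by
          have : ((k : ℝ) + 1) * δ ≤ N * δ := mul_le_mul_of_nonneg_right hk' hδ0
          linarith
        have h3 := one (s + k * δ) (s + ((k : ℝ) + 1) * δ) (by positivity)
          (by nlinarith) h2
        have e1 : s + ((k : ℝ) + 1) * δ - (s + k * δ) = δ := by ring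
        rw [e1] at h3
        push_cast
        nlinarith [h1, h3]
    have h4 := ind N le_rfl
    rw [hNδ] at h4
    have e2 : s + (s' - s) = s' := by ring
    rw [e2] at h4
    refine h4.trans (le_of_eq ?_)
    have e3 : (N : ℝ) * (C * (δ * √δ)) = C * ((N * δ) * √δ) := by ring
    rw [e3, hNδ]
  have hlim : Tendsto (fun N : ℕ => Q0 x s F D + C * ((s' - s) * √((s' - s) / N))) atTop
      (𝓝 (Q0 x s F D + C * ((s' - s) * √0))) := by
    refine (((((Real.continuous_sqrt.tendsto 0).comp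
      (tendsto_const_div_atTop_nhds_zero_nat (s' - s))).const_mul (s' - s)).const_mul C).const_add
      (Q0 x s F D))
  rw [Real.sqrt_zero, mul_zero, mul_zero, add_zero] at hlim
  refine ge_of_tendsto hlim ?_
  filter_upwards [eventually_gt_atTop 0] with N hN
  exact many N hN

end reg

lemma Q0_contOn (h : C11 F D B L) (hx : 0 < x) (hs : 0 ≤ s) (hs1 : s' ≤ 1) :
    ContinuousOn (fun σ => Q0 x σ F D) (Set.Icc s s') := by
  obtain ⟨C', hC', h2⟩ := Q0_cont (D := D) h hx
  have hQ2 : ∀ a ∈ Set.Icc s s', ∀ c ∈ Set.Icc s s', |Q0 x a F D - Q0 x c F D| ≤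
      C' * √|a - c| := by
    intro a ha c hc
    rcases le_total c a with hle | hle
    · have := h2 c a (hs.trans hc.1) hle (ha.2.trans hs1)
      rwa [abs_of_nonneg (by linarith : 0 ≤ a - c)]
    · have := h2 a c (hs.trans ha.1) hle (hc.2.trans hs1)
      rw [abs_sub_comm, abs_sub_comm a c]
      rwa [abs_of_nonneg (by linarith : 0 ≤ c - a)]
  intro c hc
  rw [ContinuousWithinAt, tendsto_iff_dist_tendsto_zero]
  have hlim : Tendsto (fun a : ℝ => C' * √|a - c|) (𝓝[Set.Icc s s'] c) (𝓝 0) := by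
    have : Tendsto (fun a : ℝ => C' * √|a - c|) (𝓝 c) (𝓝 (C' * √|c - c|)) := by
      apply Continuous.tendsto
      fun_prop
    rw [sub_self, abs_zero, Real.sqrt_zero, mul_zero] at this
    exact this.mono_left nhdsWithin_le_nhds
  refine squeeze_zero' (Eventually.of_forall fun a => dist_nonneg) ?_ hlim
  filter_upwards [self_mem_nhdsWithin] with a ha
  rw [Real.dist_eq]
  exact hQ2 a ha c hc

section mono

variable (h : C11 F D B L) (hx : 0 < x)
  (hA : ∀ a c, 0 ≤ a → a ≤ c → c ≤ 1 → Q0 x c F D ≤ Q0 x a F D)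
include h hx hA

/-- **The functional dominates the linear interpolation**, first form:
`(x/2) s Q0 x s ≤ D(x, s)`. -/
theorem DD_ge_of (hs : 0 ≤ s) (hs1 : s ≤ 1) : x / 2 * (s * Q0 x s F D) ≤ DD x s F := by
  have h1 := DD_int_s (D := D) h hx le_rfl hs hs1
  have h2 : DD x 0 F = 0 := by
    rw [DD_eq]
    simp [W_zero hx]
  rw [h2, sub_zero] at h1
  rw [h1]
  have hcont : ContinuousOn (fun σ => x / 2 * Q0 x σ F D) (Set.Icc 0 s) :=
    (Q0_contOn h hx le_rfl hs1).const_smul (x / 2)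
  have h3 : x / 2 * (s * Q0 x s F D) = ∫ _σ in (0 : ℝ)..s, x / 2 * Q0 x s F D := by
    rw [intervalIntegral.integral_const]
    simp
    ring
  rw [h3]
  refine intervalIntegral.integral_mono_on hs intervalIntegrable_const
    (hcont.intervalIntegrable_of_Icc hs) fun σ hσ => ?_
  exact mul_le_mul_of_nonneg_left (hA σ s hσ.1 hσ.2 hs1) (by positivity)

/-- **Concavity in the length of the window**, second form: `D(x, s) / s` is nonincreasing. -/
theorem DD_conc_of (hs : 0 ≤ s) (hss : s ≤ s') (hs1 : s' ≤ 1) :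
    s * DD x s' F ≤ s' * DD x s F := by
  have h1 := DD_int_s (D := D) h hx hs hss hs1
  have hg := DD_ge_of h hx hA hs (hss.trans hs1)
  have hcont : ContinuousOn (fun σ => x / 2 * Q0 x σ F D) (Set.Icc s s') :=
    (Q0_contOn h hx hs hs1).const_smul (x / 2)
  have h2 : ∫ σ in s..s', x / 2 * Q0 x σ F D ≤ (s' - s) * (x / 2 * Q0 x s F D) := by
    have h3 : (s' - s) * (x / 2 * Q0 x s F D) = ∫ _σ in s..s', x / 2 * Q0 x s F D := by
      rw [intervalIntegral.integral_const]
      simp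
    rw [h3]
    refine intervalIntegral.integral_mono_on hss (hcont.intervalIntegrable_of_Icc hss)
      intervalIntegrable_const fun σ hσ => ?_
    exact mul_le_mul_of_nonneg_left (hA s σ hs hσ.1 (hσ.2.trans hs1)) (by positivity)
  rw [← h1] at h2
  have h4 := mul_le_mul_of_nonneg_left h2 hs
  have h5 := mul_le_mul_of_nonneg_left hg (sub_nonneg.2 hss)
  nlinarith

/-- `s D(x, 1) ≤ D(x, s)` -/
theorem DD_one_of (hs : 0 ≤ s) (hs1 : s ≤ 1) : s * DD x 1 F ≤ DD x s F := by
  have := DD_conc_of h hx hA hs hs1 le_rfl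
  linarith

end mono

end gen

end Vale.Agent.P146.H767
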