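import Vale.Agent.P146.H767.Scal
import Vale.Agent.P146.H640.R1t

/-!
# P146: calculus of the functional of one window

`D(x, s)` is the profile functional with the exponent `x` on the last window of length `s` and `0`
before.  `Qin x s t` is the mean of `|∇u_t|²` under its law, `1 - s ≤ t ≤ 1`, and `Q0 x s` the
value at the base time `1 - s`.  Exact identities and inequalities:
* `(y - x)/2 ∫ Qin x s ≤ D(y, s) - D(x, s) ≤ (y - x)/2 ∫ Qin y s`;
* `D(x, s₂) - D(x, s₁) = (x/2) ∫ Q0 x`.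
-/

open MeasureTheory ProbabilityTheory Filter Topology

namespace Vale.Agent.P146.H767

open Vale.Agent.P157.Lv Vale.Agent.P146.H425
open Vale.Agent.P146.R1

set_option linter.unusedSectionVars false

section gen

variable {κ : Type} [Fintype κ] {F φ : (κ → ℝ) → ℝ} {D : κ → (κ → ℝ) → ℝ} {B L x t0 t t' : ℝ}

/-- The mean (not normalized) of `φ (z_t)` under the law tilted by `e^{x F}` started at `y` at the
time `t0`. -/
noncomputable def pin (x t0 t : ℝ) (F φ : (κ → ℝ) → ℝ) (y : κ → ℝ) : ℝ :=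
  ∫ w, Real.exp (x * uu x t F (y + √(t - t0) • w)) * φ (y + √(t - t0) • w) ∂(gI κ)

lemma eg_eu (h : C11 F D B L) (hx : 0 < x) (hφ : EG φ) (t : ℝ) :
    EG fun z => Real.exp (x * uu x t F z) * φ z := ((c11_uu h hx t).eg_exp x).mul hφ

lemma eg_pin (h : C11 F D B L) (hx : 0 < x) (hφ : EG φ) (t0 t : ℝ) : EG (pin x t0 t F φ) :=
  EG.conv (eg_eu h hx hφ t) _

lemma eg_sqq (h : C11 F D B L) (hx : 0 < x) (t : ℝ) : EG (sq x t F D) := (c11_uu h hx t).eg_G2

lemma pin_self (y : κ → ℝ) : pin x t t F φ y = Real.exp (x * uu x t F y) * φ y := by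
  unfold pin
  simp

lemma pin_mono {ψ : (κ → ℝ) → ℝ} (h : C11 F D B L) (hx : 0 < x) (hφ : EG φ) (hψ : EG ψ)
    (hle : ∀ z, φ z ≤ ψ z) (y : κ → ℝ) : pin x t0 t F φ y ≤ pin x t0 t F ψ y :=
  integral_mono (EG.add_smul (eg_eu h hx hφ t) y _).integrable
    (EG.add_smul (eg_eu h hx hψ t) y _).integrable fun _ =>
      mul_le_mul_of_nonneg_left (hle _) (Real.exp_pos _).le

/-- rotation: one more step -/
lemma pin_step (h : C11 F D B L) (hx : 0 < x) (hφ : EG φ) (h0 : t0 ≤ t) (h1 : t ≤ t')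
    (y : κ → ℝ) : pin x t0 t' F φ y =
      ∫ w, pin x t t' F φ (y + √(t - t0) • w) ∂(gI κ) := by
  unfold pin
  exact (gI_rot (eg_eu h hx hφ t') (a := √(t - t0)) (b := √(t' - t)) (c := √(t' - t0)) (by
    rw [Real.sq_sqrt (by linarith), Real.sq_sqrt (by linarith), Real.sq_sqrt (by linarith)]
    ring) y).symm

/-- the entropy of one layer, exactly -/
lemma KL_layer (h : C11 F D B L) (hx : 0 < x) (h0 : t ≤ t') (h1 : t' ≤ 1) (y : κ → ℝ) :
    Real.exp (x * uu x t F y) * KL (fun z => uu x t' F (y + √(t' - t) • z)) x =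
      x * (pin x t t' F (uu x t' F) y - Real.exp (x * uu x t F y) * uu x t F y) := by
  unfold KL pin
  rw [uu_step h hx h0 h1 y, Real.log_exp]
  have hE := Real.exp_pos (x * uu x t F y)
  field_simp

/-- lower bound of one step -/
lemma step_low (h : C11 F D B L) (hx : 0 < x) (h0 : t ≤ t') (h1 : t' ≤ 1) (y : κ → ℝ) :
    Real.exp (x * uu x t F y) * (uu x t F y + x / 2 * (t' - t) * sq x t F D y) ≤
      pin x t t' F (uu x t' F) y := by
  have hU := c11_uu h hx t'
  have hk := KL_shift_ge (b := √(t' - t)) hU hx y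
  rw [G2_step h hx h0 h1, Real.sq_sqrt (by linarith)] at hk
  have h2 := mul_le_mul_of_nonneg_left hk (Real.exp_pos (x * uu x t F y)).le
  rw [KL_layer h hx h0 h1] at h2
  have h3 : x * (Real.exp (x * uu x t F y) * (uu x t F y + x / 2 * (t' - t) * sq x t F D y)) ≤
      x * pin x t t' F (uu x t' F) y := by nlinarith [h2]
  exact le_of_mul_le_mul_left h3 hx

/-- upper bound of one step -/
lemma step_up (h : C11 F D B L) (hx : 0 < x) (h0 : t ≤ t') (h1 : t' ≤ 1) (y : κ → ℝ) :
    pin x t t' F (uu x t' F) y ≤ Real.exp (x * uu x t F y) * uu x t F y +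
      x / 2 * (t' - t) * pin x t t' F (sq x t' F D) y := by
  have hU := c11_uu h hx t'
  have hk := KL_le_grad (hU.shift y (√(t' - t))) hx
  rw [uu_step h hx h0 h1 y] at hk
  have h2 := mul_le_mul_of_nonneg_left hk (Real.exp_pos (x * uu x t F y)).le
  rw [KL_layer h hx h0 h1] at h2
  have hE := Real.exp_pos (x * uu x t F y)
  have e1 : ∫ z, Real.exp (x * uu x t' F (y + √(t' - t) • z)) *
      ∑ e, (√(t' - t) * dd x t' F D e (y + √(t' - t) • z)) ^ 2 ∂(gI κ) =
      (t' - t) * pin x t t' F (sq x t' F D) y := by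
    unfold pin
    rw [← integral_const_mul]
    refine integral_congr_ae (Eventually.of_forall fun z => ?_)
    simp only
    have e2 : ∑ e, (√(t' - t) * dd x t' F D e (y + √(t' - t) • z)) ^ 2 =
        (t' - t) * sq x t' F D (y + √(t' - t) • z) := by
      unfold R1.sq G2
      rw [Finset.mul_sum]
      refine Finset.sum_congr rfl fun e _ => ?_
      rw [mul_pow, Real.sq_sqrt (by linarith)]
      rfl
    rw [e2]
    ring
  rw [e1] at h2
  have e3 : Real.exp (x * uu x t F y) * (x ^ 2 / 2 * ((t' - t) * pin x t t' F (sq x t' F D) y /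
      Real.exp (x * uu x t F y))) = x * (x / 2 * (t' - t) * pin x t t' F (sq x t' F D) y) := by
    field_simp
  rw [e3] at h2
  have h3 := le_of_mul_le_mul_left h2 hx
  linarith

lemma eg_stl (h : C11 F D B L) (hx : 0 < x) (t c : ℝ) : EG fun y =>
    Real.exp (x * uu x t F y) * (uu x t F y + c * sq x t F D y) :=
  eg_eu h hx ((eg_uu h hx t).add ((eg_sqq h hx t).const_mul c)) t

/-- lower bound of one step, after a first layer -/
lemma pin_low (h : C11 F D B L) (hx : 0 < x) (h00 : t0 ≤ t) (h0 : t ≤ t') (h1 : t' ≤ 1)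
    (y : κ → ℝ) : pin x t0 t F (uu x t F) y + x / 2 * (t' - t) * pin x t0 t F (sq x t F D) y ≤
      pin x t0 t' F (uu x t' F) y := by
  rw [pin_step h hx (eg_uu h hx t') h00 h0 y]
  have e1 : pin x t0 t F (uu x t F) y + x / 2 * (t' - t) * pin x t0 t F (sq x t F D) y =
      ∫ w, Real.exp (x * uu x t F (y + √(t - t0) • w)) * (uu x t F (y + √(t - t0) • w) +
        x / 2 * (t' - t) * sq x t F D (y + √(t - t0) • w)) ∂(gI κ) := by
    unfold pin
    rw [← integral_const_mul, ← integral_add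
      (EG.add_smul (eg_eu h hx (eg_uu h hx t) t) y _).integrable
      ((EG.add_smul (eg_eu h hx (eg_sqq h hx t) t) y _).const_mul _).integrable]
    refine integral_congr_ae (Eventually.of_forall fun w => ?_)
    simp only
    ring
  rw [e1]
  exact integral_mono (EG.add_smul (eg_stl h hx t _) y _).integrable
    (EG.add_smul (eg_pin h hx (eg_uu h hx t') t t') y _).integrable fun w =>
      step_low h hx h0 h1 _

/-- upper bound of one step, after a first layer -/
lemma pin_up (h : C11 F D B L) (hx : 0 < x) (h00 : t0 ≤ t) (h0 : t ≤ t') (h1 : t' ≤ 1)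
    (y : κ → ℝ) : pin x t0 t' F (uu x t' F) y ≤ pin x t0 t F (uu x t F) y +
      x / 2 * (t' - t) * pin x t0 t' F (sq x t' F D) y := by
  rw [pin_step h hx (eg_uu h hx t') h00 h0 y, pin_step h hx (eg_sqq h hx t') h00 h0 y]
  have i1 := (EG.add_smul (eg_eu h hx (eg_uu h hx t) t) y (√(t - t0))).integrable
  have i2 := (EG.add_smul (eg_pin h hx (eg_sqq (D := D) h hx t') t t') y
    (√(t - t0))).const_mul (x / 2 * (t' - t))
  have e1 : pin x t0 t F (uu x t F) y + x / 2 * (t' - t) *
      ∫ w, pin x t t' F (sq x t' F D) (y + √(t - t0) • w) ∂(gI κ) =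
      ∫ w, (Real.exp (x * uu x t F (y + √(t - t0) • w)) * uu x t F (y + √(t - t0) • w) +
        x / 2 * (t' - t) * pin x t t' F (sq x t' F D) (y + √(t - t0) • w)) ∂(gI κ) := by
    unfold pin at i2 ⊢
    rw [integral_add i1 i2.integrable, integral_const_mul]
  rw [e1]
  exact integral_mono (EG.add_smul (eg_pin h hx (eg_uu h hx t') t t') y _).integrable
    (i1.add i2.integrable) fun w => step_up h hx h0 h1 _

/-- the squared gradient increases -/
lemma pin_sq_mono (h : C11 F D B L) (hx : 0 < x) (h00 : t0 ≤ t) (h0 : t ≤ t') (h1 : t' ≤ 1)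
    (y : κ → ℝ) : pin x t0 t F (sq x t F D) y ≤ pin x t0 t' F (sq x t' F D) y := by
  rcases h0.eq_or_lt with rfl | hlt
  · exact le_rfl
  have h2 := pin_low (D := D) h hx h00 h0 h1 y
  have h3 := pin_up (D := D) h hx h00 h0 h1 y
  have h4 : x / 2 * (t' - t) * pin x t0 t F (sq x t F D) y ≤
      x / 2 * (t' - t) * pin x t0 t' F (sq x t' F D) y := by linarith
  exact le_of_mul_le_mul_left h4 (by have : 0 < t' - t := by linarith
                                     positivity)

/-! ### averages over the base -/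

/-- The mean of `φ (z_t)` under the law of the window `(x, s)`. -/
noncomputable def Ein (x s t : ℝ) (F φ : (κ → ℝ) → ℝ) : ℝ :=
  ∫ z, pin x (1 - s) t F φ (√(1 - s) • z) *
    Real.exp (-x * uu x (1 - s) F (√(1 - s) • z)) ∂(gI κ)

/-- The mean squared gradient at the time `t` under the law of the window `(x, s)`. -/
noncomputable def Qin (x s t : ℝ) (F : (κ → ℝ) → ℝ) (D : κ → (κ → ℝ) → ℝ) : ℝ :=
  Ein x s t F (sq x t F D)

/-- The mean squared gradient at the base time. -/
noncomputable def Q0 (x s : ℝ) (F : (κ → ℝ) → ℝ) (D : κ → (κ → ℝ) → ℝ) : ℝ :=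
  ∫ z, sq x (1 - s) F D (√(1 - s) • z) ∂(gI κ)

/-- The mean value at the time `t` under the law of the window `(x, s)`. -/
noncomputable def Vin (x s t : ℝ) (F : (κ → ℝ) → ℝ) : ℝ := Ein x s t F (uu x t F)

lemma eg_ein (h : C11 F D B L) (hx : 0 < x) (hφ : EG φ) (t0 t : ℝ) :
    EG fun y => pin x t0 t F φ y * Real.exp (-x * uu x t0 F y) :=
  (eg_pin h hx hφ t0 t).mul ((c11_uu h hx t0).eg_exp (-x))

lemma Ein_mono {ψ : (κ → ℝ) → ℝ} (h : C11 F D B L) (hx : 0 < x) (hφ : EG φ) (hψ : EG ψ)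
    (hle : ∀ z, φ z ≤ ψ z) (s t : ℝ) : Ein x s t F φ ≤ Ein x s t F ψ :=
  integral_mono (EG.smul' (eg_ein h hx hφ (1 - s) t) _).integrable
    (EG.smul' (eg_ein h hx hψ (1 - s) t) _).integrable fun _ =>
      mul_le_mul_of_nonneg_right (pin_mono h hx hφ hψ hle _) (Real.exp_pos _).le

lemma Ein_base (s : ℝ) : Ein x s (1 - s) F φ = ∫ z, φ (√(1 - s) • z) ∂(gI κ) := by
  unfold Ein
  refine integral_congr_ae (Eventually.of_forall fun z => ?_)
  simp only
  rw [pin_self, mul_right_comm, ← Real.exp_add]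
  have : x * uu x (1 - s) F (√(1 - s) • z) + -x * uu x (1 - s) F (√(1 - s) • z) = 0 := by ring
  rw [this, Real.exp_zero, one_mul]

lemma Qin_base (s : ℝ) : Qin x s (1 - s) F D = Q0 x s F D := Ein_base s

lemma Vin_base (s : ℝ) : Vin x s (1 - s) F = ∫ z, uu x (1 - s) F (√(1 - s) • z) ∂(gI κ) :=
  Ein_base s

lemma Ein_comb (h : C11 F D B L) (hx : 0 < x) {φ ψ χ : (κ → ℝ) → ℝ} (hφ : EG φ) (hψ : EG ψ)
    {t1 t2 t3 : ℝ} (hχ : EG χ) (c s : ℝ) (hle : ∀ y, pin x (1 - s) t1 F φ y +
      c * pin x (1 - s) t2 F ψ y ≤ pin x (1 - s) t3 F χ y) :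
    Ein x s t1 F φ + c * Ein x s t2 F ψ ≤ Ein x s t3 F χ := by
  unfold Ein
  have i1 := (EG.smul' (eg_ein h hx hφ (1 - s) t1) (√(1 - s))).integrable
  have i2 := (EG.smul' (eg_ein h hx hψ (1 - s) t2) (√(1 - s))).const_mul c
  rw [← integral_const_mul, ← integral_add i1 i2.integrable]
  refine integral_mono (i1.add i2.integrable)
    (EG.smul' (eg_ein h hx hχ (1 - s) t3) _).integrable fun z => ?_
  simp only
  have h1 := mul_le_mul_of_nonneg_right (hle (√(1 - s) • z))
    (Real.exp_pos (-x * uu x (1 - s) F (√(1 - s) • z))).le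
  linarith

lemma Ein_comb' (h : C11 F D B L) (hx : 0 < x) {φ ψ χ : (κ → ℝ) → ℝ} (hφ : EG φ) (hψ : EG ψ)
    {t1 t2 t3 : ℝ} (hχ : EG χ) (c s : ℝ) (hle : ∀ y, pin x (1 - s) t3 F χ y ≤
      pin x (1 - s) t1 F φ y + c * pin x (1 - s) t2 F ψ y) :
    Ein x s t3 F χ ≤ Ein x s t1 F φ + c * Ein x s t2 F ψ := by
  unfold Ein
  have i1 := (EG.smul' (eg_ein h hx hφ (1 - s) t1) (√(1 - s))).integrable
  have i2 := (EG.smul' (eg_ein h hx hψ (1 - s) t2) (√(1 - s))).const_mul c
  rw [← integral_const_mul, ← integral_add i1 i2.integrable]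
  refine integral_mono (EG.smul' (eg_ein h hx hχ (1 - s) t3) _).integrable
    (i1.add i2.integrable) fun z => ?_
  simp only
  have h1 := mul_le_mul_of_nonneg_right (hle (√(1 - s) • z))
    (Real.exp_pos (-x * uu x (1 - s) F (√(1 - s) • z))).le
  linarith

/-- **The growth of the value along the window, lower bound.** -/
theorem Vin_low (h : C11 F D B L) (hx : 0 < x) {s : ℝ} (h00 : 1 - s ≤ t) (h0 : t ≤ t')
    (h1 : t' ≤ 1) : Vin x s t F + x / 2 * (t' - t) * Qin x s t F D ≤ Vin x s t' F :=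
  Ein_comb h hx (eg_uu h hx t) (eg_sqq h hx t) (eg_uu h hx t') _ s fun y =>
    pin_low h hx h00 h0 h1 y

/-- **The growth of the value along the window, upper bound.** -/
theorem Vin_up (h : C11 F D B L) (hx : 0 < x) {s : ℝ} (h00 : 1 - s ≤ t) (h0 : t ≤ t')
    (h1 : t' ≤ 1) : Vin x s t' F ≤ Vin x s t F + x / 2 * (t' - t) * Qin x s t' F D :=
  Ein_comb' h hx (eg_uu h hx t) (eg_sqq h hx t') (eg_uu h hx t') _ s fun y =>
    pin_up h hx h00 h0 h1 y

/-- **The mean squared gradient increases along the window.** -/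
theorem Qin_mono (h : C11 F D B L) (hx : 0 < x) {s : ℝ} (h00 : 1 - s ≤ t) (h0 : t ≤ t')
    (h1 : t' ≤ 1) : Qin x s t F D ≤ Qin x s t' F D := by
  have := Ein_comb (t1 := t) (t2 := t) (t3 := t') h hx (eg_sqq (D := D) h hx t)
    (EG.const (0 : ℝ)) (eg_sqq (D := D) h hx t') 0 s fun y => by
      have := pin_sq_mono (D := D) h hx h00 h0 h1 y
      linarith
  unfold Qin
  linarith

lemma Qin_nonneg (hx : 0 < x) {s : ℝ} : 0 ≤ Qin x s t F D :=
  integral_nonneg fun _ => mul_nonneg (integral_nonneg fun _ => mul_nonneg (Real.exp_pos _).le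
    (Finset.sum_nonneg fun _ _ => sq_nonneg _)) (Real.exp_pos _).le

lemma Q0_nonneg {s : ℝ} : 0 ≤ Q0 x s F D :=
  integral_nonneg fun _ => Finset.sum_nonneg fun _ _ => sq_nonneg _

lemma Q0_le_Qin (h : C11 F D B L) (hx : 0 < x) {s : ℝ} (h0 : 1 - s ≤ t) (h1 : t ≤ 1) :
    Q0 x s F D ≤ Qin x s t F D := by
  rw [← Qin_base]
  exact Qin_mono h hx le_rfl h0 h1

/-- a function squeezed between left and right slopes of a monotone function is its integral -/
lemma int_of_slopes {V Q : ℝ → ℝ} {a b : ℝ} (hab : a ≤ b)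
    (hlo : ∀ t t', a ≤ t → t ≤ t' → t' ≤ b → V t + (t' - t) * Q t ≤ V t')
    (hup : ∀ t t', a ≤ t → t ≤ t' → t' ≤ b → V t' ≤ V t + (t' - t) * Q t') :
    V b - V a = ∫ t in a..b, Q t := by
  have hmono : MonotoneOn Q (Set.Icc a b) := by
    intro t ht t' ht' htt
    rcases htt.eq_or_lt with rfl | hlt
    · exact le_rfl
    have h1 := hlo t t' ht.1 htt ht'.2
    have h2 := hup t t' ht.1 htt ht'.2
    have h3 : (t' - t) * Q t ≤ (t' - t) * Q t' := by linarith
    exact le_of_mul_le_mul_left h3 (by linarith)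
  have hi : IntervalIntegrable Q volume a b := by
    refine MonotoneOn.intervalIntegrable ?_
    rwa [Set.uIcc_of_le hab]
  rcases hab.eq_or_lt with rfl | hlt
  · simp
  -- with `N` steps
  have hsub : ∀ t t', a ≤ t → t ≤ t' → t' ≤ b → IntervalIntegrable Q volume t t' := by
    intro t t' h1 h2 h3
    refine hi.mono_set ?_
    rw [Set.uIcc_of_le h2, Set.uIcc_of_le hab]
    exact Set.Icc_subset_Icc h1 h3
  have hone : ∀ t t', a ≤ t → t ≤ t' → t' ≤ b →
      |V t' - V t - ∫ u in t..t', Q u| ≤ (t' - t) * (Q t' - Q t) := by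
    intro t t' h1 h2 h3
    have k1 := hlo t t' h1 h2 h3
    have k2 := hup t t' h1 h2 h3
    have ii := hsub t t' h1 h2 h3
    have k3 : (t' - t) * Q t ≤ ∫ u in t..t', Q u := by
      have := intervalIntegral.integral_mono_on h2 (by simp) ii (f := fun _ => Q t)
        fun u hu => hmono ⟨h1, h2.trans h3⟩ ⟨h1.trans hu.1, hu.2.trans h3⟩ hu.1
      simpa using this
    have k4 : ∫ u in t..t', Q u ≤ (t' - t) * Q t' := by
      have := intervalIntegral.integral_mono_on h2 ii (by simp) (g := fun _ => Q t')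
        fun u hu => hmono ⟨h1.trans hu.1, hu.2.trans h3⟩ ⟨h1.trans h2, h3⟩ hu.2
      simpa using this
    rw [abs_le]
    constructor <;> nlinarith
  have hN : ∀ N : ℕ, 0 < N → |V b - V a - ∫ u in a..b, Q u| ≤ (b - a) * (Q b - Q a) / N := by
    intro N hN
    have hN0 : (0 : ℝ) < N := Nat.cast_pos.2 hN
    set p : ℕ → ℝ := fun k => a + (b - a) * (k / N) with hp
    have hpk : ∀ k, p (k + 1) - p k = (b - a) / N := by
      intro k
      simp only [hp]
      push_cast
      field_simp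
      ring
    have hp0 : ∀ k, a ≤ p k := fun k => by
      have : 0 ≤ (b - a) * ((k : ℝ) / N) := mul_nonneg (by linarith) (by positivity)
      simp only [hp]; linarith
    have hple : ∀ k, k ≤ N → p k ≤ b := fun k hk => by
      have h1 : (k : ℝ) / N ≤ 1 := by
        rw [div_le_one hN0]; exact_mod_cast hk
      have := mul_le_mul_of_nonneg_left h1 (by linarith : 0 ≤ b - a)
      simp only [hp]; linarith
    have hpm : ∀ k, p k ≤ p (k + 1) := fun k => by
      have h1 := hpk k
      have h2 : 0 ≤ (b - a) / N := div_nonneg (by linarith) hN0.le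
      linarith
    have ind : ∀ k ≤ N, |V (p k) - V (p 0) - ∫ u in (p 0)..(p k), Q u| ≤
        (b - a) / N * (Q (p k) - Q (p 0)) := by
      intro k
      induction k with
      | zero => intro _; simp
      | succ k ih =>
        intro hk
        have h1 := ih (by omega)
        have h2 := hone (p k) (p (k + 1)) (hp0 k) (hpm k) (hple _ hk)
        rw [hpk] at h2
        have hpa : p 0 ≤ p k := by
          simp only [hp]
          have : 0 ≤ (b - a) * ((k : ℝ) / N) := mul_nonneg (by linarith) (by positivity)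
          simp only [Nat.cast_zero, zero_div, mul_zero, add_zero]
          linarith
        have h3 := intervalIntegral.integral_add_adjacent_intervals
          (hsub (p 0) (p k) (hp0 0) hpa (hple k (by omega)))
          (hsub (p k) (p (k + 1)) (hp0 k) (hpm k) (hple _ hk))
        rw [← h3]
        have e : V (p (k + 1)) - V (p 0) - ((∫ u in (p 0)..(p k), Q u) +
            ∫ u in (p k)..(p (k + 1)), Q u) = (V (p k) - V (p 0) - ∫ u in (p 0)..(p k), Q u) +
            (V (p (k + 1)) - V (p k) - ∫ u in (p k)..(p (k + 1)), Q u) := by ring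
        rw [e]
        refine (abs_add_le _ _).trans ((add_le_add h1 h2).trans (le_of_eq ?_))
        ring
    have h5 := ind N le_rfl
    have e0 : p 0 = a := by simp [hp]
    have eN : p N = b := by
      simp only [hp]
      rw [div_self hN0.ne']
      ring
    rw [e0, eN] at h5
    refine h5.trans (le_of_eq ?_)
    ring
  have hz : |V b - V a - ∫ u in a..b, Q u| ≤ 0 := by
    refine le_of_tendsto_of_tendsto tendsto_const_nhds
      (tendsto_const_div_atTop_nhds_zero_nat ((b - a) * (Q b - Q a))) ?_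
    filter_upwards [eventually_gt_atTop 0] with N hN' using hN N hN'
  have := abs_nonpos_iff.1 hz
  linarith

/-- **The growth of the value along the window.** -/
theorem Vin_int (h : C11 F D B L) (hx : 0 < x) {s a b : ℝ} (h0 : 1 - s ≤ a) (hab : a ≤ b)
    (h1 : b ≤ 1) : Vin x s b F - Vin x s a F = x / 2 * ∫ t in a..b, Qin x s t F D := by
  have h2 := int_of_slopes (V := fun t => Vin x s t F) (Q := fun t => x / 2 * Qin x s t F D) hab
    (fun t t' ht htt ht' => by
      have := Vin_low (D := D) h hx (h0.trans ht) htt (ht'.trans h1)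
      linarith)
    (fun t t' ht htt ht' => by
      have := Vin_up (D := D) h hx (h0.trans ht) htt (ht'.trans h1)
      linarith)
  rw [h2, intervalIntegral.integral_const_mul]

lemma Qin_int (h : C11 F D B L) (hx : 0 < x) {s a b : ℝ} (h0 : 1 - s ≤ a) (hab : a ≤ b)
    (h1 : b ≤ 1) : IntervalIntegrable (fun t => Qin x s t F D) volume a b := by
  refine MonotoneOn.intervalIntegrable ?_
  rw [Set.uIcc_of_le hab]
  intro t ht t' ht' htt
  exact Qin_mono h hx (h0.trans ht.1) htt (ht'.2.trans h1)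

lemma uu_one (hx : 0 < x) (z : κ → ℝ) : uu x 1 F z = F z := by
  unfold uu
  rw [sub_self, Real.sqrt_zero, W_zero hx]

/-- **The tangent inequality in the exponent, one window**, for all `x, y > 0`. -/
theorem DD_tan (h : C11 F D B L) (hc : Cv F) (hx : 0 < x) {y : ℝ} (hy : 0 < y) {s : ℝ}
    (hs : 0 ≤ s) (hs1 : s ≤ 1) :
    DD x s F + (y - x) / 2 * ∫ t in (1 - s)..1, Qin x s t F D ≤ DD y s F := by
  have hV := Vin_int (D := D) h hx (s := s) (a := 1 - s) (b := 1) le_rfl (by linarith) le_rfl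
  have key : ∀ z : κ → ℝ, uu x (1 - s) F z + (y - x) / x *
      (pin x (1 - s) 1 F (uu x 1 F) z * Real.exp (-x * uu x (1 - s) F z) -
        uu x (1 - s) F z) ≤ uu y (1 - s) F z := by
    intro z
    have e1 : (1 : ℝ) - (1 - s) = s := by ring
    have h1 := tangent (h.shift z (√s)) (hc.shift z (√s)) hx hy
    rw [W_shift, W_shift] at h1
    have h2 := KL_layer (t := 1 - s) (t' := 1) h hx (by linarith) le_rfl z
    rw [e1] at h2
    have e2 : (fun w => uu x 1 F (z + √s • w)) = fun w => F (z + √s • w) := by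
      funext w; exact uu_one hx _
    rw [e2] at h2
    have e3 : W x (√s) F z = uu x (1 - s) F z := by unfold uu; rw [e1]
    have e4 : W y (√s) F z = uu y (1 - s) F z := by unfold uu; rw [e1]
    rw [e3, e4] at h1
    have hE := Real.exp_pos (x * uu x (1 - s) F z)
    have e5 : KL (fun w => F (z + √s • w)) x = x * (pin x (1 - s) 1 F (uu x 1 F) z *
        Real.exp (-x * uu x (1 - s) F z) - uu x (1 - s) F z) := by
      have e6 : Real.exp (-x * uu x (1 - s) F z) = (Real.exp (x * uu x (1 - s) F z))⁻¹ := by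
        rw [← Real.exp_neg]; congr 1; ring
      rw [e6]
      field_simp
      linarith
    rw [e5] at h1
    refine le_trans (le_of_eq ?_) h1
    field_simp
  have eg1 := EG.smul' (eg_ein h hx (eg_uu h hx 1) (1 - s) 1) (√(1 - s))
  have eg2 := EG.smul' (eg_uu h hx (1 - s)) (√(1 - s))
  have h3 : ∫ z, (uu x (1 - s) F (√(1 - s) • z) + (y - x) / x *
      (pin x (1 - s) 1 F (uu x 1 F) (√(1 - s) • z) *
        Real.exp (-x * uu x (1 - s) F (√(1 - s) • z)) - uu x (1 - s) F (√(1 - s) • z)))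
        ∂(gI κ) ≤ ∫ z, uu y (1 - s) F (√(1 - s) • z) ∂(gI κ) :=
    integral_mono (eg2.add ((eg1.sub eg2).const_mul _)).integrable
      (EG.smul' (eg_uu h hy (1 - s)) _).integrable fun z => key _
  rw [integral_add eg2.integrable ((eg1.sub eg2).const_mul _).integrable, integral_const_mul,
    integral_sub eg1.integrable eg2.integrable] at h3
  have e7 : ∫ z, pin x (1 - s) 1 F (uu x 1 F) (√(1 - s) • z) *
        Real.exp (-x * uu x (1 - s) F (√(1 - s) • z)) ∂(gI κ) = Vin x s 1 F := rfl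
  rw [e7, ← Vin_base (x := x) (F := F) s, hV] at h3
  have e8 : (y - x) / x * (x / 2 * ∫ t in (1 - s)..1, Qin x s t F D) =
      (y - x) / 2 * ∫ t in (1 - s)..1, Qin x s t F D := by
    field_simp
  rw [e8, Vin_base] at h3
  unfold DD
  linarith

/-- `D(y, s) - D(x, s)` between the slopes at `x` and at `y`. -/
theorem DD_slopes (h : C11 F D B L) (hc : Cv F) (hx : 0 < x) {y : ℝ} (hxy : x ≤ y) {s : ℝ}
    (hs : 0 ≤ s) (hs1 : s ≤ 1) :
    (y - x) / 2 * ∫ t in (1 - s)..1, Qin x s t F D ≤ DD y s F - DD x s F ∧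
    DD y s F - DD x s F ≤ (y - x) / 2 * ∫ t in (1 - s)..1, Qin y s t F D := by
  have hy : 0 < y := hx.trans_le hxy
  have h1 := DD_tan (D := D) h hc hx hy hs hs1
  have h2 := DD_tan (D := D) h hc hy hx hs hs1
  constructor
  · linarith
  · have e : (x - y) / 2 = -((y - x) / 2) := by ring
    rw [e] at h2
    linarith

/-- The slope in the exponent is nondecreasing. -/
theorem slope_mono (h : C11 F D B L) (hc : Cv F) (hx : 0 < x) {y : ℝ} (hxy : x ≤ y) {s : ℝ}
    (hs : 0 ≤ s) (hs1 : s ≤ 1) :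
    ∫ t in (1 - s)..1, Qin x s t F D ≤ ∫ t in (1 - s)..1, Qin y s t F D := by
  rcases hxy.eq_or_lt with rfl | hlt
  · exact le_rfl
  obtain ⟨h1, h2⟩ := DD_slopes (D := D) h hc hx hxy hs hs1
  have h3 := h1.trans h2
  exact le_of_mul_le_mul_left h3 (by linarith)

/-- **`D` as an integral in the exponent.** -/
theorem DD_int (h : C11 F D B L) (hc : Cv F) (hx : 0 < x) {y : ℝ} (hxy : x ≤ y) {s : ℝ}
    (hs : 0 ≤ s) (hs1 : s ≤ 1) : DD y s F - DD x s F =
      ∫ m in x..y, 1 / 2 * ∫ t in (1 - s)..1, Qin m s t F D := by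
  refine int_of_slopes (V := fun m => DD m s F)
    (Q := fun m => 1 / 2 * ∫ t in (1 - s)..1, Qin m s t F D) hxy (fun m m' h1 h2 h3 => ?_)
    fun m m' h1 h2 h3 => ?_
  · have := (DD_slopes (D := D) h hc (hx.trans_le h1) h2 hs hs1).1
    linarith
  · have := (DD_slopes (D := D) h hc (hx.trans_le h1) h2 hs hs1).2
    linarith

lemma DD_nonneg (h : C11 F D B L) (hx : 0 < x) {s : ℝ} (hs : 0 ≤ s) (hs1 : s ≤ 1) :
    0 ≤ DD x s F := by
  rw [DD_eq]
  have hab : (√(1 - s)) ^ 2 + (√s) ^ 2 = (1 : ℝ) ^ 2 := by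
    rw [Real.sq_sqrt (by linarith), Real.sq_sqrt hs]; ring
  have h2 := gI_rot h.eg hab 0
  simp only [zero_add, one_smul] at h2
  rw [← h2]
  have := integral_mono (EG.smul' (EG.conv h.eg (√s)) (√(1 - s))).integrable
    (EG.smul' (h.W' hx (√s)).eg (√(1 - s))).integrable fun z => mean_le_W h hx (√s) (√(1 - s) • z)
  linarith

/-- monotone in the exponent -/
theorem DD_mono (h : C11 F D B L) (hc : Cv F) (hx : 0 < x) {y : ℝ} (hxy : x ≤ y) {s : ℝ}
    (hs : 0 ≤ s) (hs1 : s ≤ 1) : DD x s F ≤ DD y s F := by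
  have h1 := (DD_slopes (D := D) h hc hx hxy hs hs1).1
  have h2 : 0 ≤ (y - x) / 2 * ∫ t in (1 - s)..1, Qin x s t F D := by
    refine mul_nonneg (by linarith) (intervalIntegral.integral_nonneg (by linarith) fun t _ =>
      Qin_nonneg hx)
  linarith

/-- monotone in the window -/
theorem DD_mono_s (h : C11 F D B L) (hx : 0 < x) {s s' : ℝ} (hs : 0 ≤ s) (hss : s ≤ s')
    (hs1 : s' ≤ 1) : DD x s F ≤ DD x s' F := by
  rw [DD_eq, DD_eq]
  refine sub_le_sub_right ?_ _
  have hab : (√(1 - s')) ^ 2 + (√(s' - s)) ^ 2 = (√(1 - s)) ^ 2 := by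
    rw [Real.sq_sqrt (by linarith), Real.sq_sqrt (by linarith), Real.sq_sqrt (by linarith)]; ring
  have hW := h.W' hx (√s)
  have h2 := gI_rot hW.eg hab 0
  simp only [zero_add] at h2
  rw [← h2]
  refine integral_mono (EG.smul' (EG.conv hW.eg _) _).integrable
    (EG.smul' (h.W' hx (√s')).eg _).integrable fun z => ?_
  simp only
  have h3 := mean_le_W hW hx (√(s' - s)) (√(1 - s') • z)
  rwa [W_W h.lip h.B0 hx (c := √s') (by
    rw [Real.sq_sqrt (by linarith), Real.sq_sqrt hs, Real.sq_sqrt (by linarith)]; ring)] at h3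

/-- the gain of one window at the doubled exponent -/
theorem DD_two_ge (h : C11 F D B L) (hc : Cv F) (hx : 0 < x) {s : ℝ} (hs : 0 ≤ s) (hs1 : s ≤ 1) :
    DD x s F + x / 2 * (s * Q0 x s F D) ≤ DD (2 * x) s F := by
  have h1 := DD_tan (D := D) h hc hx (y := 2 * x) (by positivity) hs hs1
  have h2 : s * Q0 x s F D ≤ ∫ t in (1 - s)..1, Qin x s t F D := by
    have h3 := intervalIntegral.integral_mono_on (a := 1 - s) (b := 1) (by linarith)
      (by simp) (Qin_int (D := D) h hx le_rfl (by linarith) le_rfl) (f := fun _ => Q0 x s F D)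
      fun t ht => Q0_le_Qin h hx ht.1 ht.2
    simpa using h3
  have e : (2 * x - x) / 2 = x / 2 := by ring
  rw [e] at h1
  have := mul_le_mul_of_nonneg_left h2 (by positivity : 0 ≤ x / 2)
  linarith

/-- the full tilt dominates the window -/
theorem DD_le_W (h : C11 F D B L) (hx : 0 < x) {s : ℝ} (hs : 0 ≤ s) (hs1 : s ≤ 1) :
    DD x s F ≤ W x 1 F 0 - ∫ z, F z ∂(gI κ) := by
  rw [DD_eq]
  have hab : (√(1 - s)) ^ 2 + (√s) ^ 2 = (1 : ℝ) := by
    rw [Real.sq_sqrt (by linarith), Real.sq_sqrt hs]; ring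
  have := mean_W_le h hx hab
  linarith

end gen

end Vale.Agent.P146.H767
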