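import Vale.Agent.P146.H767.SA5

/-!
# P146: the gain with the late piece frozen

Three layers: exponent `y` on `[w-τ, w]`, `x` on `[w, w+r]`, `u` on the last window of length `l`.
The value function `V3`, its convexity, its exponential gap over the free base, and the comparison
of the profile `(y; x_*; x)` with the profile `(y; x_*; x_*)`.
-/

open MeasureTheory ProbabilityTheory

namespace Vale.Agent.P146.H767

open Vale.Agent.P157.Lv Vale.Agent.P146.H425 Vale.Agent.P146.R1 Vale.Agent.P146.H376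

set_option linter.unusedSectionVars false

section gen

variable {κ : Type} [Fintype κ] {F G G0 G1 U : (κ → ℝ) → ℝ} {D DU : κ → (κ → ℝ) → ℝ}
  {B B0 B1 L x y u xs x' y' u' a b s τ lam x1 θ R δ E S l r ε : ℝ} {q : (κ → ℝ) → ℝ}

/-- The value function of three layers, exponents `y`, `x`, `u`, lengths `τ`, `r`, `l`. -/
noncomputable def V3 (y τ x r u l : ℝ) (F : (κ → ℝ) → ℝ) (z : κ → ℝ) : ℝ :=
  W y (√τ) (V2 x r u l F) z

lemma V3_def (y τ x r u l : ℝ) (F : (κ → ℝ) → ℝ) (z : κ → ℝ) :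
    V3 y τ x r u l F z = W y (√τ) (W x (√r) (uu u (1 - l) F)) z := rfl

lemma c11_V3 (h : C11 F D B L) (hu : 0 < u) (hx : 0 < x) (hy : 0 < y) (τ r l : ℝ) :
    ∃ D' B' L', C11 (V3 y τ x r u l F) D' B' L' := by
  obtain ⟨B', L', c⟩ := c11_V2 h hu hx r l
  exact ⟨_, _, _, c.W' hy (√τ)⟩

lemma eg_V3 (h : C11 F D B L) (hu : 0 < u) (hx : 0 < x) (hy : 0 < y) (τ r l : ℝ) :
    EG (V3 y τ x r u l F) := by
  obtain ⟨D', B', L', c⟩ := c11_V3 h hu hx hy τ r l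
  exact c.eg

lemma cv_V3 (h : C11 F D B L) (hc : Cv F) (hu : 0 < u) (hx : 0 < x) (hy : 0 < y) (τ r l : ℝ) :
    Cv (V3 y τ x r u l F) := by
  obtain ⟨B', L', c⟩ := c11_V2 h hu hx r l
  exact cv_W c (cv_V2 h hc hu hx r l) hy _

/-- joint convexity in the exponents and the position -/
lemma V3_conv (h : C11 F D B L) (hc : Cv F) (hu : 0 < u) (hu' : 0 < u') (hx : 0 < x)
    (hx' : 0 < x') (hy : 0 < y) (hy' : 0 < y') {p q : ℝ} (hp : 0 ≤ p) (hq : 0 ≤ q)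
    (hpq : p + q = 1) (τ r l : ℝ) (w0 w1 : κ → ℝ) :
    V3 (p * y + q * y') τ (p * x + q * x') r (p * u + q * u') l F (p • w0 + q • w1) ≤
      p * V3 y τ x r u l F w0 + q * V3 y' τ x' r u' l F w1 := by
  obtain ⟨B', L', c⟩ := c11_V2 h (comb_pos' hu hu' hp hq hpq) (comb_pos' hx hx' hp hq hpq) r l
  obtain ⟨B0', L0', c0⟩ := c11_V2 h hu hx r l
  obtain ⟨B1', L1', c1⟩ := c11_V2 h hu' hx' r l
  exact layer_b c c0.lip c0.B0 c1.lip c1.B0 hy hy' hp hq hpq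
    (V2_conv h hc hu hu' hx hx' hp hq hpq r l) (√τ) w0 w1

/-- monotone in the exponents -/
lemma V3_mono (h : C11 F D B L) (hu : 0 < u) (huu : u ≤ u') (hx : 0 < x) (hxx : x ≤ x')
    (hy : 0 < y) (hyy : y ≤ y') (τ r l : ℝ) (z : κ → ℝ) :
    V3 y τ x r u l F z ≤ V3 y' τ x' r u' l F z := by
  have hu' := hu.trans_le huu
  have hx' := hx.trans_le hxx
  have hy' := hy.trans_le hyy
  obtain ⟨B0', L0', c0⟩ := c11_V2 h hu hx r l
  obtain ⟨B1', L1', c1⟩ := c11_V2 h hu' hx' r l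
  refine (H941.W_mono_exp (s := √τ) c0.lip c0.B0 hy hyy z).trans ?_
  exact H941.W_mono (s := √τ) c0.lip c0.B0 c1.lip c1.B0 hy'
    (fun w => V2_mono h hu huu hx hxx r l w) z

/-- equal exponents on the last two layers -/
lemma V3_tail (h : C11 F D B L) (hx : 0 < x) (hr : 0 ≤ r) (hl : 0 ≤ l) (z : κ → ℝ) :
    V3 y τ x r x l F z = V2 y τ x (l + r) F z := by
  have e : V2 x r x l F = uu x (1 - (l + r)) F := by
    funext w
    exact V2_self h hx hr hl w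
  unfold V3
  rw [e]
  rfl

lemma V3_self (h : C11 F D B L) (hx : 0 < x) (hτ : 0 ≤ τ) (hr : 0 ≤ r) (hl : 0 ≤ l)
    (z : κ → ℝ) : V3 x τ x r x l F z = uu x (1 - (l + r + τ)) F z := by
  rw [V3_tail h hx hr hl, V2_self h hx hτ (by linarith)]

/-- the mean of the value function is at least the mean of `F` -/
lemma mean_le_V3 (h : C11 F D B L) (hu : 0 < u) (hx : 0 < x) (hy : 0 < y) (hτ : 0 ≤ τ)
    (hr : 0 ≤ r) (hl : 0 ≤ l) (h1 : l + r + τ ≤ 1) :
    ∫ z, F z ∂(gI κ) ≤ ∫ z, V3 y τ x r u l F (√(1 - (l + r + τ)) • z) ∂(gI κ) := by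
  set m := min y (min x u) with hm
  have hm0 : 0 < m := lt_min hy (lt_min hx hu)
  have h2 := DD_nonneg h hm0 (by linarith : 0 ≤ l + r + τ) h1
  have h3 : ∫ z, uu m (1 - (l + r + τ)) F (√(1 - (l + r + τ)) • z) ∂(gI κ) ≤
      ∫ z, V3 y τ x r u l F (√(1 - (l + r + τ)) • z) ∂(gI κ) := by
    refine integral_mono (EG.smul' (c11_uu h hm0 _).eg _).integrable
      (EG.smul' (eg_V3 h hu hx hy τ r l) _).integrable fun z => ?_
    simp only
    rw [← V3_self h hm0 hτ hr hl]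
    exact V3_mono h hm0 ((min_le_right _ _).trans (min_le_right _ _)) hm0
      ((min_le_right _ _).trans (min_le_left _ _)) hm0 (min_le_left _ _) τ r l _
  unfold DD at h2
  linarith

/-- the mean of the value function and the common factor of the exponents -/
lemma int_V3_scale (h : C11 F D B L) (hc : Cv F) (hu : 0 < u) (hx : 0 < x) (hy : 0 < y)
    (hyu : y ≤ u) (hxu : x ≤ u) (hτ : 0 ≤ τ) (hr : 0 ≤ r) (hl : 0 ≤ l) (h1 : l + r + τ ≤ 1)
    {ρ : ℝ} (hρ : 0 < ρ) (hR : 0 < R) (hδ : 0 ≤ δ) (hδ1 : δ ≤ 1) (hrR : ρ - 1 ≤ δ * (R - 1)) :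
    ∫ z, V3 (ρ * y) τ (ρ * x) r (ρ * u) l F (√(1 - (l + r + τ)) • z) ∂(gI κ) ≤
      ∫ z, V3 y τ x r u l F (√(1 - (l + r + τ)) • z) ∂(gI κ) +
        δ * DD (R * u) (l + r + τ) F := by
  have hRu : 0 < R * u := mul_pos hR hu
  have hRx : 0 < R * x := mul_pos hR hx
  have hRy : 0 < R * y := mul_pos hR hy
  have hru : 0 < ρ * u := mul_pos hρ hu
  have hrx : 0 < ρ * x := mul_pos hρ hx
  have hry : 0 < ρ * y := mul_pos hρ hy
  have e0 : ρ * u ≤ (1 - δ) * u + δ * (R * u) := by nlinarith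
  have e1 : ρ * y ≤ (1 - δ) * y + δ * (R * y) := by nlinarith
  have e2 : ρ * x ≤ (1 - δ) * x + δ * (R * x) := by nlinarith
  have key : ∀ z : κ → ℝ, V3 (ρ * y) τ (ρ * x) r (ρ * u) l F z ≤
      (1 - δ) * V3 y τ x r u l F z + δ * V3 (R * u) τ (R * u) r (R * u) l F z := by
    intro z
    have k1 := V3_mono h hru e0 hrx e2 hry e1 τ r l z
    have k2 := V3_conv h hc hu hRu hx hRx hy hRy (sub_nonneg.2 hδ1) hδ (by ring) τ r l z z
    have k3 := V3_mono h hRu le_rfl hRx (mul_le_mul_of_nonneg_left hxu hR.le) hRy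
      (mul_le_mul_of_nonneg_left hyu hR.le) τ r l z
    have e3 : (1 - δ) • z + δ • z = z := by
      rw [← add_smul]
      simp
    rw [e3] at k2
    have k4 := mul_le_mul_of_nonneg_left k3 hδ
    linarith
  have i0 := EG.smul' (eg_V3 h hu hx hy τ r l) (√(1 - (l + r + τ)))
  have i1 := EG.smul' (eg_V3 h hRu hRu hRu τ r l) (√(1 - (l + r + τ)))
  have i2 := EG.smul' (eg_V3 h hru hrx hry τ r l) (√(1 - (l + r + τ)))
  have h2 : ∫ z, V3 (ρ * y) τ (ρ * x) r (ρ * u) l F (√(1 - (l + r + τ)) • z) ∂(gI κ) ≤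
      (1 - δ) * ∫ z, V3 y τ x r u l F (√(1 - (l + r + τ)) • z) ∂(gI κ) +
        δ * ∫ z, V3 (R * u) τ (R * u) r (R * u) l F (√(1 - (l + r + τ)) • z) ∂(gI κ) := by
    rw [← integral_const_mul, ← integral_const_mul,
      ← integral_add (i0.const_mul _).integrable (i1.const_mul _).integrable]
    exact integral_mono i2.integrable ((i0.const_mul _).add (i1.const_mul _)).integrable
      fun z => key _
  have e4 : ∫ z, V3 (R * u) τ (R * u) r (R * u) l F (√(1 - (l + r + τ)) • z) ∂(gI κ) =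
      DD (R * u) (l + r + τ) F + ∫ z, F z ∂(gI κ) := by
    simp_rw [V3_self h hRu hτ hr hl]
    unfold DD
    ring
  rw [e4] at h2
  have h3 := mean_le_V3 h hu hx hy hτ hr hl h1
  nlinarith

/-- **The exponential gap over the free base, three layers.** -/
theorem gap_V3 (h : C11 F D B L) (hc : Cv F) (hx1 : 0 < x1) (h1y : x1 ≤ y)
    (h1x : x1 ≤ x) (hyu : y ≤ u) (hxu : x ≤ u) (hθ : 0 < θ) (hθ1 : θ < 1) (hR : 0 < R)
    (hδ : 0 ≤ δ) (hδ1 : δ ≤ 1) (hδR : 1 / (1 - θ) - 1 ≤ δ * (R - 1)) (hτ : 0 ≤ τ) (hr : 0 ≤ r)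
    (hl : 0 ≤ l) (h1 : l + r + τ ≤ 1) :
    W (θ * x1) (√(1 - (l + r + τ))) (V3 y τ x r u l F) 0 -
        ∫ z, V3 y τ x r u l F (√(1 - (l + r + τ)) • z) ∂(gI κ) ≤
      θ * (W x1 1 F 0 - ∫ z, F z ∂(gI κ)) + δ * DD (R * u) (l + r + τ) F := by
  have hy : 0 < y := hx1.trans_le h1y
  have hx : 0 < x := hx1.trans_le h1x
  have hu : 0 < u := hx.trans_le hxu
  have hθ' : 0 < 1 - θ := by linarith
  set y' := (y - θ * x1) / (1 - θ) with hy'
  set x' := (x - θ * x1) / (1 - θ) with hx'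
  set u' := (u - θ * x1) / (1 - θ) with hu'
  have hy0 : 0 < y' := div_pos (by nlinarith) hθ'
  have hx0 : 0 < x' := div_pos (by nlinarith) hθ'
  have hu0 : 0 < u' := div_pos (by nlinarith) hθ'
  have ey : (1 - θ) * y' + θ * x1 = y := by
    rw [hy']
    field_simp
    ring
  have ex : (1 - θ) * x' + θ * x1 = x := by
    rw [hx']
    field_simp
    ring
  have eu : (1 - θ) * u' + θ * x1 = u := by
    rw [hu']
    field_simp
    ring
  obtain ⟨D0, B0, L0, cV⟩ := c11_V3 h hu hx hy τ r l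
  obtain ⟨D0', B0', L0', cV'⟩ := c11_V3 h hu0 hx0 hy0 τ r l
  have cu := c11_uu h hx1 (1 - (l + r + τ))
  have k1 : W (θ * x1) (√(1 - (l + r + τ))) (V3 y τ x r u l F) 0 ≤
      (1 - θ) * Mn (√(1 - (l + r + τ))) (V3 y' τ x' r u' l F) 0 +
        θ * W x1 (√(1 - (l + r + τ))) (uu x1 (1 - (l + r + τ)) F) 0 := by
    have k2 := layer0 (G := V3 y τ x r u l F) (G0 := V3 y' τ x' r u' l F)
      (G1 := uu x1 (1 - (l + r + τ)) F) cV cV'.lip cV'.B0 cu.lip cu.B0 (x1 := x1) (p := 1 - θ)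
      (q := θ) hx1 hθ'.le hθ (by ring) (fun w0 w1 => by
        have k3 := V3_conv h hc hu0 hx1 hx0 hx1 hy0 hx1 hθ'.le hθ.le (by ring) τ r l w0 w1
        rw [ex, ey, eu, V3_self h hx1 hτ hr hl w1] at k3
        exact k3) (√(1 - (l + r + τ))) 0 0
    simpa using k2
  have e1 : W x1 (√(1 - (l + r + τ))) (uu x1 (1 - (l + r + τ)) F) 0 = W x1 1 F 0 := by
    unfold uu
    refine W_W h.lip h.B0 hx1 ?_ 0
    rw [Real.sq_sqrt (by linarith), Real.sq_sqrt (by linarith)]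
    ring
  have e2 : Mn (√(1 - (l + r + τ))) (V3 y' τ x' r u' l F) 0 =
      ∫ z, V3 y' τ x' r u' l F (√(1 - (l + r + τ)) • z) ∂(gI κ) := by
    unfold Mn
    simp
  rw [e1, e2] at k1
  have k4 := mean_le_V3 h hu0 hx0 hy0 hτ hr hl h1
  have hρ : 0 < 1 / (1 - θ) := by positivity
  have k5 : ∫ z, V3 y' τ x' r u' l F (√(1 - (l + r + τ)) • z) ∂(gI κ) ≤
      ∫ z, V3 (1 / (1 - θ) * y) τ (1 / (1 - θ) * x) r (1 / (1 - θ) * u) l F
        (√(1 - (l + r + τ)) • z) ∂(gI κ) := by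
    refine integral_mono (EG.smul' (eg_V3 h hu0 hx0 hy0 τ r l) _).integrable
      (EG.smul' (eg_V3 h (mul_pos hρ hu) (mul_pos hρ hx) (mul_pos hρ hy) τ r l) _).integrable
      fun z => ?_
    refine V3_mono h hu0 ?_ hx0 ?_ hy0 ?_ τ r l _
    · rw [hu', one_div, inv_mul_eq_div]
      refine div_le_div_of_nonneg_right ?_ hθ'.le
      nlinarith
    · rw [hx', one_div, inv_mul_eq_div]
      refine div_le_div_of_nonneg_right ?_ hθ'.le
      nlinarith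
    · rw [hy', one_div, inv_mul_eq_div]
      refine div_le_div_of_nonneg_right ?_ hθ'.le
      nlinarith
  have k6 := int_V3_scale h hc hu hx hy hyu hxu hτ hr hl h1 hρ hR hδ hδ1 hδR
  nlinarith

/-- exponent `0` on the first layer of a value function of two layers, in the mean -/
lemma int_Mn (hU : EG U) (hτ : 0 ≤ τ) (h1 : s + τ ≤ 1) :
    ∫ z, Mn (√τ) U (√(1 - (s + τ)) • z) ∂(gI κ) = ∫ z, U (√(1 - s) • z) ∂(gI κ) := by
  have h2 := gI_rot hU (a := √(1 - (s + τ))) (b := √τ) (c := √(1 - s)) (by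
    rw [Real.sq_sqrt (by linarith), Real.sq_sqrt hτ, Real.sq_sqrt (by linarith)]
    ring) 0
  simp only [zero_add] at h2
  exact h2

/-- **The late piece**: raising the exponent of the last window from `x_*` to `x` costs at most
`2 ε D(2 x_*, l + r + τ) + ε D((x - x_*)/ε, l)`. -/
theorem late_le (h : C11 F D B L) (hc : Cv F) (hy : 0 < y) (hys : y ≤ xs) (hsx : xs < x)
    (hε : 0 < ε) (hε1 : ε ≤ 1 / 2) (hτ : 0 ≤ τ) (hr : 0 ≤ r) (hl : 0 ≤ l)
    (h1 : l + r + τ ≤ 1) :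
    ∫ z, V3 y τ xs r x l F (√(1 - (l + r + τ)) • z) ∂(gI κ) ≤
      ∫ z, V2 y τ xs (l + r) F (√(1 - (l + r + τ)) • z) ∂(gI κ) +
        (2 * ε * DD (2 * xs) (l + r + τ) F + ε * DD ((x - xs) / ε) l F) := by
  have hxs : 0 < xs := hy.trans_le hys
  have hx : 0 < x := hxs.trans hsx
  have h1ε : 0 < 1 - ε := by linarith
  have hμ : 0 < (x - xs) / ε := div_pos (by linarith) hε
  have hxe : 0 < xs / (1 - ε) := div_pos hxs h1ε
  have hye : 0 < y / (1 - ε) := div_pos hy h1ε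
  have ex : ε * ((x - xs) / ε) + (1 - ε) * (xs / (1 - ε)) = x := by
    field_simp
    ring
  have exs : (1 - ε) * (xs / (1 - ε)) = xs := by field_simp
  have ey : (1 - ε) * (y / (1 - ε)) = y := by field_simp
  -- the middle layer
  have cX := c11_uu h hx (1 - l)
  have c0 := c11_uu h hμ (1 - l)
  have c1 := c11_uu h hxe (1 - l)
  have m : ∀ w0 w1 : κ → ℝ, V2 xs r x l F (ε • w0 + (1 - ε) • w1) ≤
      ε * V0 r ((x - xs) / ε) l F w0 + (1 - ε) * V2 (xs / (1 - ε)) r (xs / (1 - ε)) l F w1 := by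
    intro w0 w1
    have k := layer0 (G := uu x (1 - l) F) (G0 := uu ((x - xs) / ε) (1 - l) F)
      (G1 := uu (xs / (1 - ε)) (1 - l) F) cX c0.lip c0.B0 c1.lip c1.B0 (x1 := xs / (1 - ε))
      (p := ε) (q := 1 - ε) hxe hε.le h1ε (by ring) (fun v0 v1 => by
        have k3 := uu_conv h hc hμ hxe hε.le h1ε.le (by ring) (1 - l) v0 v1
        rw [ex] at k3
        exact k3) (√r) w0 w1
    rw [exs] at k
    exact k
  -- the first layer
  obtain ⟨B2, L2, c2⟩ := c11_V2 h hx hxs r l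
  obtain ⟨B3, L3, c3⟩ := c11_V2 h hxe hxe r l
  have hl0 : LipB (V0 r ((x - xs) / ε) l F) _ := lipB_Mn c0.lip c0.B0 (√r)
  have k1 : ∀ z : κ → ℝ, V3 y τ xs r x l F z ≤ ε * Mn (√τ) (V0 r ((x - xs) / ε) l F) z +
      (1 - ε) * V2 (1 / (1 - ε) * y) τ (1 / (1 - ε) * xs) (l + r) F z := by
    intro z
    have k := layer0 (G := V2 xs r x l F) (G0 := V0 r ((x - xs) / ε) l F)
      (G1 := V2 (xs / (1 - ε)) r (xs / (1 - ε)) l F) c2 hl0 c0.B0 c3.lip c3.B0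
      (x1 := y / (1 - ε)) (p := ε) (q := 1 - ε) hye hε.le h1ε (by ring) m (√τ) z z
    have e3 : ε • z + (1 - ε) • z = z := by
      rw [← add_smul]
      simp
    rw [e3, ey] at k
    have e4 : W (y / (1 - ε)) (√τ) (V2 (xs / (1 - ε)) r (xs / (1 - ε)) l F) z =
        V2 (1 / (1 - ε) * y) τ (1 / (1 - ε) * xs) (l + r) F z := by
      have e5 := V3_tail (y := y / (1 - ε)) (τ := τ) h hxe hr hl z
      rw [one_div, inv_mul_eq_div, inv_mul_eq_div, ← e5]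
      rfl
    rw [e4] at k
    exact k
  have hρ : 0 < 1 / (1 - ε) := by positivity
  have i0 : EG fun z => Mn (√τ) (V0 r ((x - xs) / ε) l F) (√(1 - (l + r + τ)) • z) :=
    EG.smul' (EG.conv (eg_V0 h hμ r l) (√τ)) (√(1 - (l + r + τ)))
  have i1 := EG.smul' (eg_V2 (τ := τ) (s := l + r) h (mul_pos hρ hxs) (mul_pos hρ hy))
    (√(1 - (l + r + τ)))
  have i2 := EG.smul' (eg_V3 h hx hxs hy τ r l) (√(1 - (l + r + τ)))
  have k2 : ∫ z, V3 y τ xs r x l F (√(1 - (l + r + τ)) • z) ∂(gI κ) ≤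
      ε * ∫ z, Mn (√τ) (V0 r ((x - xs) / ε) l F) (√(1 - (l + r + τ)) • z) ∂(gI κ) +
      (1 - ε) * ∫ z, V2 (1 / (1 - ε) * y) τ (1 / (1 - ε) * xs) (l + r) F
        (√(1 - (l + r + τ)) • z) ∂(gI κ) := by
    rw [← integral_const_mul, ← integral_const_mul,
      ← integral_add (i0.const_mul _).integrable (i1.const_mul _).integrable]
    exact integral_mono i2.integrable ((i0.const_mul _).add (i1.const_mul _)).integrable
      fun z => k1 _
  have e6 : ∫ z, Mn (√τ) (V0 r ((x - xs) / ε) l F) (√(1 - (l + r + τ)) • z) ∂(gI κ) =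
      DD ((x - xs) / ε) l F + ∫ z, F z ∂(gI κ) := by
    rw [int_Mn (eg_V0 h hμ r l) hτ h1, int_V0 h hμ hr (by linarith)]
    unfold DD
    ring
  have k3 := int_V2_scale h hc hxs hy hys hτ (by linarith : 0 ≤ l + r) h1 hρ (R := 2)
    (δ := 2 * ε) (by norm_num) (by linarith) (by linarith) (by
      rw [sub_le_iff_le_add, div_le_iff₀ h1ε]
      nlinarith)
  have k4 := mean_le_V2 h hxs hy hτ (by linarith : 0 ≤ l + r) h1
  have k5 := DD_nonneg h (by linarith : 0 < 2 * xs) (by linarith : 0 ≤ l + r + τ) h1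
  rw [e6] at k2
  have k6 : (1 - ε) * ∫ z, V2 (1 / (1 - ε) * y) τ (1 / (1 - ε) * xs) (l + r) F
        (√(1 - (l + r + τ)) • z) ∂(gI κ) ≤ (1 - ε) *
      (∫ z, V2 y τ xs (l + r) F (√(1 - (l + r + τ)) • z) ∂(gI κ) +
        2 * ε * DD (2 * xs) (l + r + τ) F) := mul_le_mul_of_nonneg_left k3 h1ε.le
  have k7 : (1 - ε) * (2 * ε * DD (2 * xs) (l + r + τ) F) ≤
      2 * ε * DD (2 * xs) (l + r + τ) F := by
    have : 0 ≤ 2 * ε * DD (2 * xs) (l + r + τ) F := by positivity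
    nlinarith
  have k8 := mul_le_mul_of_nonneg_left k4 hε.le
  nlinarith

/-- **Up, three layers.** -/
theorem sa_V3_up (h : C11 F D B L) (hc : Cv F) (hx1 : 0 < x1) (h1y : x1 ≤ y)
    (h1x : x1 ≤ x) (hyu : y ≤ u) (hxu : x ≤ u) (hθ : 0 < θ) (hθ1 : θ < 1) (hR : 0 < R)
    (hδ : 0 ≤ δ) (hδ1 : δ ≤ 1) (hδR : 1 / (1 - θ) - 1 ≤ δ * (R - 1)) (hτ : 0 ≤ τ) (hr : 0 ≤ r)
    (hl : 0 ≤ l) (h1 : l + r + τ ≤ 1)
    (hE : θ * (W x1 1 F 0 - ∫ z, F z ∂(gI κ)) + δ * DD (R * u) (l + r + τ) F ≤ E)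
    (hq : EG q) (h0 : ∀ z, 0 ≤ q z) (hi : ∫ z, q z ∂(gI κ) = 1) :
    ∫ z, q z * V3 y τ x r u l F (√(1 - (l + r + τ)) • z) ∂(gI κ) ≤
      ∫ z, V3 y τ x r u l F (√(1 - (l + r + τ)) • z) ∂(gI κ) + (E + Hq q / (θ * x1)) := by
  have hy : 0 < y := hx1.trans_le h1y
  have hx : 0 < x := hx1.trans_le h1x
  have hu : 0 < u := hx.trans_le hxu
  obtain ⟨D0, B0, L0, cV⟩ := c11_V3 h hu hx hy τ r l
  have k := up_shift cV.lip cV.B0 (mul_pos hθ hx1) (√(1 - (l + r + τ))) 0 hq h0 hi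
  have g := gap_V3 h hc hx1 h1y h1x hyu hxu hθ hθ1 hR hδ hδ1 hδR hτ hr hl h1
  simp only [Mn_zero, zero_add] at k
  linarith

/-- **The gain with the late piece frozen, under every weight of the base position.** -/
theorem gain3_sa (h : C11 F D B L) (hc : Cv F) (hx1 : 0 < x1) (h1y : x1 ≤ y) (hys : y ≤ xs)
    (hsx : xs < x)
    (hθ : 0 < θ) (hθ1 : θ < 1) (hR : 0 < R) (hδ : 0 ≤ δ) (hδ1 : δ ≤ 1)
    (hδR : 1 / (1 - θ) - 1 ≤ δ * (R - 1)) (hτ : 0 ≤ τ) (hl : 0 ≤ l) (hls : l ≤ s) (hs : 0 < s)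
    (h1 : s + τ ≤ 1) (hε : 0 < ε) (hε1 : ε ≤ 1 / 2)
    (hE : θ * (W x1 1 F 0 - ∫ z, F z ∂(gI κ)) + δ * DD (R * x) (s + τ) F ≤ E)
    (hS : 0 < S) (hES : 2 * E / (θ * x1) ≤ S ^ 2)
    (hconc : s * DD xs (s + τ) F ≤ (s + τ) * DD xs s F)
    (hq : EG q) (h0 : ∀ z, 0 ≤ q z) (hi : ∫ z, q z ∂(gI κ) = 1) :
    DD x s F - (1 + τ / s) * DD xs s F - (2 * ε * DD (2 * xs) (s + τ) F +
        ε * DD ((x - xs) / ε) l F) - esa E S (Hq q) (θ * x1) ≤
      ∫ z, q z * (V2 y τ x s F (√(1 - (s + τ)) • z) -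
        V3 y τ xs (s - l) x l F (√(1 - (s + τ)) • z)) ∂(gI κ) := by
  obtain ⟨r, hr⟩ : ∃ r, s = l + r := ⟨s - l, by ring⟩
  subst hr
  have er : l + r - l = r := by ring
  rw [er]
  have hr0 : 0 ≤ r := by linarith
  have hy : 0 < y := hx1.trans_le h1y
  have hxs : 0 < xs := hy.trans_le hys
  have hx : 0 < x := hxs.trans hsx
  have hyx : y ≤ x := hys.trans hsx.le
  have dn := sa_V2_dn h hc hx1 h1y hyx hθ hθ1 hR hδ hδ1 hδR hτ hs.le h1 hE hS hES hq h0 hi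
  have up := sa_V3_up h hc hx1 h1y (h1y.trans hys) hyx hsx.le hθ hθ1 hR hδ hδ1 hδR hτ hr0 hl h1
    hE hq h0 hi
  have e4 : ∫ z, V0 τ x (l + r) F (√(1 - (l + r + τ)) • z) ∂(gI κ) =
      DD x (l + r) F + ∫ z, F z ∂(gI κ) := by
    rw [int_V0 h hx hτ h1]
    unfold DD
    ring
  have i3 : ∫ z, V0 τ x (l + r) F (√(1 - (l + r + τ)) • z) ∂(gI κ) ≤
      ∫ z, V2 y τ x (l + r) F (√(1 - (l + r + τ)) • z) ∂(gI κ) :=
    integral_mono (EG.smul' (eg_V0 h hx τ _) _).integrable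
      (EG.smul' (eg_V2 h hx hy τ _) _).integrable fun z => V0_le_V2 h hx hy τ _ _
  have i4 : ∫ z, V2 y τ xs (l + r) F (√(1 - (l + r + τ)) • z) ∂(gI κ) ≤
      ∫ z, V2 xs τ xs (l + r) F (√(1 - (l + r + τ)) • z) ∂(gI κ) :=
    integral_mono (EG.smul' (eg_V2 h hxs hy τ _) _).integrable
      (EG.smul' (eg_V2 h hxs hxs τ _) _).integrable fun z =>
        V2_mono h hxs le_rfl hy hys τ _ _
  rw [int_V2_self h hxs hτ hs.le] at i4
  have i5 := late_le h hc hy hys hsx hε hε1 hτ hr0 hl h1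
  have e5 : DD xs (l + r + τ) F ≤ (1 + τ / (l + r)) * DD xs (l + r) F := by
    have e6 : (1 + τ / (l + r)) * DD xs (l + r) F = (l + r + τ) * DD xs (l + r) F / (l + r) := by
      field_simp
    rw [e6, le_div_iff₀ hs]
    linarith
  have j0 := hq.mul (EG.smul' (eg_V2 (τ := τ) (s := l + r) h hx hy) (√(1 - (l + r + τ))))
  have j1 := hq.mul (EG.smul' (eg_V3 h hx hxs hy τ r l) (√(1 - (l + r + τ))))
  have e7 : ∫ z, q z * (V2 y τ x (l + r) F (√(1 - (l + r + τ)) • z) -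
      V3 y τ xs r x l F (√(1 - (l + r + τ)) • z)) ∂(gI κ) =
      ∫ z, q z * V2 y τ x (l + r) F (√(1 - (l + r + τ)) • z) ∂(gI κ) -
        ∫ z, q z * V3 y τ xs r x l F (√(1 - (l + r + τ)) • z) ∂(gI κ) := by
    simp_rw [mul_sub]
    exact integral_sub j0.integrable j1.integrable
  rw [e7]
  unfold esa
  linarith

end gen

end Vale.Agent.P146.H767
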