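import Vale.Agent.P146.H767.Scal
import Vale.Agent.P146.H785.GridD

/-!
# P146: the calculus of the profile functional

The profile functional `PF F m σ N` of finitely many layers (innermost first, exponents `m i`,
standard deviations `σ i`) over a base layer with the exponent `0`; the law of the path; the mean
square gradients `Qp`.  Monotonicity and convexity in the exponents, first variation.
-/

open MeasureTheory ProbabilityTheory

namespace Vale.Agent.P146.H767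

open Vale.Agent.P157.Lv Vale.Agent.P146.H425
open Vale.Agent.P146.R1
open Vale.Agent.P146.H785

set_option linter.unusedSectionVars false

section gen

variable {κ : Type} [Fintype κ] {F φ ψ : (κ → ℝ) → ℝ} {D : κ → (κ → ℝ) → ℝ} {B L x : ℝ}
  {m m' m0 m1 σ : ℕ → ℝ} {N N0 N1 i l : ℕ}

/-- The base time. -/
noncomputable def tB (σ : ℕ → ℝ) (N : ℕ) : ℝ := 1 - ∑ i ∈ Finset.range N, σ i ^ 2

/-- The profile functional. -/
noncomputable def PF (F : (κ → ℝ) → ℝ) (m σ : ℕ → ℝ) (N : ℕ) : ℝ :=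
  ∫ z, FD F m σ N (√(tB σ N) • z) ∂(gI κ)

/-- The mean of a function of the position before the layers `0 .. i-1`. -/
noncomputable def EP (F : (κ → ℝ) → ℝ) (m σ : ℕ → ℝ) (N i : ℕ) (φ : (κ → ℝ) → ℝ) : ℝ :=
  ∫ z, oD F m σ N i φ (√(tB σ N) • z) ∂(gI κ)

/-- The mean square of the gradient before the layers `0 .. i-1`. -/
noncomputable def Qp (F : (κ → ℝ) → ℝ) (D : κ → (κ → ℝ) → ℝ) (m σ : ℕ → ℝ) (N i : ℕ) : ℝ :=
  EP F m σ N i (gD F D m σ i)

lemma tB_zero (σ : ℕ → ℝ) : tB σ 0 = 1 := by simp [tB]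

lemma tB_succ (σ : ℕ → ℝ) (N : ℕ) : tB σ (N + 1) = tB σ N - σ N ^ 2 := by
  unfold tB
  rw [Finset.sum_range_succ]
  ring

lemma PF_zero (F : (κ → ℝ) → ℝ) (m σ : ℕ → ℝ) : PF F m σ 0 = ∫ z, F z ∂(gI κ) := by
  unfold PF
  rw [tB_zero, FD_zero]
  simp

lemma eg_FD (h : C11 F D B L) (hm : ∀ i < N, 0 < m i) : EG (FD F m σ N) :=
  (c11_FD (σ := σ) h N hm).eg

lemma eg_PF (h : C11 F D B L) (hm : ∀ i < N, 0 < m i) (c : ℝ) :
    EG fun z => FD F m σ N (c • z) := EG.smul' (eg_FD h hm) c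

/-! ### monotonicity -/

theorem FD_mono (h : C11 F D B L) (hm : ∀ i < N, 0 < m i) (hle : ∀ i < N, m i ≤ m' i)
    (y : κ → ℝ) : FD F m σ N y ≤ FD F m' σ N y := by
  induction N generalizing y with
  | zero => exact le_rfl
  | succ N ih =>
    have hm0 : ∀ i < N, 0 < m i := fun i hi => hm i (hi.trans (Nat.lt_succ_self N))
    have hle0 : ∀ i < N, m i ≤ m' i := fun i hi => hle i (hi.trans (Nat.lt_succ_self N))
    have hm1 : ∀ i < N, 0 < m' i := fun i hi => (hm0 i hi).trans_le (hle0 i hi)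
    have hN := hm N (Nat.lt_succ_self N)
    have hN' := hle N (Nat.lt_succ_self N)
    have c0 := c11_FD (σ := σ) h N hm0
    have c1 := c11_FD (σ := σ) h N hm1
    rw [FD_succ, FD_succ]
    exact (H941.W_mono_exp c0.lip c0.B0 hN hN' y).trans
      (H941.W_mono c0.lip c0.B0 c1.lip c1.B0 (hN.trans_le hN') (ih hm0 hle0) y)

theorem PF_mono (h : C11 F D B L) (hm : ∀ i < N, 0 < m i) (hle : ∀ i < N, m i ≤ m' i) :
    PF F m σ N ≤ PF F m' σ N :=
  integral_mono (eg_PF h hm _).integrable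
    (eg_PF h (fun i hi => (hm i hi).trans_le (hle i hi)) _).integrable
    fun _ => FD_mono h hm hle _

/-- the rotation of the base -/
lemma base_rot {f : (κ → ℝ) → ℝ} (hf : EG f) {a b c : ℝ} (h : a ^ 2 + b ^ 2 = c ^ 2) :
    ∫ z, (∫ w, f (a • z + b • w) ∂(gI κ)) ∂(gI κ) = ∫ z, f (c • z) ∂(gI κ) := by
  have := gI_rot hf h 0
  simp only [zero_add] at this
  exact this

/-- **One more outer layer.** -/
theorem PF_add (h : C11 F D B L) (hm : ∀ i < N + 1, 0 < m i) (ht : 0 ≤ tB σ (N + 1)) :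
    PF F m σ N ≤ PF F m σ (N + 1) := by
  have hm0 : ∀ i < N, 0 < m i := fun i hi => hm i (hi.trans (Nat.lt_succ_self N))
  have c0 := c11_FD (σ := σ) h N hm0
  have hN := hm N (Nat.lt_succ_self N)
  have c1 := c11_FD (σ := σ) h (N + 1) hm
  have hs := tB_succ σ N
  have hab : √(tB σ (N + 1)) ^ 2 + σ N ^ 2 = √(tB σ N) ^ 2 := by
    rw [Real.sq_sqrt ht, Real.sq_sqrt (by rw [hs] at ht; nlinarith [sq_nonneg (σ N)]), hs]
    ring
  unfold PF
  rw [← base_rot c0.eg hab]
  refine integral_mono (EG.smul' (EG.conv c0.eg (σ N)) _).integrable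
    (EG.smul' c1.eg _).integrable fun z => ?_
  exact mean_le_W c0 hN (σ N) _

theorem mean_le_PF (h : C11 F D B L) (hm : ∀ i < N, 0 < m i) (ht : 0 ≤ tB σ N) :
    ∫ z, F z ∂(gI κ) ≤ PF F m σ N := by
  induction N with
  | zero => rw [PF_zero]
  | succ N ih =>
    have hs := tB_succ σ N
    exact (ih (fun i hi => hm i (hi.trans (Nat.lt_succ_self N)))
      (by rw [hs] at ht; nlinarith [sq_nonneg (σ N)])).trans (PF_add h hm ht)

/-- layers of one exponent -/
lemma FD_const (h : LipB F B) (hB : 0 ≤ B) (hx : 0 < x) (y : κ → ℝ) :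
    FD F (fun _ => x) σ N y = W x (√(∑ i ∈ Finset.range N, σ i ^ 2)) F y := by
  induction N generalizing y with
  | zero => simp [FD_zero, W_zero hx]
  | succ N ih =>
    rw [FD_succ]
    have e : FD F (fun _ => x) σ N = W x (√(∑ i ∈ Finset.range N, σ i ^ 2)) F := funext ih
    rw [e]
    refine W_W h hB hx ?_ y
    rw [Real.sq_sqrt (Finset.sum_nonneg fun _ _ => sq_nonneg _),
      Real.sq_sqrt (Finset.sum_nonneg fun _ _ => sq_nonneg _), Finset.sum_range_succ]
    ring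

/-- **The profile is at most the constant profile.** -/
theorem PF_le_W (h : C11 F D B L) (hm : ∀ i < N, 0 < m i) (hx : 0 < x)
    (hle : ∀ i < N, m i ≤ x) (ht : 0 ≤ tB σ N) : PF F m σ N ≤ W x 1 F 0 := by
  have h1 : PF F m σ N ≤ PF F (fun _ => x) σ N := PF_mono h hm hle
  refine h1.trans ?_
  unfold PF
  have e : ∀ y : κ → ℝ, FD F (fun _ => x) σ N y = W x (√(∑ i ∈ Finset.range N, σ i ^ 2)) F y :=
    fun y => FD_const h.lip h.B0 hx y
  simp_rw [e]
  refine mean_W_le h hx ?_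
  rw [Real.sq_sqrt ht, Real.sq_sqrt (Finset.sum_nonneg fun _ _ => sq_nonneg _)]
  unfold tB
  ring

/-! ### convexity -/

/-- **Joint convexity of the deep functional in the exponents and the position.** -/
theorem FD_jc (h : C11 F D B L) (hc : Cv F) (h0 : ∀ i < N, 0 < m0 i) (h1 : ∀ i < N, 0 < m1 i)
    {p q : ℝ} (hp : 0 ≤ p) (hq : 0 ≤ q) (hpq : p + q = 1) (y0 y1 : κ → ℝ) :
    FD F (p • m0 + q • m1) σ N (p • y0 + q • y1) ≤
      p * FD F m0 σ N y0 + q * FD F m1 σ N y1 := by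
  induction N generalizing y0 y1 with
  | zero => exact hc p q hp hq hpq y0 y1
  | succ N ih =>
    have h0' : ∀ i < N, 0 < m0 i := fun i hi => h0 i (hi.trans (Nat.lt_succ_self N))
    have h1' : ∀ i < N, 0 < m1 i := fun i hi => h1 i (hi.trans (Nat.lt_succ_self N))
    have a0 := h0 N (Nat.lt_succ_self N)
    have a1 := h1 N (Nat.lt_succ_self N)
    have hpos : ∀ i < N, 0 < (p • m0 + q • m1) i := by
      intro i hi
      simp only [Pi.add_apply, Pi.smul_apply, smul_eq_mul]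
      have b0 := h0' i hi
      have b1 := h1' i hi
      rcases hp.eq_or_lt with hp0 | hp0
      · have : q = 1 := by linarith
        subst this
        rw [← hp0]
        simpa using b1
      · have : 0 ≤ q * m1 i := by positivity
        have : 0 < p * m0 i := by positivity
        linarith
    have c0 := c11_FD (σ := σ) h N h0'
    have c1 := c11_FD (σ := σ) h N h1'
    have cc := c11_FD (σ := σ) h N hpos
    rw [FD_succ, FD_succ, FD_succ]
    have e : (p • m0 + q • m1) N = p * m0 N + q * m1 N := by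
      simp only [Pi.add_apply, Pi.smul_apply, smul_eq_mul]
    rw [e]
    exact layer_b cc c0.lip c0.B0 c1.lip c1.B0 a0 a1 hp hq hpq (ih h0' h1') (σ N) y0 y1

lemma comb_pos {p q : ℝ} (hp : 0 ≤ p) (hq : 0 ≤ q) (hpq : p + q = 1) {a b : ℝ} (ha : 0 < a)
    (hb : 0 < b) : 0 < p * a + q * b := by
  rcases hp.eq_or_lt with hp0 | hp0
  · have : q = 1 := by linarith
    subst this
    rw [← hp0]
    simpa using hb
  · have : 0 ≤ q * b := by positivity
    have : 0 < p * a := by positivity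
    linarith

theorem PF_conv (h : C11 F D B L) (hc : Cv F) (h0 : ∀ i < N, 0 < m0 i) (h1 : ∀ i < N, 0 < m1 i)
    {p q : ℝ} (hp : 0 ≤ p) (hq : 0 ≤ q) (hpq : p + q = 1) :
    PF F (p • m0 + q • m1) σ N ≤ p * PF F m0 σ N + q * PF F m1 σ N := by
  unfold PF
  have hpos : ∀ i < N, 0 < (p • m0 + q • m1) i := fun i hi =>
    comb_pos hp hq hpq (h0 i hi) (h1 i hi)
  rw [← integral_const_mul, ← integral_const_mul,
    ← integral_add ((eg_PF h h0 _).const_mul p).integrable ((eg_PF h h1 _).const_mul q).integrable]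
  refine integral_mono (eg_PF h hpos _).integrable
    (((eg_PF h h0 _).const_mul p).add ((eg_PF h h1 _).const_mul q)).integrable fun z => ?_
  have := FD_jc (σ := σ) h hc h0 h1 hp hq hpq (√(tB σ N) • z) (√(tB σ N) • z)
  rw [← add_smul, hpq, one_smul] at this
  exact this

theorem PF_convexOn (h : C11 F D B L) (hc : Cv F) (σ : ℕ → ℝ) (N : ℕ) :
    ConvexOn ℝ {m : ℕ → ℝ | ∀ i < N, 0 < m i} fun m => PF F m σ N := by
  refine ⟨?_, fun m0 h0 m1 h1 p q hp hq hpq => ?_⟩
  · intro m0 h0 m1 h1 p q hp hq hpq i hi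
    exact comb_pos hp hq hpq (h0 i hi) (h1 i hi)
  · exact PF_conv h hc h0 h1 hp hq hpq

/-! ### the law of the path -/

lemma mpos {hN : i ≤ N} (hm : ∀ j < N, 0 < m j) : ∀ j < i, 0 < m j :=
  fun j hj => hm j (hj.trans_le hN)

lemma mpos' (hm : ∀ j < N, 0 < m j) (i : ℕ) : ∀ j < N - i, 0 < m (i + j) :=
  fun j hj => hm _ (by omega)

lemma bm_oD (h : C11 F D B L) (hm : ∀ j < N, 0 < m j) (hi : i ≤ N) (hφ : Bm φ) :
    Bm (oD F m σ N i φ) :=
  Bm.TD (lip_FD h.lip h.B0 (mpos (hN := hi) hm)) h.B0 (mpos' hm i) hφ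

lemma Bm.smul' {φ : (κ → ℝ) → ℝ} (hφ : Bm φ) (c : ℝ) : Bm fun z => φ (c • z) := by
  obtain ⟨hm, C, hC⟩ := hφ
  exact ⟨hm.comp (by fun_prop), C, fun y => hC _⟩

lemma EP_mono (h : C11 F D B L) (hm : ∀ j < N, 0 < m j) (hi : i ≤ N) (hφ : Bm φ) (hψ : Bm ψ)
    (hle : ∀ y, φ y ≤ ψ y) : EP F m σ N i φ ≤ EP F m σ N i ψ :=
  integral_mono (Bm.smul' (bm_oD h hm hi hφ) _).eg.integrable
    (Bm.smul' (bm_oD h hm hi hψ) _).eg.integrable fun _ =>
      TD_mono' (lip_FD h.lip h.B0 (mpos (hN := hi) hm)) h.B0 (mpos' hm i) hφ hψ hle _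

lemma EP_const (h : C11 F D B L) (hm : ∀ j < N, 0 < m j) (hi : i ≤ N) (c : ℝ) :
    EP F m σ N i (fun _ => c) = c := by
  unfold EP oD
  have : ∀ z : κ → ℝ, TD (FD F m σ i) (fun j => m (i + j)) (fun j => σ (i + j)) (fun _ => c) (N - i)
      (√(tB σ N) • z) = c := fun z =>
    TD_const' (lip_FD h.lip h.B0 (mpos (hN := hi) hm)) h.B0 (mpos' hm i) c _
  simp_rw [this]
  simp

lemma EP_const_mul (c : ℝ) (φ : (κ → ℝ) → ℝ) :
    EP F m σ N i (fun z => c * φ z) = c * EP F m σ N i φ := by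
  unfold EP oD
  rw [← integral_const_mul]
  refine integral_congr_ae (Filter.Eventually.of_forall fun z => ?_)
  exact TD_const_mul' c φ _

lemma EP_add (h : C11 F D B L) (hm : ∀ j < N, 0 < m j) (hi : i ≤ N) (hφ : Bm φ) (hψ : Bm ψ) :
    EP F m σ N i (fun z => φ z + ψ z) = EP F m σ N i φ + EP F m σ N i ψ := by
  unfold EP
  rw [← integral_add (Bm.smul' (bm_oD h hm hi hφ) _).eg.integrable
    (Bm.smul' (bm_oD h hm hi hψ) _).eg.integrable]
  refine integral_congr_ae (Filter.Eventually.of_forall fun z => ?_)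
  exact TD_add' (lip_FD h.lip h.B0 (mpos (hN := hi) hm)) h.B0 (mpos' hm i) hφ hψ _

lemma EP_nonneg (h : C11 F D B L) (hm : ∀ j < N, 0 < m j) (hi : i ≤ N) (hφ : Bm φ)
    (h0 : ∀ y, 0 ≤ φ y) : 0 ≤ EP F m σ N i φ := by
  rw [← EP_const (σ := σ) h hm hi 0]
  exact EP_mono h hm hi (Bm.const 0) hφ h0

/-- one layer of the path -/
lemma EP_succ (hl : l < N) (φ : (κ → ℝ) → ℝ) :
    EP F m σ N l φ = EP F m σ N (l + 1) (Ax (m l) (σ l) (FD F m σ l) φ) := by
  unfold EP
  rw [oD_succ F m σ φ hl]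

/-- the squared gradient is at most the mean of the next one -/
lemma gD_succ_le (h : C11 F D B L) (hm : ∀ j < N, 0 < m j) (hl : l < N) (y : κ → ℝ) :
    gD F D m σ (l + 1) y ≤ Ax (m l) (σ l) (FD F m σ l) (gD F D m σ l) y := by
  have hm' : ∀ j < l, 0 < m j := fun j hj => hm j (hj.trans hl)
  have hc := c11_FD (σ := σ) h l hm'
  have hg : ∀ e, EG (TD F m σ (D e) l) := fun e => eg_TD h (h.eg_D e) l hm'
  unfold gD
  have e2 : (fun z => ∑ e, TD F m σ (D e) l z ^ 2) =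
      fun z => ∑ e, TD F m σ (D e) l z * TD F m σ (D e) l z := by
    funext z
    exact Finset.sum_congr rfl fun e _ => pow_two _
  rw [e2, Ax_sum hc.lip hc.B0 Finset.univ (fun e _ => (hg e).mul (hg e))]
  exact Finset.sum_le_sum fun e _ => Ax_sq_le hc.lip hc.B0 (hg e) _ _ y

/-- **The squared gradient is a submartingale.** -/
theorem Qp_mono (h : C11 F D B L) (hm : ∀ j < N, 0 < m j) (hl : l < N) :
    Qp F D m σ N (l + 1) ≤ Qp F D m σ N l := by
  have hm' : ∀ j < l, 0 < m j := fun j hj => hm j (hj.trans hl)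
  have hm'' : ∀ j < l + 1, 0 < m j := fun j hj => hm j (by omega)
  have hc := c11_FD (σ := σ) h l hm'
  unfold Qp
  rw [EP_succ hl (gD F D m σ l)]
  exact EP_mono h hm (by omega) (bm_gD h hm'') ((bm_gD h hm').Ax hc.lip hc.B0 _ _)
    fun y => gD_succ_le h hm hl y

lemma Qp_nonneg (h : C11 F D B L) (hm : ∀ j < N, 0 < m j) (hi : i ≤ N) :
    0 ≤ Qp F D m σ N i :=
  EP_nonneg h hm hi (bm_gD h (mpos (hN := hi) hm)) fun _ => Finset.sum_nonneg fun _ _ =>
    sq_nonneg _

theorem Qp_anti (h : C11 F D B L) (hm : ∀ j < N, 0 < m j) {a b : ℕ} (hab : a ≤ b) (hb : b ≤ N) :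
    Qp F D m σ N b ≤ Qp F D m σ N a := by
  induction b, hab using Nat.le_induction with
  | base => exact le_rfl
  | succ b hab ih => exact (Qp_mono h hm (by omega)).trans (ih (by omega))

end gen

end Vale.Agent.P146.H767
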