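import Vale.Agent.P146.H767.Prof

/-!
# P146: the first variation of the profile functional
-/

open MeasureTheory ProbabilityTheory

namespace Vale.Agent.P146.H767

open Vale.Agent.P157.Lv Vale.Agent.P146.H425
open Vale.Agent.P146.R1
open Vale.Agent.P146.H785

set_option linter.unusedSectionVars false

section gen

variable {κ : Type} [Fintype κ] {F U X φ ψ : (κ → ℝ) → ℝ} {D : κ → (κ → ℝ) → ℝ} {B B' L x h : ℝ}
  {m m' m0 m1 σ : ℕ → ℝ} {N N0 N1 i l : ℕ}

lemma exists_low (hm : ∀ j < i, 0 < m j) : ∃ a : ℝ, 0 < a ∧ a ≤ 1 ∧ ∀ j < i, a ≤ m j := by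
  induction i with
  | zero => exact ⟨1, one_pos, le_rfl, fun j hj => absurd hj (Nat.not_lt_zero j)⟩
  | succ i ih =>
    obtain ⟨a, ha, ha1, h⟩ := ih fun j hj => hm j (hj.trans (Nat.lt_succ_self i))
    refine ⟨min a (m i), lt_min ha (hm i (Nat.lt_succ_self i)), (min_le_left _ _).trans ha1,
      fun j hj => ?_⟩
    rcases Nat.lt_succ_iff_lt_or_eq.1 hj with h1 | h1
    · exact (min_le_left _ _).trans (h j h1)
    · rw [h1]; exact min_le_right _ _

/-- **The perturbed functional is at least the mean of the perturbation.** -/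
lemma FD_low0 (h : LipB U B) (hB : 0 ≤ B) (h' : LipB (fun z => U z + X z) B') (hB' : 0 ≤ B')
    (hX : Bm X) (hm : ∀ j < i, 0 < m j) (y : κ → ℝ) :
    FD U m σ i y + TD U m σ X i y ≤ FD (fun z => U z + X z) m σ i y := by
  obtain ⟨a, ha, -, hma⟩ := exists_low hm
  have h1 := FD_lower (σ := σ) h hB h' hB' hX ha hma y
  set c := TD U m σ X i y with hc
  have h2 : Real.exp (a * c) ≤ TD U m σ (fun z => Real.exp (a * X z)) i y := by
    have h3 := TD_mono' (σ := σ) h hB hm
      (φ := fun z => (Real.exp (a * c) * a) * X z + Real.exp (a * c) * (1 - a * c))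
      ((hX.const_mul _).add (Bm.const _)) (Bm.exp (hX.const_mul a)) (fun z => by
        have h4 := Real.add_one_le_exp (a * X z - a * c)
        have h5 := mul_le_mul_of_nonneg_left h4 (Real.exp_pos (a * c)).le
        rw [← Real.exp_add, add_sub_cancel] at h5
        refine le_trans (le_of_eq ?_) h5
        ring) y
    rw [TD_add' h hB hm (hX.const_mul _) (Bm.const _), TD_const_mul', TD_const' h hB hm,
      ← hc] at h3
    refine le_trans (le_of_eq ?_) h3
    ring
  have h6 := Real.exp_le_exp.1 (h2.trans h1)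
  have h7 := le_of_mul_le_mul_left h6 ha
  linarith

section var

variable (h1 : C11 F D B L) (hcv : Cv F) (hm : ∀ j < N, 0 < m j) (hl : l < N) (hh : 0 ≤ h)
include h1 hcv hm hl hh

/-- **The value at a larger exponent of one layer, from below.** -/
theorem PF_low : h / 2 * (σ l ^ 2 * Qp F D m σ N (l + 1)) ≤
    PF F (ups m l h) σ N - PF F m σ N := by
  have hm' : ∀ j < l, 0 < m j := fun j hj => hm j (hj.trans hl)
  have hm'' : ∀ j < l + 1, 0 < m j := fun j hj => hm j (by omega)
  have hl0 := hm l hl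
  have hc := c11_FD (σ := σ) h1 l hm'
  have hcc := cv_FD (σ := σ) h1 hcv l hm'
  have hup : ∀ j < N, 0 < ups m l h j := by
    intro j hj
    unfold ups
    rcases eq_or_ne j l with he | he
    · rw [he, Function.update_self]; linarith
    · rw [Function.update_of_ne he]; exact hm j hj
  have l1 : LipB (W (m l) (σ l) (FD F m σ l)) B := hc.lip.W hc.B0 hl0
  have l2 : LipB (fun z => W (m l) (σ l) (FD F m σ l) z + Xi (m l) h (σ l) (FD F m σ l) z) B := by
    rw [add_Xi]
    exact hc.lip.W hc.B0 (by linarith)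
  have key : ∀ y : κ → ℝ, FD F m σ N y + oD F m σ N (l + 1)
      (fun z => h / 2 * σ l ^ 2 * gD F D m σ (l + 1) z) y ≤ FD F (ups m l h) σ N y := by
    intro y
    have e1 := ups_sub F m σ h hl y
    have e2 := FD_low0 (m := fun t => m (l + 1 + t)) (σ := fun t => σ (l + 1 + t))
      (i := N - (l + 1)) l1 hc.B0 l2 hc.B0 (bm_Xi hc hcc hl0 hh (σ l)) (mpos' hm (l + 1)) y
    rw [add_Xi] at e2
    have e3 : oD F m σ N (l + 1) (fun z => h / 2 * σ l ^ 2 * gD F D m σ (l + 1) z) y ≤
        TD (W (m l) (σ l) (FD F m σ l)) (fun t => m (l + 1 + t)) (fun t => σ (l + 1 + t))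
          (Xi (m l) h (σ l) (FD F m σ l)) (N - (l + 1)) y := by
      refine TD_mono' l1 hc.B0 (mpos' hm (l + 1)) ((bm_gD h1 hm'').const_mul _)
        (bm_Xi hc hcc hl0 hh (σ l)) (fun z => ?_) y
      have e4 := gL_le_Xi hc hcc hl0 hh (σ l) z
      refine le_trans (le_of_eq ?_) e4
      unfold gL
      rw [mul_assoc]
      rfl
    unfold In at e1
    linarith
  have hb : Bm (oD F m σ N (l + 1) (fun z => h / 2 * σ l ^ 2 * gD F D m σ (l + 1) z)) :=
    bm_oD h1 hm (by omega) ((bm_gD h1 hm'').const_mul _)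
  have h3 : ∫ z, (FD F m σ N (√(tB σ N) • z) + oD F m σ N (l + 1)
      (fun z => h / 2 * σ l ^ 2 * gD F D m σ (l + 1) z) (√(tB σ N) • z)) ∂(gI κ) ≤
      PF F (ups m l h) σ N :=
    integral_mono ((eg_PF h1 hm _).integrable.add (Bm.smul' hb _).eg.integrable)
      (eg_PF h1 hup _).integrable fun z => key _
  rw [integral_add (eg_PF h1 hm _).integrable (Bm.smul' hb _).eg.integrable] at h3
  have h4 : ∫ z, oD F m σ N (l + 1) (fun z => h / 2 * σ l ^ 2 * gD F D m σ (l + 1) z)
      (√(tB σ N) • z) ∂(gI κ) = h / 2 * σ l ^ 2 * Qp F D m σ N (l + 1) :=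
    EP_const_mul (N := N) (i := l + 1) (h / 2 * σ l ^ 2) (gD F D m σ (l + 1))
  rw [h4] at h3
  unfold PF at h3 ⊢
  linarith

/-- **The value at a smaller exponent of one layer, from below.** -/
theorem PF_up (hhl : h < m l) : PF F m σ N - PF F (ups m l (-h)) σ N ≤
    h / 2 * (σ l ^ 2 * Qp F D m σ N l) := by
  have hm' : ∀ j < l, 0 < m j := fun j hj => hm j (hj.trans hl)
  have hm'' : ∀ j < l + 1, 0 < m j := fun j hj => hm j (by omega)
  have hl0 := hm l hl
  have hl1 : 0 < m l - h := by linarith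
  have hc := c11_FD (σ := σ) h1 l hm'
  have hcc := cv_FD (σ := σ) h1 hcv l hm'
  have hup : ∀ j < N, 0 < ups m l (-h) j := by
    intro j hj
    unfold ups
    rcases eq_or_ne j l with he | he
    · rw [he, Function.update_self]; linarith
    · rw [Function.update_of_ne he]; exact hm j hj
  have l1 : LipB (W (m l) (σ l) (FD F m σ l)) B := hc.lip.W hc.B0 hl0
  have key : ∀ y : κ → ℝ, FD F m σ N y ≤ FD F (ups m l (-h)) σ N y + oD F m σ N (l + 1)
      (fun z => h / 2 * σ l ^ 2 * Ax (m l) (σ l) (FD F m σ l) (gD F D m σ l) z) y := by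
    intro y
    have e1 := ups_neg_sub F m σ h hl y
    have e2 := in_up (m := fun t => m (l + 1 + t)) (σ := fun t => σ (l + 1 + t))
      (i := N - (l + 1)) (s := σ l) (h := h) hc hcc hl1 hh (mpos' hm (l + 1)) y
    rw [sub_add_cancel] at e2
    have e3 : TD (W (m l) (σ l) (FD F m σ l)) (fun t => m (l + 1 + t))
          (fun t => σ (l + 1 + t)) (Xi (m l - h) h (σ l) (FD F m σ l)) (N - (l + 1)) y ≤
        oD F m σ N (l + 1)
          (fun z => h / 2 * σ l ^ 2 * Ax (m l) (σ l) (FD F m σ l) (gD F D m σ l) z) y := by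
      refine TD_mono' l1 hc.B0 (mpos' hm (l + 1)) (bm_Xi hc hcc hl1 hh (σ l))
        (((bm_gD h1 hm').Ax hc.lip hc.B0 _ _).const_mul _) (fun z => ?_) y
      have e4 := Xi_le_gU hc hcc hl1 hh (σ l) z
      rw [sub_add_cancel] at e4
      refine e4.trans (le_of_eq ?_)
      unfold gU
      rw [mul_assoc]
      rfl
    linarith
  have hb : Bm (oD F m σ N (l + 1)
      (fun z => h / 2 * σ l ^ 2 * Ax (m l) (σ l) (FD F m σ l) (gD F D m σ l) z)) :=
    bm_oD h1 hm (by omega) (((bm_gD h1 hm').Ax hc.lip hc.B0 _ _).const_mul _)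
  have h3 : PF F m σ N ≤ ∫ z, (FD F (ups m l (-h)) σ N (√(tB σ N) • z) + oD F m σ N (l + 1)
      (fun z => h / 2 * σ l ^ 2 * Ax (m l) (σ l) (FD F m σ l) (gD F D m σ l) z)
        (√(tB σ N) • z)) ∂(gI κ) :=
    integral_mono (eg_PF h1 hm _).integrable
      ((eg_PF h1 hup _).integrable.add (Bm.smul' hb _).eg.integrable) fun z => key _
  rw [integral_add (eg_PF h1 hup _).integrable (Bm.smul' hb _).eg.integrable] at h3
  have h4 : ∫ z, oD F m σ N (l + 1)
      (fun z => h / 2 * σ l ^ 2 * Ax (m l) (σ l) (FD F m σ l) (gD F D m σ l) z)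
      (√(tB σ N) • z) ∂(gI κ) = h / 2 * σ l ^ 2 * Qp F D m σ N l := by
    unfold Qp
    rw [EP_succ hl (gD F D m σ l)]
    exact EP_const_mul (N := N) (i := l + 1) (h / 2 * σ l ^ 2)
      (Ax (m l) (σ l) (FD F m σ l) (gD F D m σ l))
  rw [h4] at h3
  unfold PF at h3 ⊢
  linarith

end var

end gen

end Vale.Agent.P146.H767
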