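import Vale.Agent.P146.H376.Brk
import Vale.Agent.P146.H641.ShiftU
import Vale.Agent.P146.H767.DDx

/-!
# P146: the base variance of a value function, changes of law on the base

For a convex `U` of a Gaussian position, `λ/2 Var U ≤ (1/λ) log E e^{λ (U - E U)}` (the exponent
functional is convex in the exponent and has slope `Var U / 2` at `0`).  A weight `q` of the
position with entropy `K` moves the mean of `U` up by at most `gap + K/λ` and down by at most
`12 √(2 gap/λ) (K + 3/2)`.
-/

open MeasureTheory ProbabilityTheory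

namespace Vale.Agent.P146.H767

open Vale.Agent.P157.Lv Vale.Agent.P146.H425 Vale.Agent.P146.R1

set_option linter.unusedSectionVars false

section gen

variable {κ : Type} [Fintype κ] {F G G0 G1 U : (κ → ℝ) → ℝ} {D DU : κ → (κ → ℝ) → ℝ}
  {B B0 B1 L x a b : ℝ}

/-- joint convexity of one layer, exponent `0` on the first side -/
lemma layer0 (h : C11 G D B L) (h0 : LipB G0 B0) (hB0 : 0 ≤ B0) (h1 : LipB G1 B1)
    (hB1 : 0 ≤ B1) {x1 p q : ℝ} (hx1 : 0 < x1) (hp : 0 ≤ p) (hq : 0 < q)
    (hpq : p + q = 1)
    (hG : ∀ w0 w1, G (p • w0 + q • w1) ≤ p * G0 w0 + q * G1 w1) (b : ℝ) (y0 y1 : κ → ℝ) :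
    W (q * x1) b G (p • y0 + q • y1) ≤ p * Mn b G0 y0 + q * W x1 b G1 y1 := by
  refine le_of_forall_pos_le_add fun δ hδ => ?_
  set c := cW κ (B0 * |b|) with hc
  have hden : 0 < p * |c| + 1 := by positivity
  set e := min 1 (δ / (p * |c| + 1)) with he
  have he0 : 0 < e := lt_min one_pos (by positivity)
  have he1 : e ≤ 1 := min_le_left _ _
  have h2 := layer_b h h0 hB0 h1 hB1 he0 hx1 hp hq.le hpq hG b y0 y1
  have h3 := W_le_mean h0 hB0 he0 he1 b y0
  have h4 := H941.W_mono_exp (s := b) h.lip h.B0 (mul_pos hq hx1)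
    (le_add_of_nonneg_left (mul_nonneg hp he0.le) : q * x1 ≤ p * e + q * x1) (p • y0 + q • y1)
  have h5 : p * W e b G0 y0 ≤ p * (Mn b G0 y0 + e * c) := mul_le_mul_of_nonneg_left h3 hp
  have h6 : p * (e * c) ≤ δ := by
    have h7 : e ≤ δ / (p * |c| + 1) := min_le_right _ _
    rw [le_div_iff₀ hden] at h7
    have h8 : p * (e * c) ≤ e * (p * |c|) := by
      have := le_abs_self c
      have h9 : e * p * c ≤ e * p * |c| := mul_le_mul_of_nonneg_left this (by positivity)
      linarith
    nlinarith
  linarith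

/-- the exponent functional lies below its chord from the exponent `0` -/
lemma gap_slope (h : C11 U DU B L) (hc : Cv U) {lam e : ℝ} (hl : 0 < lam) (he : 0 < e)
    (hel : e ≤ lam) (b : ℝ) (z : κ → ℝ) :
    lam * (W e b U z - Mn b U z) ≤ e * (W lam b U z - Mn b U z) := by
  have hq : 0 < e / lam := by positivity
  have hq1 : e / lam ≤ 1 := (div_le_one hl).2 hel
  have h1 := layer0 h h.lip h.B0 h.lip h.B0 (x1 := lam) (p := 1 - e / lam) (q := e / lam) hl
    (by linarith) hq (by ring) (hc _ _ (by linarith) hq.le (by ring)) b z z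
  have e1 : (1 - e / lam) • z + (e / lam) • z = z := by
    rw [← add_smul]
    simp
  have e2 : e / lam * lam = e := by field_simp
  rw [e1, e2] at h1
  have h3 : lam * W e b U z ≤ lam * ((1 - e / lam) * Mn b U z + e / lam * W lam b U z) :=
    mul_le_mul_of_nonneg_left h1 hl.le
  have h4 : lam * ((1 - e / lam) * Mn b U z + e / lam * W lam b U z) =
      (lam - e) * Mn b U z + e * W lam b U z := by
    field_simp
  linarith

/-- `W` minus the mean is the normalised log moment of the centred function. -/
lemma W_sub_Mn (h : LipB U B) (hB : 0 ≤ B) {e : ℝ} (he : 0 < e) (b : ℝ) (z : κ → ℝ) :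
    e * (W e b U z - Mn b U z) =
      Real.log (∫ w, Real.exp (e * (U (z + b • w) - Mn b U z)) ∂(gI κ)) := by
  have hl := h.lip_smul hB z b
  have lY : Lip fun w => U (z + b • w) - Mn b U z := by
    have := hl.add (Lip.const (-Mn b U z))
    simpa [sub_eq_add_neg] using this
  have hp : 0 < ∫ w, Real.exp (e * (U (z + b • w) - Mn b U z)) ∂(gI κ) :=
    integral_exp_pos (lY.exp_eg e).integrable
  have e5 : ∀ w, Real.exp (e * U (z + b • w)) =
      Real.exp (e * Mn b U z) * Real.exp (e * (U (z + b • w) - Mn b U z)) := fun w => by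
    rw [← Real.exp_add]
    congr 1
    ring
  unfold W
  simp_rw [e5]
  rw [integral_const_mul, Real.log_mul (Real.exp_pos _).ne' hp.ne', Real.log_exp]
  field_simp
  ring

/-- **The base variance of a convex function is at most its exponential gap.** -/
theorem var_le_gap (h : C11 U DU B L) (hc : Cv U) {lam : ℝ} (hl : 0 < lam) (b : ℝ)
    (z : κ → ℝ) :
    lam / 2 * ∫ w, (U (z + b • w) - Mn b U z) ^ 2 ∂(gI κ) ≤ W lam b U z - Mn b U z := by
  have hlU := h.lip.lip_smul h.B0 z b
  have lY : Lip fun w => U (z + b • w) - Mn b U z := by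
    have := hlU.add (Lip.const (-Mn b U z))
    simpa [sub_eq_add_neg] using this
  have h0 : ∫ w, (U (z + b • w) - Mn b U z) ∂(gI κ) = 0 := by
    rw [integral_sub hlU.eg.integrable (integrable_const _)]
    simp [Mn]
  obtain ⟨C, b0, hb0, hs⟩ := small_lower lY h0
  set V := ∫ w, (U (z + b • w) - Mn b U z) ^ 2 ∂(gI κ) with hV
  set g := W lam b U z - Mn b U z with hg
  have key : ∀ e, 0 < e → e ≤ b0 → e ≤ lam → lam * (V / 2 - C * e) ≤ g := by
    intro e he heb hel
    have h1 := hs e he heb
    have h2 := W_sub_Mn h.lip h.B0 he b z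
    have h3 := gap_slope h hc hl he hel b z
    have hpos : 0 < ∫ w, Real.exp (e * (U (z + b • w) - Mn b U z)) ∂(gI κ) :=
      lt_of_lt_of_le (Real.exp_pos _) h1
    have h4 := Real.log_le_log (Real.exp_pos _) h1
    rw [Real.log_exp, ← h2] at h4
    have h5 : lam * (e * (V / 2 - C * e)) ≤ e * g := by
      have h6 : e * (e * (V / 2 - C * e)) ≤ e * (W e b U z - Mn b U z) := by
        refine le_trans (le_of_eq ?_) h4
        ring
      have h7 := le_of_mul_le_mul_left h6 he
      exact (mul_le_mul_of_nonneg_left h7 hl.le).trans h3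
    have h8 : e * (lam * (V / 2 - C * e)) ≤ e * g := by linarith
    exact le_of_mul_le_mul_left h8 he
  refine le_of_forall_pos_le_add fun δ hδ => ?_
  have hden : 0 < lam * |C| + 1 := by positivity
  set e := min (min b0 lam) (δ / (lam * |C| + 1)) with he
  have he0 : 0 < e := lt_min (lt_min hb0 hl) (by positivity)
  have h1 := key e he0 ((min_le_left _ _).trans (min_le_left _ _))
    ((min_le_left _ _).trans (min_le_right _ _))
  have h7 : e ≤ δ / (lam * |C| + 1) := min_le_right _ _
  rw [le_div_iff₀ hden] at h7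
  have h8 : lam * (C * e) ≤ e * (lam * |C|) := by
    have := le_abs_self C
    have h9 : e * lam * C ≤ e * lam * |C| := mul_le_mul_of_nonneg_left this (by positivity)
    linarith
  nlinarith

end gen

end Vale.Agent.P146.H767
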