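import Vale.Agent.P146.H767.SA

/-!
# P146: self-averaging of the value functions of the two-layer law over the free base

The profile `(0 | y on [w-τ, w] | x on [w, 1])`, `w = 1 - s`.  With a small exponent `θ x₁` on the
base: `(θ x₁; y; x) ≤ θ (x₁; x₁; x₁) + (1-θ) (0; y/(1-θ); x/(1-θ))`, so the exponential gap of the
value function at the start of the `y`-layer is at most
`G = θ (W x₁ 1 F 0 - E F) + δ D(R x, s + τ)`, `1/(1-θ) ≤ 1 + δ (R - 1)`.
-/

open MeasureTheory ProbabilityTheory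

namespace Vale.Agent.P146.H767

open Vale.Agent.P157.Lv Vale.Agent.P146.H425 Vale.Agent.P146.R1 Vale.Agent.P146.H376

set_option linter.unusedSectionVars false

section gen

variable {κ : Type} [Fintype κ] {F G G0 G1 U : (κ → ℝ) → ℝ} {D DU : κ → (κ → ℝ) → ℝ}
  {B B0 B1 L x y a b s τ lam : ℝ}

/-- The entropy of a weight. -/
noncomputable def Hq (q : (κ → ℝ) → ℝ) : ℝ := ∫ z, q z * Real.log (q z) ∂(gI κ)

lemma abs_mul_log_le {t : ℝ} (ht : 0 ≤ t) : |t * Real.log t| ≤ 1 + t ^ 2 := by
  rcases ht.eq_or_lt with h | h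
  · subst h
    simp
  · rcases le_total t 1 with h1 | h1
    · have := Real.abs_log_mul_self_lt t h h1
      rw [mul_comm]
      nlinarith [sq_nonneg t]
    · have h2 := Real.log_le_sub_one_of_pos h
      have h3 := Real.log_nonneg h1
      rw [abs_of_nonneg (mul_nonneg ht h3)]
      nlinarith

lemma eg_mul_log {q : (κ → ℝ) → ℝ} (hq : EG q) (h0 : ∀ z, 0 ≤ q z) :
    EG fun z => q z * Real.log (q z) :=
  ((EG.const 1).add (hq.pow 2)).mono (hq.meas.mul (Real.measurable_log.comp hq.meas)) fun z =>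
    (abs_mul_log_le (h0 z)).trans (le_abs_self _)

/-- the entropy of a bounded density -/
lemma Hq_le {q : (κ → ℝ) → ℝ} (hq : EG q) (h0 : ∀ z, 0 ≤ q z) (hi : ∫ z, q z ∂(gI κ) = 1)
    {Q : ℝ} (hQ : ∀ z, q z ≤ Q) : Hq q ≤ Real.log Q := by
  have hQ0 : 0 < Q := by
    by_contra hc
    have h1 : ∀ z, q z = 0 := fun z => le_antisymm ((hQ z).trans (not_lt.1 hc)) (h0 z)
    simp [h1] at hi
  have h1 : ∫ z, q z * Real.log (q z) ∂(gI κ) ≤ ∫ z, q z * Real.log Q ∂(gI κ) := by
    refine integral_mono (eg_mul_log hq h0).integrable (hq.integrable.mul_const _) fun z => ?_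
    rcases (h0 z).eq_or_lt with h | h
    · simp only
      rw [← h]
      simp
    · exact mul_le_mul_of_nonneg_left (Real.log_le_log h (hQ z)) (h0 z)
  rw [integral_mul_const, hi, one_mul] at h1
  exact h1

/-- **A weight with entropy `K` raises the mean by at most `gap + K/λ`.** -/
theorem up_shift (h : LipB U B) (hB : 0 ≤ B) (hl : 0 < lam) (b : ℝ) (y : κ → ℝ)
    {q : (κ → ℝ) → ℝ} (hq : EG q) (h0 : ∀ z, 0 ≤ q z) (hi : ∫ z, q z ∂(gI κ) = 1) :
    ∫ z, q z * U (y + b • z) ∂(gI κ) ≤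
      Mn b U y + (W lam b U y - Mn b U y) + Hq q / lam := by
  have hlU := h.lip_smul hB y b
  have lY : Lip fun w => U (y + b • w) - Mn b U y := by
    have := hlU.add (Lip.const (-Mn b U y))
    simpa [sub_eq_add_neg] using this
  have h1 := H632.DV.dv_gen (μ := gI κ) (u := fun z => lam * (U (y + b • z) - Mn b U y)) h0 hi
    (eg_mul_log hq h0).integrable (hq.mul (lY.eg.const_mul lam)).integrable
    (lY.exp_eg lam).integrable
  rw [← W_sub_Mn h hB hl b y] at h1
  have e1 : ∫ z, q z * (lam * (U (y + b • z) - Mn b U y)) ∂(gI κ) =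
      lam * (∫ z, q z * U (y + b • z) ∂(gI κ) - Mn b U y) := by
    have e2 : (fun z => q z * (lam * (U (y + b • z) - Mn b U y))) =
        fun z => lam * (q z * U (y + b • z)) - q z * (lam * Mn b U y) := by
      funext z
      ring
    rw [e2, integral_sub ((hq.mul hlU.eg).const_mul lam).integrable
      (hq.integrable.mul_const _), integral_const_mul, integral_mul_const, hi]
    ring
  rw [e1] at h1
  have h2 : lam * (∫ z, q z * U (y + b • z) ∂(gI κ) - Mn b U y - (W lam b U y - Mn b U y)) ≤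
      Hq q := by
    unfold Hq
    linarith
  have h3 : ∫ z, q z * U (y + b • z) ∂(gI κ) - Mn b U y - (W lam b U y - Mn b U y) ≤
      Hq q / lam := by
    rw [le_div_iff₀ hl]
    linarith
  linarith

/-- **A weight with entropy `K` lowers the mean of a convex function with variance at most `S²`
by at most `12 S (K + 3/2)`.** -/
theorem dn_shift (h : LipB U B) (hB : 0 ≤ B) (hc : Cv U) (b : ℝ) (y : κ → ℝ) {S : ℝ}
    (hS : 0 < S) (hV : ∫ w, (U (y + b • w) - Mn b U y) ^ 2 ∂(gI κ) ≤ S ^ 2)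
    {q : (κ → ℝ) → ℝ} (hq : EG q) (h0 : ∀ z, 0 ≤ q z) (hi : ∫ z, q z ∂(gI κ) = 1) :
    Mn b U y - ∫ z, q z * U (y + b • z) ∂(gI κ) ≤ 12 * S * (Hq q + 3 / 2) := by
  have hlU := h.lip_smul hB y b
  have hU2 : MemLp (fun z => U (y + b • z)) 2 (Measure.pi fun _ : κ => gaussianReal 0 1) := by
    rw [memLp_two_iff_integrable_sq hlU.measurable.aestronglyMeasurable]
    exact (hlU.eg.pow 2).integrable
  refine H641.SU.low_shift (U := fun z => U (y + b • z)) (h := q) hlU.measurable hU2 ?_ hS ?_ h0 hi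
    (eg_mul_log hq h0).integrable (hq.mul hlU.eg).integrable
  · intro u v
    have h1 := hc (1 / 2) (1 / 2) (by norm_num) (by norm_num) (by norm_num) (y + b • u) (y + b • v)
    have e : (1 / 2 : ℝ) • (y + b • u) + (1 / 2 : ℝ) • (y + b • v) =
        y + b • ((1 / 2 : ℝ) • u + (1 / 2 : ℝ) • v) := by
      have e2 : (1 / 2 : ℝ) • y + (1 / 2 : ℝ) • y = y := by
        rw [← add_smul]
        norm_num
      rw [smul_add, smul_add, smul_add, smul_comm b (1 / 2 : ℝ) u, smul_comm b (1 / 2 : ℝ) v]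
      nth_rewrite 3 [← e2]
      abel
    rw [e] at h1
    linarith
  · rw [variance_eq_integral hlU.measurable.aemeasurable]
    exact hV

end gen

end Vale.Agent.P146.H767
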