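import Vale.Agent.P146.H767.SA4

/-!
# P146: the bracket and the gain of the two-layer law under every weight of the base position

Upper side: `(x-y)/2 τ E_q |∇φ(y; x)|² ≤ (τ/s) D(x, s) + err` for every weight `q` of `z_{w-τ}`.
Lower side: `E_q [φ(y; x) - φ(y; x_*)] ≥ D(x, s) - (1 + τ/s) D(x_*, s) - err`.
-/

open MeasureTheory ProbabilityTheory

namespace Vale.Agent.P146.H767

open Vale.Agent.P157.Lv Vale.Agent.P146.H425 Vale.Agent.P146.R1 Vale.Agent.P146.H376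

set_option linter.unusedSectionVars false

section gen

variable {κ : Type} [Fintype κ] {F G G0 G1 U : (κ → ℝ) → ℝ} {D DU : κ → (κ → ℝ) → ℝ}
  {B B0 B1 L x y xs a b s τ lam x1 θ R δ E S : ℝ} {q : (κ → ℝ) → ℝ}

/-- The total error of the two changes of law. -/
noncomputable def esa (E S K lam : ℝ) : ℝ := E + K / lam + 12 * S * (K + 3 / 2)

/-- **The bracket under every weight of the base position.** -/
theorem bracket_sa (h : C11 F D B L) (hc : Cv F) (hx1 : 0 < x1) (h1y : x1 ≤ y) (hyx : y ≤ x)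
    (hθ : 0 < θ) (hθ1 : θ < 1) (hR : 0 < R) (hδ : 0 ≤ δ) (hδ1 : δ ≤ 1)
    (hδR : 1 / (1 - θ) - 1 ≤ δ * (R - 1)) (hτ : 0 ≤ τ) (hs : 0 < s) (h1 : s + τ ≤ 1)
    (hE : θ * (W x1 1 F 0 - ∫ z, F z ∂(gI κ)) + δ * DD (R * x) (s + τ) F ≤ E)
    (hS : 0 < S) (hES : 2 * E / (θ * x1) ≤ S ^ 2)
    (hconc : s * DD x (s + τ) F ≤ (s + τ) * DD x s F)
    (hq : EG q) (h0 : ∀ z, 0 ≤ q z) (hi : ∫ z, q z ∂(gI κ) = 1) :
    (x - y) / 2 * (τ * ∫ z, q z * S2 y τ x s F D (√(1 - (s + τ)) • z) ∂(gI κ)) ≤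
      τ / s * DD x s F + esa E S (Hq q) (θ * x1) := by
  have hy : 0 < y := hx1.trans_le h1y
  have hx : 0 < x := hy.trans_le hyx
  have h1x : x1 ≤ x := h1y.trans hyx
  have hE0 : θ * (W x1 1 F 0 - ∫ z, F z ∂(gI κ)) + δ * DD (R * x) s F ≤ E := by
    have h2 := DD_mono_s h (mul_pos hR hx) hs.le (by linarith : s ≤ s + τ) h1
    have h3 := mul_le_mul_of_nonneg_left h2 hδ
    linarith
  have up := sa_V2_up h hc hx1 h1x le_rfl hθ hθ1 hR hδ hδ1 hδR hτ hs.le h1 hE hq h0 hi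
  have dn := sa_V0_dn h hc hx1 h1x hθ hθ1 hR hδ hδ1 hδR hτ hs.le h1 hE0 hS hES hq h0 hi
  have k := bracket h hc hy hyx hτ hs h1 hq h0 up dn hconc
  unfold esa
  linarith

/-- **The gain under every weight of the base position.** -/
theorem gain_sa (h : C11 F D B L) (hc : Cv F) (hx1 : 0 < x1) (h1y : x1 ≤ y) (hys : y ≤ xs)
    (hsx : xs ≤ x)
    (hθ : 0 < θ) (hθ1 : θ < 1) (hR : 0 < R) (hδ : 0 ≤ δ) (hδ1 : δ ≤ 1)
    (hδR : 1 / (1 - θ) - 1 ≤ δ * (R - 1)) (hτ : 0 ≤ τ) (hs : 0 < s) (h1 : s + τ ≤ 1)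
    (hE : θ * (W x1 1 F 0 - ∫ z, F z ∂(gI κ)) + δ * DD (R * x) (s + τ) F ≤ E)
    (hS : 0 < S) (hES : 2 * E / (θ * x1) ≤ S ^ 2)
    (hconc : s * DD xs (s + τ) F ≤ (s + τ) * DD xs s F)
    (hq : EG q) (h0 : ∀ z, 0 ≤ q z) (hi : ∫ z, q z ∂(gI κ) = 1) :
    DD x s F - (1 + τ / s) * DD xs s F - esa E S (Hq q) (θ * x1) ≤
      ∫ z, q z * (V2 y τ x s F (√(1 - (s + τ)) • z) - V2 y τ xs s F (√(1 - (s + τ)) • z))
        ∂(gI κ) := by
  have hy : 0 < y := hx1.trans_le h1y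
  have hxs : 0 < xs := hy.trans_le hys
  have hx : 0 < x := hxs.trans_le hsx
  have hyx : y ≤ x := hys.trans hsx
  have hE0 : θ * (W x1 1 F 0 - ∫ z, F z ∂(gI κ)) + δ * DD (R * xs) (s + τ) F ≤ E := by
    have h2 := DD_mono h hc (mul_pos hR hxs) (mul_le_mul_of_nonneg_left hsx hR.le)
      (by linarith : 0 ≤ s + τ) h1
    have h3 := mul_le_mul_of_nonneg_left h2 hδ
    linarith
  have dn := sa_V2_dn h hc hx1 h1y hyx hθ hθ1 hR hδ hδ1 hδR hτ hs.le h1 hE hS hES hq h0 hi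
  have up := sa_V2_up h hc hx1 h1y hys hθ hθ1 hR hδ hδ1 hδR hτ hs.le h1 hE0 hq h0 hi
  have e4 : ∫ z, V0 τ x s F (√(1 - (s + τ)) • z) ∂(gI κ) = DD x s F + ∫ z, F z ∂(gI κ) := by
    rw [int_V0 h hx hτ h1]
    unfold DD
    ring
  have i3 : ∫ z, V0 τ x s F (√(1 - (s + τ)) • z) ∂(gI κ) ≤
      ∫ z, V2 y τ x s F (√(1 - (s + τ)) • z) ∂(gI κ) :=
    integral_mono (EG.smul' (eg_V0 h hx τ s) _).integrable
      (EG.smul' (eg_V2 h hx hy τ s) _).integrable fun z => V0_le_V2 h hx hy τ s _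
  have i4 : ∫ z, V2 y τ xs s F (√(1 - (s + τ)) • z) ∂(gI κ) ≤
      ∫ z, V2 xs τ xs s F (√(1 - (s + τ)) • z) ∂(gI κ) :=
    integral_mono (EG.smul' (eg_V2 h hxs hy τ s) _).integrable
      (EG.smul' (eg_V2 h hxs hxs τ s) _).integrable fun z =>
        V2_mono h hxs le_rfl hy hys τ s _
  rw [int_V2_self h hxs hτ hs.le] at i4
  have e5 : DD xs (s + τ) F ≤ (1 + τ / s) * DD xs s F := by
    have e6 : (1 + τ / s) * DD xs s F = (s + τ) * DD xs s F / s := by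
      field_simp
    rw [e6, le_div_iff₀ hs]
    linarith
  have j0 := hq.mul (EG.smul' (eg_V2 (τ := τ) (s := s) h hx hy) (√(1 - (s + τ))))
  have j1 := hq.mul (EG.smul' (eg_V2 (τ := τ) (s := s) h hxs hy) (√(1 - (s + τ))))
  have e7 : ∫ z, q z * (V2 y τ x s F (√(1 - (s + τ)) • z) -
      V2 y τ xs s F (√(1 - (s + τ)) • z)) ∂(gI κ) =
      ∫ z, q z * V2 y τ x s F (√(1 - (s + τ)) • z) ∂(gI κ) -
        ∫ z, q z * V2 y τ xs s F (√(1 - (s + τ)) • z) ∂(gI κ) := by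
    simp_rw [mul_sub]
    exact integral_sub j0.integrable j1.integrable
  rw [e7]
  unfold esa
  linarith

end gen

end Vale.Agent.P146.H767
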