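import Vale.Agent.P146.H767.SA5
import Vale.Agent.P146.H432.XLo
import Vale.Agent.P146.H695.Utc2

/-!
# P146: the numbers of the self-averaging of the two-layer law

At an exponent `x ≥ n^(-1/6+e)` and a window `s ≥ n^(-w) x²` with `D(x, s) ≥ n^(1-d) s x³`, every
change of law of the base with a density `≤ n^Q` moves the means of the value functions by at most
`n^(-c) D(x, s)`, if `2 (d + w) + 2 c < 5 e`.
-/

open MeasureTheory ProbabilityTheory Filter Topology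

namespace Vale.Agent.P146.H767

open Vale.Agent.P157.Lv Vale.Agent.P146.H425 Vale.Agent.P146.R1 Vale.Agent.P146.H376
  Vale.Agent.P146.H332 Vale.Agent.P146.H325
open Vale.Agent.P146.H432 (Dn Lg AntiN ev_small ev_big)
open Vale.Agent.P146.H946 (Dz)

set_option linter.unusedSectionVars false

lemma num_base {N d w e x s D : ℝ} (hN : 1 ≤ N) (hx : N ^ (-(1 / 6) + e) ≤ x)
    (hs : N ^ (-w) * x ^ 2 ≤ s) (hD : N ^ (1 - d) * s * x ^ 3 ≤ D) :
    N ^ (1 - d - w) * x ^ 5 ≤ D ∧ N ^ (1 / 6 + 5 * e - d - w) ≤ D := by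
  have hN0 : 0 < N := by linarith
  have hx0 : 0 < x := (Real.rpow_pos_of_pos hN0 _).trans_le hx
  have h1 : N ^ (1 - d - w) * x ^ 5 ≤ D := by
    refine le_trans (le_of_eq ?_) ((mul_le_mul_of_nonneg_right (mul_le_mul_of_nonneg_left hs
      (Real.rpow_nonneg hN0.le (1 - d))) (by positivity : 0 ≤ x ^ 3)).trans hD)
    have e1 : N ^ (1 - d - w) = N ^ (1 - d) * N ^ (-w) := by
      rw [← Real.rpow_add hN0]
      congr 1
    rw [e1]
    ring
  refine ⟨h1, le_trans ?_ h1⟩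
  have h2 : (N ^ (-(1 / 6) + e)) ^ 5 ≤ x ^ 5 :=
    pow_le_pow_left₀ (Real.rpow_nonneg hN0.le _) hx 5
  refine le_trans (le_of_eq ?_) (mul_le_mul_of_nonneg_left h2
    (Real.rpow_nonneg hN0.le (1 - d - w)))
  rw [← Real.rpow_natCast, ← Real.rpow_mul hN0.le, ← Real.rpow_add hN0]
  congr 1
  push_cast
  ring

/-- the deterministic core -/
lemma sa_core {N ε d w c e x s D P1 DD2 K : ℝ} (hN : 1 ≤ N) (hε : 0 < ε) (hd : 0 ≤ d)
    (hw : 0 ≤ w) (hc : 0 ≤ c) (he : 2 * (d + w) + 2 * c + 7 * ε ≤ 5 * e)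
    (hb : 2400 ≤ N ^ ε) (hx : N ^ (-(1 / 6) + e) ≤ x)
    (hs : N ^ (-w) * x ^ 2 ≤ s) (hD : N ^ (1 - d) * s * x ^ 3 ≤ D)
    (hP : P1 ≤ 2 * N ^ (1 / 6 + ε)) (hDD : DD2 ≤ 32 * N ^ (1 + ε) * x ^ 5)
    (hK : K + 3 / 2 ≤ N ^ ε) :
    ∃ θ E S : ℝ, 0 < θ ∧ θ ≤ 1 / 2 ∧ θ * P1 + 2 * θ * DD2 ≤ E ∧ 0 < S ∧
      2 * E / (θ * (N ^ (-(1 / 6) : ℝ) / 2)) ≤ S ^ 2 ∧
      esa E S K (θ * (N ^ (-(1 / 6) : ℝ) / 2)) ≤ N ^ (-c) * D := by
  have hN0 : 0 < N := by linarith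
  have hx0 : 0 < x := (Real.rpow_pos_of_pos hN0 _).trans_le hx
  obtain ⟨hD1, hD2⟩ := num_base hN hx hs hD
  have hD0 : 0 < D := (Real.rpow_pos_of_pos hN0 _).trans_le hD2
  obtain ⟨κ, hκ⟩ : ∃ κ, κ = w + d + 2 * ε + (c + ε) := ⟨_, rfl⟩
  have hκ0 : 0 < κ := by rw [hκ]; positivity
  obtain ⟨q, hq⟩ : ∃ q, q = N ^ ε := ⟨_, rfl⟩
  have hq0 : 0 < q := by rw [hq]; exact Real.rpow_pos_of_pos hN0 _
  have radd : ∀ a b : ℝ, N ^ a * N ^ b = N ^ (a + b) := fun a b => (Real.rpow_add hN0 a b).symm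
  have rmono : ∀ {a b : ℝ}, a ≤ b → N ^ a ≤ N ^ b := fun h =>
    Real.rpow_le_rpow_of_exponent_le hN h
  have rpos : ∀ a : ℝ, 0 < N ^ a := fun a => Real.rpow_pos_of_pos hN0 a
  have hθ2 : N ^ (-κ) ≤ 1 / 2 := by
    have h1 : N ^ (-κ) ≤ N ^ (-ε) := rmono (by rw [hκ]; linarith)
    have h2 : N ^ (-ε) * N ^ ε = 1 := by rw [radd]; simp
    have h3 : N ^ (-ε) * 2400 ≤ 1 := by
      rw [← h2]
      exact mul_le_mul_of_nonneg_left hb (rpos _).le
    linarith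
  refine ⟨N ^ (-κ), N ^ (-(c + ε)) * D, 2 * √(N ^ (κ - (c + ε) + 1 / 6) * D), rpos _, hθ2,
    ?_, ?_, ?_, ?_⟩
  · -- the gap
    have h1 : N ^ (-κ) * P1 ≤ 2 * (N ^ (-κ + ε + d + w) * D) := by
      have h2 : N ^ (-κ) * P1 ≤ N ^ (-κ) * (2 * N ^ (1 / 6 + ε)) :=
        mul_le_mul_of_nonneg_left hP (rpos _).le
      have h3 : N ^ (1 / 6 + ε) ≤ N ^ (ε + d + w) * D := by
        have h4 : N ^ (ε + d + w) * N ^ (1 / 6 + 5 * e - d - w) ≤ N ^ (ε + d + w) * D :=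
          mul_le_mul_of_nonneg_left hD2 (rpos _).le
        rw [radd] at h4
        refine (rmono ?_).trans h4
        nlinarith
      have h5 : N ^ (-κ) * N ^ (1 / 6 + ε) ≤ N ^ (-κ) * (N ^ (ε + d + w) * D) :=
        mul_le_mul_of_nonneg_left h3 (rpos _).le
      have e1 : N ^ (-κ) * (N ^ (ε + d + w) * D) = N ^ (-κ + ε + d + w) * D := by
        rw [← mul_assoc, radd]
        congr 2
        ring
      rw [e1] at h5
      linarith
    have h2 : 2 * N ^ (-κ) * DD2 ≤ 64 * (N ^ (-κ + ε + d + w) * D) := by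
      have h3 : 2 * N ^ (-κ) * DD2 ≤ 2 * N ^ (-κ) * (32 * N ^ (1 + ε) * x ^ 5) :=
        mul_le_mul_of_nonneg_left hDD (by have := rpos (-κ); positivity)
      have h4 : N ^ (1 + ε) * x ^ 5 ≤ N ^ (ε + d + w) * D := by
        have h5 : N ^ (ε + d + w) * (N ^ (1 - d - w) * x ^ 5) ≤ N ^ (ε + d + w) * D :=
          mul_le_mul_of_nonneg_left hD1 (rpos _).le
        rw [← mul_assoc, radd] at h5
        have e1 : ε + d + w + (1 - d - w) = 1 + ε := by ring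
        rwa [e1] at h5
      have h5 : N ^ (-κ) * (N ^ (1 + ε) * x ^ 5) ≤ N ^ (-κ) * (N ^ (ε + d + w) * D) :=
        mul_le_mul_of_nonneg_left h4 (rpos _).le
      have e1 : N ^ (-κ) * (N ^ (ε + d + w) * D) = N ^ (-κ + ε + d + w) * D := by
        rw [← mul_assoc, radd]
        congr 2
        ring
      rw [e1] at h5
      have e2 : 2 * N ^ (-κ) * (32 * N ^ (1 + ε) * x ^ 5) =
          64 * (N ^ (-κ) * (N ^ (1 + ε) * x ^ 5)) := by ring
      rw [e2] at h3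
      linarith
    have h3 : 66 * (N ^ (-κ + ε + d + w) * D) ≤ N ^ (-(c + ε)) * D := by
      have h4 : N ^ (-κ + ε + d + w) * N ^ ε = N ^ (-(c + ε)) * 1 := by
        rw [radd, mul_one]
        congr 1
        rw [hκ]
        ring
      have h5 : 66 * N ^ (-κ + ε + d + w) ≤ N ^ (-κ + ε + d + w) * N ^ ε := by
        have := mul_le_mul_of_nonneg_left hb (rpos (-κ + ε + d + w)).le
        linarith [rpos (-κ + ε + d + w)]
      rw [h4, mul_one] at h5
      have := mul_le_mul_of_nonneg_right h5 hD0.le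
      linarith
    linarith
  · have := Real.sqrt_pos.2 (mul_pos (rpos (κ - (c + ε) + 1 / 6)) hD0)
    linarith
  · -- the variance
    have e0 : (2 * √(N ^ (κ - (c + ε) + 1 / 6) * D)) ^ 2 = 4 * (N ^ (κ - (c + ε) + 1 / 6) * D) := by
      rw [mul_pow, Real.sq_sqrt (mul_nonneg (rpos _).le hD0.le)]
      norm_num
    rw [e0, div_le_iff₀ (by have := rpos (-κ); have := rpos (-(1 / 6)); positivity)]
    have e1 : N ^ (κ - (c + ε) + 1 / 6) * (N ^ (-κ) * N ^ (-(1 / 6) : ℝ)) = N ^ (-(c + ε)) := by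
      rw [radd, radd]
      congr 1
      ring
    have e2 : 4 * (N ^ (κ - (c + ε) + 1 / 6) * D) * (N ^ (-κ) * (N ^ (-(1 / 6) : ℝ) / 2)) =
        2 * (N ^ (κ - (c + ε) + 1 / 6) * (N ^ (-κ) * N ^ (-(1 / 6) : ℝ))) * D := by ring
    rw [e2, e1]
    exact le_of_eq (by ring)
  · -- the error
    unfold esa
    have k1 : K / (N ^ (-κ) * (N ^ (-(1 / 6) : ℝ) / 2)) ≤ N ^ (-(c + ε)) * D := by
      rw [div_le_iff₀ (by have := rpos (-κ); have := rpos (-(1 / 6)); positivity)]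
      have h1 : K ≤ N ^ ε := by linarith
      refine h1.trans ?_
      have h2 : N ^ (-(c + ε)) * N ^ (1 / 6 + 5 * e - d - w) *
          (N ^ (-κ) * (N ^ (-(1 / 6) : ℝ) / 2)) ≤
          N ^ (-(c + ε)) * D * (N ^ (-κ) * (N ^ (-(1 / 6) : ℝ) / 2)) := by
        refine mul_le_mul_of_nonneg_right (mul_le_mul_of_nonneg_left hD2 (rpos _).le) ?_
        have := rpos (-κ)
        have := rpos (-(1 / 6))
        positivity
      refine le_trans ?_ h2
      have e1 : N ^ (-(c + ε)) * N ^ (1 / 6 + 5 * e - d - w) *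
          (N ^ (-κ) * (N ^ (-(1 / 6) : ℝ) / 2)) =
          N ^ (-(c + ε)) * N ^ (1 / 6 + 5 * e - d - w) * (N ^ (-κ) * N ^ (-(1 / 6) : ℝ)) / 2 := by
        ring
      rw [e1, radd, radd, radd, le_div_iff₀ (by norm_num)]
      have h3 : N ^ ε * 2 ≤ N ^ ε * N ^ ε := mul_le_mul_of_nonneg_left (by linarith) (rpos _).le
      refine h3.trans ?_
      rw [radd]
      refine rmono ?_
      rw [hκ]
      linarith
    have k2 : 12 * (2 * √(N ^ (κ - (c + ε) + 1 / 6) * D)) * (K + 3 / 2) ≤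
        N ^ (-(c + ε)) * D := by
      have h1 : 12 * (2 * √(N ^ (κ - (c + ε) + 1 / 6) * D)) * (K + 3 / 2) ≤
          24 * N ^ ε * √(N ^ (κ - (c + ε) + 1 / 6) * D) := by
        have := mul_le_mul_of_nonneg_left hK
          (Real.sqrt_nonneg (N ^ (κ - (c + ε) + 1 / 6) * D))
        linarith
      refine h1.trans ?_
      refine abs_le_of_sq_le_sq' ?_ (mul_nonneg (rpos _).le hD0.le) |>.2
      rw [mul_pow, Real.sq_sqrt (mul_nonneg (rpos _).le hD0.le)]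
      have h2 : (24 * N ^ ε) ^ 2 * (N ^ (κ - (c + ε) + 1 / 6) * D) =
          576 * (N ^ ε * N ^ ε * N ^ (κ - (c + ε) + 1 / 6)) * D := by ring
      have h3 : (N ^ (-(c + ε)) * D) ^ 2 = N ^ (-(c + ε)) * N ^ (-(c + ε)) * D * D := by ring
      rw [h2, h3]
      refine mul_le_mul_of_nonneg_right ?_ hD0.le
      have h4 : N ^ (-(c + ε)) * N ^ (-(c + ε)) * N ^ (1 / 6 + 5 * e - d - w) ≤
          N ^ (-(c + ε)) * N ^ (-(c + ε)) * D :=
        mul_le_mul_of_nonneg_left hD2 (by have := rpos (-(c + ε)); positivity)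
      refine le_trans ?_ h4
      rw [radd, radd, radd, radd]
      have h5 : 576 * N ^ (ε + ε + (κ - (c + ε) + 1 / 6)) ≤
          N ^ ε * N ^ (ε + ε + (κ - (c + ε) + 1 / 6)) :=
        mul_le_mul_of_nonneg_right (by linarith) (rpos _).le
      refine h5.trans ?_
      rw [radd]
      refine rmono ?_
      rw [hκ]
      linarith
    have k3 : 3 * (N ^ (-(c + ε)) * D) ≤ N ^ (-c) * D := by
      have h4 : N ^ (-(c + ε)) * N ^ ε = N ^ (-c) := by
        rw [radd]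
        congr 1
        ring
      have h5 : 3 * N ^ (-(c + ε)) ≤ N ^ (-(c + ε)) * N ^ ε := by
        have := mul_le_mul_of_nonneg_left hb (rpos (-(c + ε))).le
        linarith [rpos (-(c + ε))]
      rw [h4] at h5
      have := mul_le_mul_of_nonneg_right h5 hD0.le
      linarith
    linarith

end Vale.Agent.P146.H767
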