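import Vale.Agent.P146.H767.Glue
import Vale.Agent.P146.H941.Deep

/-!
# P146: shortening a window and raising its exponent increases the profile functional

For a convex function `F` of a Gaussian vector, the exponent `x` on a layer of variance `2 b²` is
at most the profile with the exponent `0` on the first half and `2 x` on the second half:
`W x (√2 b) F y ≤ E W (2x) b F (y + b z)`.  Hence `D(x, s) ≤ D(2x, s/2)` for the functional
`D(x, s)` of the exponent `x` on the last window of length `s`.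
-/

open MeasureTheory ProbabilityTheory

namespace Vale.Agent.P146.H767

open Vale.Agent.P157.Lv Vale.Agent.P146.H425 Vale.Agent.P146.H332 Vale.Agent.P146.H325
open Vale.Agent.P146.R1 Vale.Agent.P146.H522
open Vale.Agent.P146.H946 (Dz)

set_option linter.unusedSectionVars false

section gen

variable {κ : Type} [Fintype κ] {F G G0 G1 : (κ → ℝ) → ℝ} {D : κ → (κ → ℝ) → ℝ}
  {B B0 B1 L x a b : ℝ}

/-- The mean over one layer. -/
noncomputable def Mn (b : ℝ) (F : (κ → ℝ) → ℝ) (y : κ → ℝ) : ℝ := ∫ z, F (y + b • z) ∂(gI κ)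

/-- joint convexity of one layer, any width -/
lemma layer_b (h : C11 G D B L) (h0 : LipB G0 B0) (hB0 : 0 ≤ B0) (h1 : LipB G1 B1)
    (hB1 : 0 ≤ B1) {x0 x1 p q : ℝ} (hx0 : 0 < x0) (hx1 : 0 < x1) (hp : 0 ≤ p) (hq : 0 ≤ q)
    (hpq : p + q = 1)
    (hG : ∀ w0 w1, G (p • w0 + q • w1) ≤ p * G0 w0 + q * G1 w1) (b : ℝ) (y0 y1 : κ → ℝ) :
    W (p * x0 + q * x1) b G (p • y0 + q • y1) ≤ p * W x0 b G0 y0 + q * W x1 b G1 y1 := by
  have k0 : LipB (fun z => G0 (y0 + b • z)) (B0 * |b|) := fun z w => by
    have e : y0 + b • (z + w) = (y0 + b • z) + b • w := by rw [smul_add, add_assoc]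
    simp only
    rw [e]
    refine (h0 _ _).trans (le_of_eq ?_)
    rw [norm_smul, Real.norm_eq_abs]
    ring
  have k1 : LipB (fun z => G1 (y1 + b • z)) (B1 * |b|) := fun z w => by
    have e : y1 + b • (z + w) = (y1 + b • z) + b • w := by rw [smul_add, add_assoc]
    simp only
    rw [e]
    refine (h1 _ _).trans (le_of_eq ?_)
    rw [norm_smul, Real.norm_eq_abs]
    ring
  have key := layer (h.shift (p • y0 + q • y1) b) k0 (by positivity) k1 (by positivity) hx0 hx1
    hp hq hpq (fun w0 w1 => by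
      have e : p • y0 + q • y1 + b • (p • w0 + q • w1) =
          p • (y0 + b • w0) + q • (y1 + b • w1) := by
        rw [smul_add, smul_add, smul_add, smul_comm b p, smul_comm b q]
        abel
      rw [e]
      exact hG _ _) 0 0
  simp only [smul_zero, add_zero] at key
  rwa [W_shift, W_shift, W_shift] at key

/-- the exponential moment constant of one layer -/
noncomputable def cW (κ : Type) [Fintype κ] (c : ℝ) : ℝ :=
  ∫ z : κ → ℝ, (c * (‖z‖ + ∫ w : κ → ℝ, ‖w‖ ∂(gI κ))) ^ 2 *
    Real.exp (c * (‖z‖ + ∫ w : κ → ℝ, ‖w‖ ∂(gI κ))) ∂(gI κ)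

lemma eg_cW (c m : ℝ) : EG fun z : κ → ℝ => (c * (‖z‖ + m)) ^ 2 * Real.exp (c * (‖z‖ + m)) := by
  have e1 : EG fun z : κ → ℝ => c * (‖z‖ + m) := (eg_norm.add (EG.const m)).const_mul c
  have e2 : (fun z : κ → ℝ => Real.exp (c * (‖z‖ + m))) =
      fun z : κ → ℝ => Real.exp (c * m) * Real.exp (c * ‖z‖) := by
    funext z
    rw [← Real.exp_add]
    congr 1
    ring
  refine (e1.pow 2).mul ?_
  rw [e2]
  exact (eg_exp_norm c).const_mul _

/-- a small exponent, uniformly in the position -/
lemma W_le_mean (h : LipB F B) (hB : 0 ≤ B) {e : ℝ} (he : 0 < e) (he1 : e ≤ 1) (b : ℝ)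
    (y : κ → ℝ) : W e b F y ≤ Mn b F y + e * cW κ (B * |b|) := by
  set m := ∫ w : κ → ℝ, ‖w‖ ∂(gI κ) with hm
  have hm0 : 0 ≤ m := integral_nonneg fun w => norm_nonneg w
  set c := B * |b| with hc
  have hc0 : 0 ≤ c := by positivity
  have hl := h.lip_smul hB y b
  have eF : EG fun z => F (y + b • z) := hl.eg
  set E := ∫ z, F (y + b • z) ∂(gI κ) with hE
  have hY : ∀ z, |F (y + b • z) - E| ≤ c * (‖z‖ + m) := by
    intro z
    have e1 : F (y + b • z) - E = ∫ w, (F (y + b • z) - F (y + b • w)) ∂(gI κ) := by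
      rw [integral_sub (integrable_const _) eF.integrable]
      simp [hE]
    rw [e1]
    refine abs_integral_le_integral_abs.trans ?_
    have e2 : c * (‖z‖ + m) = ∫ w : κ → ℝ, c * (‖z‖ + ‖w‖) ∂(gI κ) := by
      rw [integral_const_mul, integral_add (integrable_const _) eg_norm.integrable]
      simp [hm]
    rw [e2]
    refine integral_mono ((integrable_const _).sub eF.integrable).abs
      (((integrable_const _).add eg_norm.integrable).const_mul c) fun w => ?_
    have h2 := h (y + b • w) (b • (z - w))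
    have e3 : y + b • w + b • (z - w) = y + b • z := by rw [smul_sub]; abel
    rw [e3] at h2
    refine h2.trans ?_
    rw [norm_smul, Real.norm_eq_abs]
    have h3 := norm_sub_le z w
    have : B * (|b| * ‖z - w‖) = c * ‖z - w‖ := by rw [hc]; ring
    rw [this]
    exact mul_le_mul_of_nonneg_left h3 hc0
  have eY : EG fun z => F (y + b • z) - E := eF.sub (EG.const E)
  have lY : Lip fun z => F (y + b • z) - E := by
    have := hl.add (Lip.const (-E))
    simpa [sub_eq_add_neg] using this
  have h1 : ∫ z, Real.exp (e * (F (y + b • z) - E)) ∂(gI κ) ≤ 1 + e ^ 2 * cW κ c := by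
    have e4 : 1 + e ^ 2 * cW κ c = ∫ z : κ → ℝ, ((1 + e * (F (y + b • z) - E)) +
        e ^ 2 * ((c * (‖z‖ + m)) ^ 2 * Real.exp (c * (‖z‖ + m)))) ∂(gI κ) := by
      have i1 : Integrable (fun z : κ → ℝ => 1 + e * (F (y + b • z) - E)) (gI κ) :=
        ((EG.const 1).add (eY.const_mul e)).integrable
      have i2 : Integrable (fun z : κ → ℝ => e ^ 2 * ((c * (‖z‖ + m)) ^ 2 *
          Real.exp (c * (‖z‖ + m)))) (gI κ) := ((eg_cW c m).const_mul _).integrable
      have i3 : Integrable (fun z : κ → ℝ => e * (F (y + b • z) - E)) (gI κ) :=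
        (eY.const_mul e).integrable
      rw [integral_add i1 i2, integral_add (integrable_const _) i3, integral_const_mul,
        integral_const_mul, integral_sub eF.integrable (integrable_const _)]
      unfold cW
      simp [hE, hm]
    rw [e4]
    refine integral_mono (lY.exp_eg e).integrable
      (((EG.const 1).add (eY.const_mul e)).add ((eg_cW c m).const_mul _)).integrable fun z => ?_
    simp only
    have h2 := exp_le_quad (e * (F (y + b • z) - E))
    have h3 := hY z
    have h4 : |e * (F (y + b • z) - E)| ≤ c * (‖z‖ + m) := by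
      rw [abs_mul, abs_of_pos he]
      calc e * |F (y + b • z) - E| ≤ 1 * |F (y + b • z) - E| :=
            mul_le_mul_of_nonneg_right he1 (abs_nonneg _)
        _ ≤ c * (‖z‖ + m) := by rw [one_mul]; exact h3
    have h5 : (e * (F (y + b • z) - E)) ^ 2 ≤ e ^ 2 * (c * (‖z‖ + m)) ^ 2 := by
      rw [mul_pow]
      refine mul_le_mul_of_nonneg_left ?_ (sq_nonneg e)
      rw [← sq_abs]
      exact pow_le_pow_left₀ (abs_nonneg _) h3 2
    have h6 := Real.exp_le_exp.2 h4
    have h7 : (e * (F (y + b • z) - E)) ^ 2 * Real.exp |e * (F (y + b • z) - E)| ≤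
        e ^ 2 * (c * (‖z‖ + m)) ^ 2 * Real.exp (c * (‖z‖ + m)) :=
      mul_le_mul h5 h6 (Real.exp_pos _).le (by positivity)
    linarith
  have hp : 0 < ∫ z, Real.exp (e * (F (y + b • z) - E)) ∂(gI κ) :=
    integral_exp_pos (lY.exp_eg e).integrable
  have hlog : Real.log (∫ z, Real.exp (e * (F (y + b • z) - E)) ∂(gI κ)) ≤ e ^ 2 * cW κ c := by
    have h2 := Real.log_le_sub_one_of_pos hp
    linarith
  unfold W
  have e5 : ∀ z, Real.exp (e * F (y + b • z)) =
      Real.exp (e * E) * Real.exp (e * (F (y + b • z) - E)) := fun z => by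
    rw [← Real.exp_add]
    congr 1
    ring
  simp_rw [e5]
  rw [integral_const_mul, Real.log_mul (Real.exp_pos _).ne' hp.ne', Real.log_exp]
  have e6 : Mn b F y = E := rfl
  rw [e6, one_div, inv_mul_le_iff₀ he]
  nlinarith [hlog]

/-- **Jensen's inequality for the layer functional**: averaging first lowers it. -/
lemma W_Mn_le (h : C11 F D B L) (hx : 0 < x) (b : ℝ) (y : κ → ℝ) :
    W x b (Mn b F) y ≤ ∫ z, W x b F (y + b • z) ∂(gI κ) := by
  have hlM : LipB (Mn b F) B := by
    intro u w
    unfold Mn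
    have e0 : EG fun z => F (u + w + b • z) := (h.lip.lip_smul h.B0 _ b).eg
    have e1 : EG fun z => F (u + b • z) := (h.lip.lip_smul h.B0 _ b).eg
    rw [← integral_sub e0.integrable e1.integrable]
    refine abs_integral_le_integral_abs.trans ?_
    have e2 : B * ‖w‖ = ∫ _z : κ → ℝ, B * ‖w‖ ∂(gI κ) := by simp
    rw [e2]
    refine integral_mono (e0.sub e1).integrable.abs (integrable_const _) fun z => ?_
    have e3 : u + w + b • z = u + b • z + w := by abel
    simp only
    rw [e3]
    exact h.lip _ _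
  set w : (κ → ℝ) → ℝ := fun z2 => Real.exp (x * Mn b F (y + b • z2)) with hw
  have ew : EG w := (hlM.lip_smul h.B0 y b).exp_eg x
  have w0 : ∀ z, 0 ≤ w z := fun z => (Real.exp_pos _).le
  have pA : 0 < ∫ z, w z ∂(gI κ) := integral_exp_pos ew.integrable
  set A := ∫ z, w z ∂(gI κ) with hA
  set t : (κ → ℝ) → (κ → ℝ) → ℝ := fun z1 z2 =>
    x * (F (y + b • z1 + b • z2) - Mn b F (y + b • z2)) with ht
  have et : ∀ z1, EG (t z1) := fun z1 =>
    ((h.lip.lip_smul h.B0 (y + b • z1) b).eg.sub (hlM.lip_smul h.B0 y b).eg).const_mul x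
  have h1 : ∀ z1, Real.log A + (∫ z2, w z2 * t z1 z2 ∂(gI κ)) / A ≤
      x * W x b F (y + b • z1) := by
    intro z1
    have e1 : ∀ z2, w z2 * Real.exp (t z1 z2) = Real.exp (x * F (y + b • z1 + b • z2)) := by
      intro z2
      rw [hw, ht]
      simp only
      rw [← Real.exp_add]
      congr 1
      ring
    have ee : EG fun z2 => w z2 * Real.exp (t z1 z2) := by
      simp_rw [e1]
      exact (h.lip.lip_smul h.B0 (y + b • z1) b).exp_eg x
    have h2 := jensen_tilt ew w0 pA (et z1) ee
    simp_rw [e1] at h2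
    rw [← h.lip.exp_W h.B0 hx] at h2
    have h3 := Real.log_le_log (mul_pos pA (Real.exp_pos _)) h2
    rwa [Real.log_mul pA.ne' (Real.exp_pos _).ne', Real.log_exp, Real.log_exp] at h3
  -- Fubini
  obtain ⟨C, k, hC, hk, hb⟩ := h.eg.bdd
  obtain ⟨C', k', hC', hk', hb'⟩ := ew.bdd
  have iF : Integrable (fun p : (κ → ℝ) × (κ → ℝ) => w p.2 * F (y + b • p.1 + b • p.2))
      ((gI κ).prod (gI κ)) := by
    have j1 : Integrable (fun z : κ → ℝ => Real.exp (k * |b| * ‖z‖)) (gI κ) :=
      (eg_exp_norm _).integrable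
    have j2 : Integrable (fun z : κ → ℝ => C' * Real.exp (k' * ‖z‖) *
        (C * Real.exp (k * ‖y‖) * Real.exp (k * |b| * ‖z‖))) (gI κ) :=
      (((eg_exp_norm k').const_mul C').mul ((eg_exp_norm (k * |b|)).const_mul _)).integrable
    have j3 := j1.mul_prod j2
    refine j3.mono' ?_ (Filter.Eventually.of_forall fun p => ?_)
    · refine ((ew.meas.comp measurable_snd).mul (h.eg.meas.comp ?_)).aestronglyMeasurable
      fun_prop
    · rw [Real.norm_eq_abs, abs_mul]
      have g1 := hb' p.2
      have g2 := hb (y + b • p.1 + b • p.2)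
      have g3 : ‖y + b • p.1 + b • p.2‖ ≤ ‖y‖ + |b| * ‖p.1‖ + |b| * ‖p.2‖ := by
        refine (norm_add_le _ _).trans (add_le_add ((norm_add_le _ _).trans ?_) ?_)
        · rw [norm_smul, Real.norm_eq_abs]
        · rw [norm_smul, Real.norm_eq_abs]
      have g4 : Real.exp (k * ‖y + b • p.1 + b • p.2‖) ≤
          Real.exp (k * ‖y‖) * Real.exp (k * |b| * ‖p.1‖) * Real.exp (k * |b| * ‖p.2‖) := by
        rw [← Real.exp_add, ← Real.exp_add]
        refine Real.exp_le_exp.2 ?_
        calc k * ‖y + b • p.1 + b • p.2‖ ≤ k * (‖y‖ + |b| * ‖p.1‖ + |b| * ‖p.2‖) :=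
              mul_le_mul_of_nonneg_left g3 hk
          _ = _ := by ring
      calc |w p.2| * |F (y + b • p.1 + b • p.2)|
          ≤ (C' * Real.exp (k' * ‖p.2‖)) * (C * (Real.exp (k * ‖y‖) *
            Real.exp (k * |b| * ‖p.1‖) * Real.exp (k * |b| * ‖p.2‖))) := by
            refine mul_le_mul g1 (g2.trans (mul_le_mul_of_nonneg_left g4 hC)) (abs_nonneg _)
              (by positivity)
        _ = _ := by ring
  have iM : Integrable (fun p : (κ → ℝ) × (κ → ℝ) => w p.2 * Mn b F (y + b • p.2))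
      ((gI κ).prod (gI κ)) := by
    have := ((ew.mul (hlM.lip_smul h.B0 y b).eg).integrable).comp_snd (gI κ)
    exact this
  have it : Integrable (fun p : (κ → ℝ) × (κ → ℝ) => w p.2 * t p.1 p.2)
      ((gI κ).prod (gI κ)) := by
    have := (iF.sub iM).const_mul x
    refine this.congr (Filter.Eventually.of_forall fun p => ?_)
    simp only [ht, Pi.sub_apply]
    ring
  have h4 : ∫ z1, (∫ z2, w z2 * t z1 z2 ∂(gI κ)) ∂(gI κ) = 0 := by
    rw [integral_integral_swap it]
    have h5 : ∀ z2, ∫ z1, w z2 * t z1 z2 ∂(gI κ) = 0 := by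
      intro z2
      rw [integral_const_mul]
      have e1 : EG fun z1 => F (y + b • z1 + b • z2) := by
        have := (h.lip.lip_smul h.B0 (y + b • z2) b).eg
        refine (iff_of_eq ?_).1 this
        congr 1
        funext z1
        congr 1
        abel
      have h6 : ∫ z1, t z1 z2 ∂(gI κ) = 0 := by
        rw [ht]
        simp only
        rw [integral_const_mul, integral_sub e1.integrable (integrable_const _)]
        have e2 : ∫ z1, F (y + b • z1 + b • z2) ∂(gI κ) = Mn b F (y + b • z2) := by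
          unfold Mn
          congr 1
          funext z1
          congr 1
          abel
        rw [e2]
        simp
      rw [h6, mul_zero]
    simp_rw [h5]
    simp
  have eW : EG fun z : κ → ℝ => W x b F (y + b • z) :=
    ((h.W' hx b).lip.lip_smul h.B0 y b).eg
  have i5 : Integrable (fun z1 => ∫ z2, w z2 * t z1 z2 ∂(gI κ)) (gI κ) := it.integral_prod_left
  have h7 : Real.log A ≤ ∫ z1, x * W x b F (y + b • z1) ∂(gI κ) := by
    have h8 : ∫ z1, (Real.log A + (∫ z2, w z2 * t z1 z2 ∂(gI κ)) / A) ∂(gI κ) = Real.log A := by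
      rw [integral_add (integrable_const _) (i5.div_const A), integral_div, h4]
      simp
    rw [← h8]
    exact integral_mono ((integrable_const _).add (i5.div_const A)) (eW.const_mul x).integrable h1
  rw [integral_const_mul] at h7
  have e9 : W x b (Mn b F) y = 1 / x * Real.log A := rfl
  rw [e9, one_div, inv_mul_le_iff₀ hx]
  exact h7

/-- **The exponent `x` on a layer is at most `0` on its first half and `2 x` on the second.** -/
theorem W_half (h : C11 F D B L) (hc : Cv F) (hx : 0 < x) {a b : ℝ} (hab : b ^ 2 + b ^ 2 = a ^ 2)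
    (y : κ → ℝ) : W x a F y ≤ ∫ z, W (2 * x) b F (y + b • z) ∂(gI κ) := by
  have hx2 : 0 < 2 * x := by positivity
  have h2x := h.W' hx2 b
  refine le_of_forall_pos_le_add fun δ hδ => ?_
  obtain ⟨C, hC⟩ : ∃ C, C = cW κ (B * |b|) := ⟨_, rfl⟩
  have hC0 : 0 ≤ C := by
    rw [hC]
    unfold cW
    exact integral_nonneg fun z => by positivity
  set e : ℝ := min (min 1 x) (δ / (C + 1)) with he
  have e0 : 0 < e := lt_min (lt_min one_pos hx) (by positivity)
  have e1 : e ≤ 1 := (min_le_left _ _).trans (min_le_left _ _)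
  have ex : e ≤ x := (min_le_left _ _).trans (min_le_right _ _)
  have eδ : e * C ≤ δ := by
    have h1 : e ≤ δ / (C + 1) := min_le_right _ _
    rw [le_div_iff₀ (by positivity)] at h1
    nlinarith
  have hq : 0 < 2 * x - e := by linarith
  have hWq := h.W' hq b
  have hWe := h.W' e0 b
  have hWx := h.W' hx b
  have half : (1 / 2 : ℝ) * e + 1 / 2 * (2 * x - e) = x := by ring
  have half' : (1 / 2 : ℝ) * (2 * x - e) + 1 / 2 * e = x := by ring
  -- the inner layer
  have inner : ∀ w0 w1, W x b F ((1 / 2 : ℝ) • w0 + (1 / 2 : ℝ) • w1) ≤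
      1 / 2 * W (2 * x - e) b F w0 + 1 / 2 * W e b F w1 := by
    intro w0 w1
    have h3 := layer_b h h.lip h.B0 h.lip h.B0 hq e0 (p := 1 / 2) (q := 1 / 2) (by norm_num)
      (by norm_num) (by norm_num) (fun w0 w1 => hc _ _ (by norm_num) (by norm_num) (by norm_num)
        w0 w1) b w0 w1
    rwa [half'] at h3
  -- the outer layer
  have outer := layer_b hWx hWq.lip h.B0 hWe.lip h.B0 e0 hq (p := 1 / 2) (q := 1 / 2)
    (by norm_num) (by norm_num) (by norm_num) inner b y y
  rw [half] at outer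
  have ey : (1 / 2 : ℝ) • y + (1 / 2 : ℝ) • y = y := by
    rw [← add_smul]; norm_num
  rw [ey, W_W h.lip h.B0 hx hab] at outer
  -- first term
  have t1 : W e b (W (2 * x - e) b F) y ≤ Mn b (W (2 * x) b F) y + e * C := by
    have h4 := H941.W_mono (s := b) hWq.lip h.B0 h2x.lip h.B0 e0
      (fun z => H941.W_mono_exp (s := b) h.lip h.B0 hq (by linarith : 2 * x - e ≤ 2 * x) z) y
    have h5 := W_le_mean h2x.lip h.B0 e0 e1 b y
    rw [← hC] at h5
    linarith
  -- second term
  have t2 : W (2 * x - e) b (W e b F) y ≤ Mn b (W (2 * x) b F) y + e * C := by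
    have hM : LipB (Mn b F) B := by
      intro u w
      unfold Mn
      have f0 : EG fun z => F (u + w + b • z) := (h.lip.lip_smul h.B0 _ b).eg
      have f1 : EG fun z => F (u + b • z) := (h.lip.lip_smul h.B0 _ b).eg
      rw [← integral_sub f0.integrable f1.integrable]
      refine abs_integral_le_integral_abs.trans ?_
      have f2 : B * ‖w‖ = ∫ _z : κ → ℝ, B * ‖w‖ ∂(gI κ) := by simp
      rw [f2]
      refine integral_mono (f0.sub f1).integrable.abs (integrable_const _) fun z => ?_
      have f3 : u + w + b • z = u + b • z + w := by abel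
      simp only
      rw [f3]
      exact h.lip _ _
    have hM' : LipB (fun z => Mn b F z + e * C) B := by
      intro u w
      have := hM u w
      simpa using this
    have h4 := H941.W_mono (s := b) hWe.lip h.B0 hM' h.B0 hq
      (fun z => by
        have := W_le_mean h.lip h.B0 e0 e1 b z
        rwa [← hC] at this) y
    rw [H941.W_add_const hM h.B0 hq] at h4
    have h5 := W_Mn_le h hq b y
    have h6 : ∫ z, W (2 * x - e) b F (y + b • z) ∂(gI κ) ≤
        ∫ z, W (2 * x) b F (y + b • z) ∂(gI κ) :=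
      integral_mono (hWq.lip.lip_smul h.B0 y b).eg.integrable
        (h2x.lip.lip_smul h.B0 y b).eg.integrable fun z =>
          H941.W_mono_exp (s := b) h.lip h.B0 hq (by linarith : 2 * x - e ≤ 2 * x) _
    have e7 : Mn b (W (2 * x) b F) y = ∫ z, W (2 * x) b F (y + b • z) ∂(gI κ) := rfl
    rw [e7]
    linarith
  have e8 : Mn b (W (2 * x) b F) y = ∫ z, W (2 * x) b F (y + b • z) ∂(gI κ) := rfl
  rw [e8] at t1 t2
  linarith

/-- The functional of the profile with the exponent `x` on the last window of length `s`,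
relative to the mean. -/
noncomputable def DD (x s : ℝ) (F : (κ → ℝ) → ℝ) : ℝ :=
  ∫ z, uu x (1 - s) F (√(1 - s) • z) ∂(gI κ) - ∫ z, F z ∂(gI κ)

lemma DD_eq (x s : ℝ) (F : (κ → ℝ) → ℝ) :
    DD x s F = ∫ z, W x (√s) F (√(1 - s) • z) ∂(gI κ) - ∫ z, F z ∂(gI κ) := by
  unfold DD uu
  have e : (1 : ℝ) - (1 - s) = s := by ring
  rw [e]

/-- **The scaling inequality.** -/
theorem DD_two (h : C11 F D B L) (hc : Cv F) (hx : 0 < x) {s : ℝ} (hs : 0 ≤ s) (hs1 : s ≤ 1) :
    DD x s F ≤ DD (2 * x) (s / 2) F := by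
  have hx2 : 0 < 2 * x := by positivity
  rw [DD_eq, DD_eq]
  refine sub_le_sub_right ?_ _
  have hab : (√(s / 2)) ^ 2 + (√(s / 2)) ^ 2 = (√s) ^ 2 := by
    rw [Real.sq_sqrt (by positivity), Real.sq_sqrt hs]; ring
  have hrot : (√(1 - s)) ^ 2 + (√(s / 2)) ^ 2 = (√(1 - s / 2)) ^ 2 := by
    rw [Real.sq_sqrt (by linarith), Real.sq_sqrt (by positivity), Real.sq_sqrt (by linarith)]
    ring
  have eW2 : EG (W (2 * x) (√(s / 2)) F) := (h.W' hx2 _).eg
  have h1 := gI_rot eW2 hrot 0
  simp only [zero_add] at h1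
  rw [← h1]
  exact integral_mono (EG.smul' (h.W' hx _).eg _).integrable
    (EG.smul' (EG.conv eW2 _) _).integrable fun z => W_half h hc hx hab (√(1 - s) • z)

/-- **The scaling inequality, iterated.** -/
theorem DD_pow (h : C11 F D B L) (hc : Cv F) (hx : 0 < x) {s : ℝ} (hs : 0 ≤ s) (hs1 : s ≤ 1)
    (k : ℕ) : DD x s F ≤ DD (2 ^ k * x) (s / 2 ^ k) F := by
  induction k with
  | zero => simp
  | succ k ih =>
    have h2 : (1 : ℝ) ≤ 2 ^ k := one_le_pow₀ (by norm_num)
    have h1 := DD_two h hc (x := 2 ^ k * x) (by positivity) (s := s / 2 ^ k) (by positivity)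
      ((div_le_self hs h2).trans hs1)
    have e1 : 2 * (2 ^ k * x) = 2 ^ (k + 1) * x := by rw [pow_succ]; ring
    have e2 : s / 2 ^ k / 2 = s / 2 ^ (k + 1) := by rw [pow_succ, div_div]
    rw [e1, e2] at h1
    exact ih.trans h1

end gen

end Vale.Agent.P146.H767
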